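import Vale.Agent.P167.H506.Q.Low

/-!
# P167, general `q`, block Q-START: conditional expectations given the frozen squares

`EF P K κ F`: expectation of `F` given that the squares of `K` are in the states `κ`.
-/

namespace Vale.Agent.P167.H506.Q

open Finset MeasureTheory Vale.Agent.P167.FK Vale.Agent.P167.FKA
open Vale.Agent.P167.H519 (IsLim)
open Vale.Agent.P167.QX (QL dlr ql_Ex)

variable {Q : ℝ} {A V K : Finset (ℤ × ℤ)} {κ : Cfg} {a : ℝ} {P : Measure Cfg}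

/-- Expectation given the frozen squares. -/
noncomputable def EF (P : Measure Cfg) (K : Finset (ℤ × ℤ)) (κ : Cfg) (F : Cfg → ℝ) : ℝ :=
  (∫ ω, fz K κ ω * F ω ∂P) / ∫ ω, fz K κ ω ∂P

/-- **Finite energy**: the frozen squares have positive probability. -/
theorem fz_pos (hQ : 1 ≤ Q) (hP : IsLim Q P) (hg : ∀ᵐ ω ∂P, Good ω) (K : Finset (ℤ × ℤ))
    (κ : Cfg) : 0 < ∫ ω, fz K κ ω ∂P := by
  classical
  have hPp : IsProbabilityMeasure P := hP.1
  have hQ0 : 0 < Q := by linarith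
  have hM : ∀ ω, |fz K κ ω| ≤ 1 := fun ω => by
    rw [abs_of_nonneg (fz_nonneg _ _ _)]
    exact fz_le_one _ _ _
  rw [dlr hP hQ0 hg (QL.of_loc (fz_loc K κ)) (fun ω _ => hM ω) K]
  have h0 : ∀ ω, 0 ≤ Ex Q K ω (fz K κ) := fun ω => Ex_nonneg hQ0 fun _ _ => fz_nonneg _ _ _
  have h1 : ∀ ω, 0 < Ex Q K ω (fz K κ) := by
    intro ω
    unfold Ex
    refine div_pos ?_ (FKA.Zq_pos hQ0 K ω)
    refine Finset.sum_pos' (fun S _ => mul_nonneg (pow_pos hQ0 _).le (fz_nonneg _ _ _))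
      ⟨K.filter fun v => κ v = true, Finset.mem_powerset.2 (Finset.filter_subset _ _), ?_⟩
    have h2 : fz K κ (cf K ω (K.filter fun v => κ v = true)) = 1 := by
      refine fz_one fun v hv => ?_
      rw [H519.cf_in hv]
      cases h : κ v <;> simp [hv, h]
    rw [h2, mul_one]
    exact pow_pos hQ0 _
  have hi : Integrable (fun ω => Ex Q K ω (fz K κ)) P := by
    refine (ql_Ex K (QL.of_loc (fz_loc K κ))).int hg (M := 1) fun ω _ => ?_
    rw [abs_of_nonneg (h0 ω), ← Ex_const (D := K) (η := ω) hQ0 1]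
    exact Ex_mono hQ0 fun S _ => fz_le_one _ _ _
  rw [integral_pos_iff_support_of_nonneg h0 hi]
  have h3 : Function.support (fun ω => Ex Q K ω (fz K κ)) = Set.univ := by
    ext ω
    simp [(h1 ω).ne']
  rw [h3]
  simp

theorem EF_nonneg {F : Cfg → ℝ} (h : ∀ ω, 0 ≤ F ω) : 0 ≤ EF P K κ F :=
  div_nonneg (integral_nonneg fun ω => mul_nonneg (fz_nonneg _ _ _) (h ω))
    (integral_nonneg fun ω => fz_nonneg _ _ _)

/-- A bounded quasi-local function times the frozen indicator is integrable. -/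
theorem fz_int [IsFiniteMeasure P] (hg : ∀ᵐ ω ∂P, Good ω) {F : Cfg → ℝ} (hF : QL F) {M : ℝ}
    (hM : ∀ ω, Good ω → |F ω| ≤ M) : Integrable (fun ω => fz K κ ω * F ω) P := by
  refine ((QL.of_loc (fz_loc K κ)).mul hF).int hg (M := 1 * M) fun ω hω => ?_
  rw [abs_mul, abs_of_nonneg (fz_nonneg _ _ _)]
  have := fz_le_one K κ ω
  have := hM ω hω
  gcongr

theorem EF_mono [IsFiniteMeasure P] (hg : ∀ᵐ ω ∂P, Good ω) {F G : Cfg → ℝ} (hF : QL F)
    (hG : QL G) {M M' : ℝ} (hM : ∀ ω, Good ω → |F ω| ≤ M) (hM' : ∀ ω, Good ω → |G ω| ≤ M')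
    (h : ∀ ω, Good ω → (∀ v ∈ K, ω v = κ v) → F ω ≤ G ω) : EF P K κ F ≤ EF P K κ G := by
  refine div_le_div_of_nonneg_right ?_ (integral_nonneg fun ω => fz_nonneg _ _ _)
  refine integral_mono_ae (fz_int hg hF hM) (fz_int hg hG hM') ?_
  filter_upwards [hg] with ω hω
  show fz K κ ω * F ω ≤ fz K κ ω * G ω
  by_cases hk : ∀ v ∈ K, ω v = κ v
  · exact mul_le_mul_of_nonneg_left (h ω hω hk) (fz_nonneg _ _ _)
  · rw [fz_zero hk, zero_mul, zero_mul]

theorem EF_const (hp : 0 < ∫ ω, fz K κ ω ∂P) (c : ℝ) : EF P K κ (fun _ => c) = c := by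
  unfold EF
  rw [integral_mul_const]
  field_simp

theorem EF_mul_left (c : ℝ) (F : Cfg → ℝ) : EF P K κ (fun ω => c * F ω) = c * EF P K κ F := by
  unfold EF
  rw [← mul_div_assoc, ← integral_const_mul]
  congr 1
  refine integral_congr_ae (Filter.Eventually.of_forall fun ω => ?_)
  show fz K κ ω * (c * F ω) = c * (fz K κ ω * F ω)
  ring

/-- Mixing, ratio form. -/
theorem RM.EF_ratio (hQ : 1 ≤ Q) (h : RM Q K κ A V a) (hAK : Disjoint A K) (hP : IsLim Q P)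
    (hg : ∀ᵐ ω ∂P, Good ω) {T G : Cfg → ℝ} (hT0 : ∀ ω, 0 ≤ T ω) (hT : Loc (V ∪ K) T)
    (hG0 : ∀ ω, 0 ≤ G ω) (hGq : QL G) {M : ℝ} (hM : ∀ ω, Good ω → |G ω| ≤ M) (hG : Ind A G) :
    EF P K κ (fun ω => G ω * T ω) ≤ a * (EF P K κ G * EF P K κ T) ∧
      EF P K κ G * EF P K κ T ≤ a * EF P K κ (fun ω => G ω * T ω) := by
  have hp := fz_pos hQ hP hg K κ
  obtain ⟨h1, h2⟩ := h.ratio_lim hQ hAK hP hg hT0 hT hG0 hGq hM hG
  unfold EF
  obtain ⟨p, hp'⟩ : ∃ p, p = ∫ ω, fz K κ ω ∂P := ⟨_, rfl⟩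
  rw [← hp'] at hp h1 h2 ⊢
  have e1 : (∫ ω, fz K κ ω * G ω ∂P) / p * ((∫ ω, fz K κ ω * T ω ∂P) / p) =
      (∫ ω, fz K κ ω * G ω ∂P) * (∫ ω, fz K κ ω * T ω ∂P) / (p * p) := by
    field_simp
  have e2 : (∫ ω, fz K κ ω * (G ω * T ω) ∂P) / p =
      (∫ ω, fz K κ ω * (G ω * T ω) ∂P) * p / (p * p) := by
    field_simp
  rw [e1, e2, ← mul_div_assoc, ← mul_div_assoc]
  exact ⟨div_le_div_of_nonneg_right h1 (by positivity),
    div_le_div_of_nonneg_right h2 (by positivity)⟩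

/-- Mixing, additive form. -/
theorem RM.EF_mul (hQ : 1 ≤ Q) (hκ : Good κ) (h : RM Q K κ A V a) (hAK : Disjoint A K)
    (hP : IsLim Q P) (hg : ∀ᵐ ω ∂P, Good ω) {T G : Cfg → ℝ} (hT0 : ∀ ω, 0 ≤ T ω)
    (hT : Loc (V ∪ K) T) (hGq : QL G) {M : ℝ} (hM : ∀ ω, Good ω → |G ω| ≤ M) (hG : Ind A G) :
    |EF P K κ (fun ω => G ω * T ω) - EF P K κ G * EF P K κ T| ≤
      (a - 1) * (EF P K κ (fun ω => |G ω|) * EF P K κ T) := by
  have hp := fz_pos hQ hP hg K κ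
  have h1 := h.mul_lim hQ hκ hAK hP hg hT0 hT hGq hM hG
  unfold EF
  obtain ⟨p, hp'⟩ : ∃ p, p = ∫ ω, fz K κ ω ∂P := ⟨_, rfl⟩
  rw [← hp'] at hp h1 ⊢
  have e1 : (∫ ω, fz K κ ω * (G ω * T ω) ∂P) / p -
      (∫ ω, fz K κ ω * G ω ∂P) / p * ((∫ ω, fz K κ ω * T ω ∂P) / p) =
      ((∫ ω, fz K κ ω * (G ω * T ω) ∂P) * p -
        (∫ ω, fz K κ ω * G ω ∂P) * (∫ ω, fz K κ ω * T ω ∂P)) / (p * p) := by
    field_simp
  have e2 : (a - 1) * ((∫ ω, fz K κ ω * |G ω| ∂P) / p * ((∫ ω, fz K κ ω * T ω ∂P) / p)) =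
      (a - 1) * ((∫ ω, fz K κ ω * |G ω| ∂P) * (∫ ω, fz K κ ω * T ω ∂P)) / (p * p) := by
    field_simp
  rw [e1, e2, abs_div, abs_of_pos (by positivity : 0 < p * p)]
  exact div_le_div_of_nonneg_right h1 (by positivity)

/-- **Products of local functions in disjoint boxes.** -/
theorem EF_prod (hQ : 1 ≤ Q) (hP : IsLim Q P) (hg : ∀ᵐ ω ∂P, Good ω) (ha : 1 ≤ a)
    {ι : Type*} [DecidableEq ι] (I : Finset ι) {A V : ι → Finset (ℤ × ℤ)}
    (h : ∀ i ∈ I, RM Q K κ (A i) (V i) a) (hV : ∀ i ∈ I, V i ⊆ A i)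
    (hA : ∀ i ∈ I, ∀ j ∈ I, i ≠ j → Disjoint (A i) (A j)) (hK : ∀ i ∈ I, Disjoint (A i) K)
    {T : ι → Cfg → ℝ} (hT0 : ∀ i ∈ I, ∀ ω, 0 ≤ T i ω) (hT : ∀ i ∈ I, Loc (V i ∪ K) (T i)) :
    EF P K κ (fun ω => ∏ i ∈ I, T i ω) ≤ a ^ I.card * ∏ i ∈ I, EF P K κ (T i) ∧
      ∏ i ∈ I, EF P K κ (T i) ≤ a ^ I.card * EF P K κ (fun ω => ∏ i ∈ I, T i ω) := by
  have hPp : IsProbabilityMeasure P := hP.1
  have hp := fz_pos hQ hP hg K κ
  have ha0 : 0 ≤ a := by linarith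
  induction I using Finset.induction_on with
  | empty =>
    simp only [prod_empty, card_empty, pow_zero, one_mul]
    rw [EF_const hp]
    exact ⟨le_rfl, le_rfl⟩
  | @insert i I hi ih =>
    obtain ⟨h1, h2⟩ := ih (fun j hj => h j (Finset.mem_insert_of_mem hj))
      (fun j hj => hV j (Finset.mem_insert_of_mem hj))
      (fun j hj k hk => hA j (Finset.mem_insert_of_mem hj) k (Finset.mem_insert_of_mem hk))
      (fun j hj => hK j (Finset.mem_insert_of_mem hj))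
      (fun j hj => hT0 j (Finset.mem_insert_of_mem hj))
      (fun j hj => hT j (Finset.mem_insert_of_mem hj))
    have hii := Finset.mem_insert_self i I
    -- the product of the others
    have hGl : Loc (I.biUnion fun j => V j ∪ K) (fun ω => ∏ j ∈ I, T j ω) := by
      intro ω ω' hh
      refine prod_congr rfl fun j hj => hT j (Finset.mem_insert_of_mem hj) ω ω' fun v hv => ?_
      exact hh v (Finset.mem_biUnion.2 ⟨j, hj, hv⟩)
    have hGi : Ind (A i) (fun ω => ∏ j ∈ I, T j ω) := by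
      refine hGl.ind ?_
      rw [Finset.disjoint_biUnion_left]
      intro j hj
      rw [Finset.disjoint_union_left]
      constructor
      · exact Finset.disjoint_of_subset_left (hV j (Finset.mem_insert_of_mem hj))
          (hA j (Finset.mem_insert_of_mem hj) i hii fun h => hi (h ▸ hj))
      · exact (hK i hii).symm
    obtain ⟨M, hM⟩ := loc_bdd hGl
    have hG0 : ∀ ω, 0 ≤ ∏ j ∈ I, T j ω := fun ω =>
      prod_nonneg fun j hj => hT0 j (Finset.mem_insert_of_mem hj) ω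
    obtain ⟨r1, r2⟩ := (h i hii).EF_ratio hQ (hK i hii) hP hg (hT0 i hii) (hT i hii) hG0
      (QL.of_loc hGl) (fun ω _ => hM ω) hGi
    have e : (fun ω => ∏ j ∈ insert i I, T j ω) = fun ω => (∏ j ∈ I, T j ω) * T i ω := by
      funext ω
      rw [prod_insert hi, mul_comm]
    rw [e, prod_insert hi, card_insert_of_notMem hi, pow_succ]
    have t0 : 0 ≤ EF P K κ (T i) := EF_nonneg (hT0 i hii)
    have g0 : 0 ≤ EF P K κ (fun ω => ∏ j ∈ I, T j ω) := EF_nonneg hG0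
    constructor
    · calc EF P K κ (fun ω => (∏ j ∈ I, T j ω) * T i ω)
          ≤ a * (EF P K κ (fun ω => ∏ j ∈ I, T j ω) * EF P K κ (T i)) := r1
        _ ≤ a * ((a ^ I.card * ∏ j ∈ I, EF P K κ (T j)) * EF P K κ (T i)) := by gcongr
        _ = _ := by ring
    · calc EF P K κ (T i) * ∏ j ∈ I, EF P K κ (T j)
          ≤ EF P K κ (T i) * (a ^ I.card * EF P K κ (fun ω => ∏ j ∈ I, T j ω)) := by gcongr
        _ = a ^ I.card * (EF P K κ (fun ω => ∏ j ∈ I, T j ω) * EF P K κ (T i)) := by ring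
        _ ≤ a ^ I.card * (a * EF P K κ (fun ω => (∏ j ∈ I, T j ω) * T i ω)) := by gcongr
        _ = _ := by ring

end Vale.Agent.P167.H506.Q
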