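import Vale.Agent.P167.H506.Q.Loc3

/-!
# P167, general `q`, blocks Q-START and Q-NORM: radii of local factors, growing type; moments with a
factor of a small ball
-/

namespace Vale.Agent.P167.H506.Q

open Finset MeasureTheory Vale.Agent.P167.FK Vale.Agent.P167.FKA
open Vale.Agent.P167.H166 (bxx mem_bxx)
open Vale.Agent.P167.H562.QM (MajA OneC Nr)

variable {Q : ℝ} {x : ℤ × ℤ} {I : Finset (ℤ × ℤ)} {η κ : Cfg}

/-- **Moments with a factor of a small ball**, one radius. -/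
theorem num_two (hQ : 1 ≤ Q) (hR : RSW Q) {ε : ℝ} (hε : 0 < ε) (s : ℝ) :
    ∃ e C ρ0 : ℝ, 0 < e ∧ e ≤ 1 ∧ 0 < C ∧ 0 < ρ0 ∧ ∀ (x : ℤ × ℤ) (R : ℤ), ρ0 ≤ R →
      ∃ N : Cfg → ℕ, (∀ ω ω' : Cfg, (∀ v ∈ Bq x (4 * R), ω v = ω' v) → N ω = N ω') ∧
      (∀ ω, MajA (Bq x (2 * R)) (ε * R) ω (N ω)) ∧
      ∀ (I : Finset (ℤ × ℤ)) (η : Cfg), Good η →
      (∀ (y : ℤ × ℤ) (a : ℤ), 1 ≤ a → bxx y a ⊆ Bq x (4 * R) → OneC y a (Bq x (4 * R) \ I) η) →
      ∀ (b : ℤ) (G : Cfg → ℝ), (b : ℝ) ≤ e * R → (∀ ω, 0 ≤ G ω) → Loc (Bq x b ∪ I) G →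
      Ex Q (Bq x (4 * R) \ I) η (fun ω => G ω * Real.exp (s * (N ω : ℝ))) ≤
        C * Ex Q (Bq x (4 * R) \ I) η G := by
  obtain ⟨e1, he1, H⟩ := num_one hQ hR
  obtain ⟨κ0, hκ0⟩ : ∃ κ0 : ℝ, κ0 = min ε 1 := ⟨_, rfl⟩
  have hκ00 : 0 < κ0 := by rw [hκ0]; exact lt_min hε one_pos
  have hκε : κ0 ≤ ε := by rw [hκ0]; exact min_le_left _ _
  have hκ1 : κ0 ≤ 1 := by rw [hκ0]; exact min_le_right _ _
  obtain ⟨CM, ρM, hCM, hρM, H⟩ := H κ0 2 s hκ00 (by norm_num)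
  obtain ⟨e, he⟩ : ∃ e, e = min 1 (e1 * κ0 / (1 + |s|)) := ⟨_, rfl⟩
  have hs1 : 0 < 1 + |s| := by positivity
  refine ⟨e, CM, ρM, by rw [he]; exact lt_min one_pos (by positivity),
    by rw [he]; exact min_le_left _ _, hCM, hρM, fun x R hRρ => ?_⟩
  have he2 : e ≤ e1 * κ0 / (1 + |s|) := by rw [he]; exact min_le_right _ _
  have hRp : (0 : ℝ) < R := lt_of_lt_of_le hρM hRρ
  have hW : κ0 * (R : ℝ) + ((2 * R : ℤ) : ℝ) < ((4 * R : ℤ) : ℝ) := by
    push_cast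
    nlinarith
  obtain ⟨N, n1, n2, n3⟩ := H R hRρ x (2 * R) (by push_cast; linarith)
  refine ⟨N, n1 (4 * R) hW, fun ω => maj_mono (mul_le_mul_of_nonneg_right hκε hRp.le) (n2 ω),
    fun I η hη hone b G hb hG0 hG => ?_⟩
  exact n3 (4 * R) I η hW hη hone b G (hb.trans (mul_le_mul_of_nonneg_right he2 hRp.le)) hG0 hG

/-- **Comparison of the radii, growing type.** -/
theorem rad_grow (hQ : 1 ≤ Q) (hR : RSW Q) {l : ℝ} (hl : 1 ≤ l) (Λ : ℝ) :
    ∃ C ρ0 : ℝ, 0 < C ∧ 0 < ρ0 ∧ ∀ (x : ℤ × ℤ) (R : ℤ), ρ0 ≤ R →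
      ∀ (I : Finset (ℤ × ℤ)) (κ : Cfg) (T : ℤ → Cfg → ℝ), RadGrow x I κ l R T →
      ∀ η : Cfg, Good η → (∀ v ∈ I, η v = κ v) →
      (∀ (y : ℤ × ℤ) (a : ℤ), 1 ≤ a → bxx y a ⊆ Bq x (4 * R) → OneC y a (Bq x (4 * R) \ I) η) →
      ∀ ρ : ℤ, ρ0 ≤ ρ → ρ ≤ R → (R : ℝ) ≤ Λ * ρ →
      Ex Q (Bq x (4 * R) \ I) η (T R) ≤ C * Ex Q (Bq x (4 * R) \ I) η (T ρ) := by
  classical
  have hQ0 : 0 < Q := by linarith
  obtain ⟨e1, he1, H⟩ := num_one hQ hR
  obtain ⟨κ0, hκ0⟩ : ∃ κ0 : ℝ, κ0 = 1 / 4 := ⟨_, rfl⟩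
  have hκ00 : 0 < κ0 := by rw [hκ0]; norm_num
  have hκ1 : κ0 ≤ 1 / 4 := by rw [hκ0]
  -- the exponent
  obtain ⟨s', hs'⟩ : ∃ s', s' = max 0 (2 * Real.log l) := ⟨_, rfl⟩
  have hs'0 : 0 ≤ s' := by rw [hs']; exact le_max_left _ _
  have hl0 : 0 < l := by linarith
  have hls : l ^ 2 ≤ Real.exp s' := by
    have h1 : l ^ 2 = Real.exp (2 * Real.log l) := by
      rw [two_mul, Real.exp_add, Real.exp_log hl0, pow_two]
    rw [h1, hs']
    exact Real.exp_le_exp.2 (le_max_right _ _)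
  obtain ⟨e, he⟩ : ∃ e, e = e1 * κ0 / (1 + |2 * s'|) := ⟨_, rfl⟩
  have he0 : 0 < e := by rw [he]; positivity
  obtain ⟨q, hq0, hq, hqΛ⟩ : ∃ q : ℕ, 0 < q ∧ (1 : ℝ) / 4 ^ q ≤ e / 2 ∧ Λ ≤ 4 ^ q := by
    obtain ⟨q, hq⟩ := pow_unbounded_of_one_lt (max (2 / e) Λ) (show (1 : ℝ) < 4 by norm_num)
    have h1 : (4 : ℝ) ^ q ≤ 4 ^ (q + 1) := pow_le_pow_right₀ (by norm_num) (by omega)
    refine ⟨q + 1, by omega, ?_, ((le_max_right _ _).trans hq.le).trans h1⟩
    have hq' := (le_max_left (2 / e) Λ).trans_lt hq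
    rw [div_le_div_iff₀ (by positivity) (by norm_num)]
    rw [div_lt_iff₀ he0] at hq'
    nlinarith
  obtain ⟨CM, ρM, hCM, hρM, H⟩ := H κ0 (4 ^ (q + 1)) (2 * s') hκ00 (by positivity)
  rw [← he] at H
  -- the base scale
  obtain ⟨K0, hK0⟩ : ∃ K0 : ℤ, K0 = max 8 (max ⌈ρM⌉ ⌈4 / e⌉) := ⟨_, rfl⟩
  have hK8 : 8 ≤ K0 := by rw [hK0]; exact le_max_left _ _
  have hKM : ρM ≤ K0 := by
    have : ⌈ρM⌉ ≤ K0 := by rw [hK0]; exact (le_max_left _ _).trans (le_max_right _ _)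
    exact (Int.le_ceil _).trans (by exact_mod_cast this)
  have hKe : 4 / e ≤ K0 := by
    have : ⌈4 / e⌉ ≤ K0 := by rw [hK0]; exact (le_max_right _ _).trans (le_max_right _ _)
    exact (Int.le_ceil _).trans (by exact_mod_cast this)
  obtain ⟨Z0, hZ0⟩ : ∃ Z0 : ℕ, Z0 = 4 * (2 * (2 * (4 ^ q * (4 * K0 + 4))).toNat) ^ 2 := ⟨_, rfl⟩
  refine ⟨max (l ^ Z0 * max CM 1) (CM * 1 ^ 2), K0, lt_of_lt_of_le (by positivity) (le_max_right _ _), by
    have : (8 : ℝ) ≤ K0 := by exact_mod_cast hK8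
    linarith, fun x R hRK => ?_⟩
  have hRK' : K0 ≤ R := by exact_mod_cast hRK
  intro I κ T hT η hη hκ hone ρ hρ hρR hRΛ
  have hρK : K0 ≤ ρ := by exact_mod_cast hρ
  obtain ⟨J, hJ1, hJ2⟩ := exists_J (K0 := K0) (by omega) R.toNat R (by omega) hRK'
  have hR0 : 0 ≤ R := by omega
  have rlo : ∀ j ≤ J, K0 ≤ rj R J j := fun j hj => hJ1.trans (rj_le R hR0 (Nat.zero_le j) hj)
  have rhi : ∀ j ≤ J, rj R J j ≤ R := fun j hj => by
    have := rj_le R hR0 hj le_rfl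
    rwa [rj_top] at this
  obtain ⟨A, hA⟩ : ∃ A, A = Bq x (4 * R) \ I := ⟨_, rfl⟩
  rw [← hA]
  have hpe := Ex_pe (Q := Q) (D := A) hQ0 hη
  have hok : ∀ ω, (Good ω ∧ ∀ v, v ∉ A → ω v = η v) → Good ω ∧ ∀ v ∈ I, ω v = κ v := by
    rintro ω ⟨h1, h2⟩
    refine ⟨h1, fun v hv => ?_⟩
    rw [h2 v (by rw [hA]; exact fun h => (mem_sdiff.1 h).2 hv), hκ v hv]
  -- the numbers
  have hnum : ∀ j : ℕ, ∃ M : Cfg → ℕ, j ≤ J →
      (∀ ω ω' : Cfg, (∀ v ∈ Bq x (4 * R), ω v = ω' v) → M ω = M ω') ∧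
      (∀ ω, MajA (Bq x (2 * rj R J (min (j + q) J))) (κ0 * (rj R J j : ℝ)) ω (M ω)) ∧
      ∀ (b : ℤ) (G : Cfg → ℝ), (b : ℝ) ≤ e * rj R J j → (∀ ω, 0 ≤ G ω) → Loc (Bq x b ∪ I) G →
        Ex Q A η (fun ω => G ω * Real.exp (2 * s' * (M ω : ℝ))) ≤ CM * Ex Q A η G := by
    intro j
    by_cases hj : j ≤ J
    · have h1 : ρM ≤ (rj R J j : ℝ) := hKM.trans (by exact_mod_cast rlo j hj)
      have h3 := rlo j hj
      have h4 := rhi (min (j + q) J) (min_le_right _ _)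
      have h6 : rj R J (min (j + q) J) + 1 ≤ 4 ^ q * (rj R J j + 1) := by
        by_cases hqJ : j + q ≤ J
        · rw [min_eq_left hqJ]
          exact rj_up' R hqJ
        · rw [min_eq_right (by omega)]
          have h7 := rj_up' R (J := J) (j := j) (i := J - j) (by omega)
          rw [show j + (J - j) = J by omega] at h7
          refine h7.trans (mul_le_mul_of_nonneg_right ?_ (by omega))
          exact pow_le_pow_right₀ (by norm_num) (by omega)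
      have h7 : 2 * rj R J (min (j + q) J) ≤ 4 ^ (q + 1) * rj R J j := by
        have h8 : (0 : ℤ) < 4 ^ q := by positivity
        rw [pow_succ]
        nlinarith
      obtain ⟨M, m1, m2, m3⟩ := H (rj R J j) h1 x (2 * rj R J (min (j + q) J)) (by exact_mod_cast h7)
      have hW' : κ0 * (rj R J j : ℝ) + ((2 * rj R J (min (j + q) J) : ℤ) : ℝ) <
          ((4 * R : ℤ) : ℝ) := by
        have h8 : (rj R J j : ℝ) ≤ R := by exact_mod_cast rhi j hj
        have h9 : (rj R J (min (j + q) J) : ℝ) ≤ R := by exact_mod_cast h4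
        have h10 : (0 : ℝ) ≤ rj R J j := by exact_mod_cast (by omega : 0 ≤ rj R J j)
        have h11 : (1 : ℝ) ≤ R := by exact_mod_cast (by omega : 1 ≤ R)
        push_cast
        nlinarith
      refine ⟨M, fun _ => ⟨m1 (4 * R) hW', m2, fun b G hb hG0 hG => ?_⟩⟩
      rw [hA]
      exact m3 (4 * R) I η hW' hη hone b G hb hG0 hG
    · exact ⟨fun _ => 0, fun h => absurd h hj⟩
  choose M hM using hnum
  have hMl : ∀ (t : ℝ) (j : ℕ), j ≤ J → LF fun ω => Real.exp (t * (M j ω : ℝ)) := fun t j hj =>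
    LF.comp (N := M j) (hM j hj).1 fun n : ℕ => Real.exp (t * n)
  have main := PE.radii_grow (M := CM) (C0 := 1) (b0 := l ^ Z0 * max CM 1) hpe hq0 hls one_pos hCM.le J
    (fun j => T (rj R J j)) M (fun _ => Bq x (4 * R))
    (fun j hj => ⟨_, hT.loc _ (by have := rlo j hj; omega) (rhi j hj)⟩)
    (fun j hj ω _ => hT.nn _ (by have := rlo j hj; omega) (rhi j hj) ω)
    (fun j hj => Ex_pos hQ0 hη fun ω h1 h2 => by
      have h3 := hok ω ⟨h1, h2⟩
      have := hT.one _ (by have := rlo j hj; omega) (rhi j hj) ω h3.1 h3.2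
      linarith)
    (fun j hj ω ω' hh => (hM j hj).1 ω ω' hh)
    (fun j hjq hj => by
      -- small scales
      have h8 : 8 ≤ rj R J j := by have := rlo j hj; omega
      have e0 : Loc (Bq x 0 ∪ I) (fun _ : Cfg => (1 : ℝ)) := fun _ _ _ => rfl
      have h1 := (hM j hj).2.2 0 (fun _ => 1) (by
        have : (0 : ℝ) ≤ rj R J j := by exact_mod_cast (by omega : 0 ≤ rj R J j)
        push_cast
        positivity) (fun _ => zero_le_one) e0
      rw [Ex_const hQ0, mul_one] at h1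
      simp only [one_mul] at h1
      have h2 : Ex Q A η (fun ω => T (rj R J j) ω * Real.exp (s' * (M j ω : ℝ))) ≤
          l ^ Z0 * Ex Q A η (fun ω => Real.exp (2 * s' * (M j ω : ℝ))) := by
        rw [← hpe.mul (hMl (2 * s') j hj)]
        refine hpe.mono (LF.mul ⟨_, hT.loc _ h8 (rhi j hj)⟩ (hMl s' j hj))
          ((hMl (2 * s') j hj).cmul _) fun ω hω => ?_
        have h3 := hok ω hω
        have h4 := hT.bd _ h8 (rhi j hj) ω h3.1 h3.2
        have h5 : 4 * (2 * (2 * rj R J j).toNat) ^ 2 ≤ Z0 := by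
          rw [hZ0]
          refine Nat.mul_le_mul_left 4 (Nat.pow_le_pow_left (Nat.mul_le_mul_left 2 ?_) 2)
          refine Int.toNat_le_toNat ?_
          have h7 := rj_up R (J := J) (j := j) hj
          have h8 : (4 : ℤ) ^ j ≤ 4 ^ q := pow_le_pow_right₀ (by norm_num) hjq.le
          have h9 : (4 : ℤ) ^ j * (rj R J 0 + 1) ≤ 4 ^ q * (4 * K0 + 4) :=
            mul_le_mul h8 (by linarith) (by omega) (by positivity)
          linarith
        have h6 : T (rj R J j) ω ≤ l ^ Z0 := h4.trans (pow_le_pow_right₀ hl h5)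
        have h7 : Real.exp (s' * (M j ω : ℝ)) ≤ Real.exp (2 * s' * (M j ω : ℝ)) := by
          refine Real.exp_le_exp.2 ?_
          have : 0 ≤ s' * (M j ω : ℝ) := by positivity
          linarith
        exact mul_le_mul h6 h7 (Real.exp_pos _).le (by positivity)
      have h3 : 1 ≤ Ex Q A η (T (rj R J j)) := by
        rw [← Ex_const (D := A) (η := η) hQ0 1]
        refine hpe.mono ⟨Bq x 0 ∪ I, e0⟩ ⟨_, hT.loc _ h8 (rhi j hj)⟩ fun ω hω => ?_
        have h3 := hok ω hω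
        exact hT.one _ h8 (rhi j hj) ω h3.1 h3.2
      calc _ ≤ l ^ Z0 * Ex Q A η (fun ω => Real.exp (2 * s' * (M j ω : ℝ))) := h2
        _ ≤ l ^ Z0 * CM := mul_le_mul_of_nonneg_left h1 (by positivity)
        _ ≤ l ^ Z0 * max CM 1 := mul_le_mul_of_nonneg_left (le_max_left _ _) (by positivity)
        _ = l ^ Z0 * max CM 1 * 1 := by ring
        _ ≤ _ := mul_le_mul_of_nonneg_left h3 (by positivity))
    (fun j hj hjJ ω hω => by
      have h3 := hok ω hω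
      rw [one_mul]
      exact hT.mono _ _ (by have := rlo (j - q) (by omega); omega) (rj_le R hR0 (by omega) hjJ)
        (rhi j hjJ) ω h3.1 h3.2)
    (fun j hj hjJ ω hω => by
      have h3 := hok ω hω
      have h4 := (hM (j - q) (by omega)).2.1 ω
      rw [show min (j - q + q) J = j by omega] at h4
      refine hT.step _ _ (by have := rlo (j - q) (by omega); omega) (rj_le R hR0 (by omega) hjJ)
        (rhi j hjJ) ω h3.1 h3.2 _ (maj_mono ?_ h4)
      have h5 : (0 : ℝ) ≤ rj R J (j - q) := by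
        exact_mod_cast (by have := rlo (j - q) (by omega); omega : 0 ≤ rj R J (j - q))
      nlinarith)
    (fun j hj hjJ => by
      refine (hM j hjJ).2.2 (rj R J (j - q) + 2) _ ?_
        (hT.nn _ (by have := rlo (j - q) (by omega); omega) (rhi (j - q) (by omega)))
        (hT.loc _ (by have := rlo (j - q) (by omega); omega) (rhi (j - q) (by omega)))
      have h1 := rj_pow R hj hjJ
      have h2 : (rj R J (j - q) : ℝ) ≤ rj R J j / 4 ^ q := by
        rw [h1, le_div_iff₀ (by positivity)]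
        exact_mod_cast Int.ediv_mul_le (rj R J j) (by positivity)
      have h4 : (0 : ℝ) ≤ rj R J j := by exact_mod_cast (by have := rlo j hjJ; omega : 0 ≤ rj R J j)
      have h5 : 4 / e ≤ rj R J j := hKe.trans (by exact_mod_cast rlo j hjJ)
      have h6 : 2 ≤ e / 2 * rj R J j := by
        rw [div_le_iff₀ he0] at h5
        linarith
      have h7 : (rj R J j : ℝ) / 4 ^ q ≤ e / 2 * rj R J j := by
        calc (rj R J j : ℝ) / 4 ^ q = 1 / 4 ^ q * rj R J j := by ring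
          _ ≤ _ := mul_le_mul_of_nonneg_right hq h4
      push_cast
      linarith)
  have lT : ∀ j ≤ J, LF (T (rj R J j)) := fun j hj =>
    ⟨_, hT.loc _ (by have := rlo j hj; omega) (rhi j hj)⟩
  have lR : LF (T R) := ⟨_, hT.loc R (by omega) le_rfl⟩
  have lρ : LF (T ρ) := ⟨_, hT.loc ρ (by omega) hρR⟩
  have hEρ : 0 ≤ Ex Q A η (T ρ) := Ex_nonneg hQ0 fun _ _ => hT.nn ρ (by omega) hρR _
  by_cases hqJ : q ≤ J
  · -- the scale below `ρ`
    have hr : rj R J (J - q) ≤ ρ := by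
      have h1 := rj_pow R (J := J) (j := J) (i := q) hqJ le_rfl
      rw [rj_top] at h1
      rw [h1]
      have h2 : (R : ℝ) ≤ 4 ^ q * ρ := hRΛ.trans (mul_le_mul_of_nonneg_right hqΛ (by
        exact_mod_cast (by omega : 0 ≤ ρ)))
      have h3 : R ≤ ρ * 4 ^ q := by
        have : (R : ℝ) ≤ ρ * 4 ^ q := by linarith
        exact_mod_cast this
      exact Int.ediv_le_of_le_mul (by positivity) h3
    have hj0 := rlo (J - q) (by omega)
    have h1 := main (J - q) (by omega)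
    have h2 : Ex Q A η (T R) ≤
        Ex Q A η (fun ω => T (rj R J (J - q)) ω * Real.exp (s' * (M (J - q) ω : ℝ))) := by
      refine hpe.mono lR (LF.mul (lT _ (by omega)) (hMl s' _ (by omega))) fun ω hω => ?_
      have h3 := hok ω hω
      have h4 := (hM (J - q) (by omega)).2.1 ω
      rw [show min (J - q + q) J = J by omega, rj_top] at h4
      have h5 : (0 : ℝ) ≤ rj R J (J - q) := by exact_mod_cast (by omega : 0 ≤ rj R J (J - q))
      have h6 := hT.step (rj R J (J - q)) R (by omega) (by omega) le_rfl ω h3.1 h3.2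
        (M (J - q) ω) (maj_mono (by nlinarith) h4)
      rw [mul_comm] at h6
      refine h6.trans (mul_le_mul_of_nonneg_left ?_ (hT.nn _ (by omega) (rhi _ (by omega)) ω))
      have h7 : l ≤ Real.exp s' := by
        have : l ≤ l ^ 2 := by nlinarith
        linarith
      calc l ^ M (J - q) ω ≤ (Real.exp s') ^ M (J - q) ω := pow_le_pow_left₀ hl0.le h7 _
        _ = Real.exp (s' * (M (J - q) ω : ℝ)) := by rw [← Real.exp_nat_mul, mul_comm]
    have h3 : Ex Q A η (T (rj R J (J - q))) ≤ Ex Q A η (T ρ) := by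
      refine hpe.mono (lT _ (by omega)) lρ fun ω hω => ?_
      have h3 := hok ω hω
      exact hT.mono _ _ (by omega) hr hρR ω h3.1 h3.2
    refine (h2.trans h1).trans (mul_le_mul_of_nonneg_left h3 ?_)
    exact (lt_of_lt_of_le (by positivity) (le_max_right _ _)).le
  · -- small scales
    have h1 : Ex Q A η (T R) ≤ l ^ Z0 := by
      rw [← Ex_const (D := A) (η := η) hQ0 (l ^ Z0)]
      refine hpe.mono lR ⟨∅, fun _ _ _ => rfl⟩ fun ω hω => ?_
      have h3 := hok ω hω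
      refine (hT.bd R (by omega) le_rfl ω h3.1 h3.2).trans (pow_le_pow_right₀ hl ?_)
      rw [hZ0]
      refine Nat.mul_le_mul_left 4 (Nat.pow_le_pow_left (Nat.mul_le_mul_left 2 ?_) 2)
      refine Int.toNat_le_toNat ?_
      have h7 := rj_up R (J := J) (j := J) le_rfl
      rw [rj_top] at h7
      have h8 : (4 : ℤ) ^ J ≤ 4 ^ q := pow_le_pow_right₀ (by norm_num) (by omega)
      have h9 : (4 : ℤ) ^ J * (rj R J 0 + 1) ≤ 4 ^ q * (4 * K0 + 4) :=
        mul_le_mul h8 (by linarith) (by omega) (by positivity)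
      linarith
    have h2 : 1 ≤ Ex Q A η (T ρ) := by
      rw [← Ex_const (D := A) (η := η) hQ0 1]
      refine hpe.mono ⟨∅, fun _ _ _ => rfl⟩ lρ fun ω hω => ?_
      have h3 := hok ω hω
      exact hT.one ρ (by omega) hρR ω h3.1 h3.2
    have h3 : l ^ Z0 ≤ max (l ^ Z0 * max CM 1) (CM * 1 ^ 2) :=
      le_trans (by nlinarith [le_max_right CM 1, pow_pos hl0 Z0]) (le_max_left _ _)
    calc Ex Q A η (T R) ≤ max (l ^ Z0 * max CM 1) (CM * 1 ^ 2) * 1 := by linarith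
      _ ≤ _ := mul_le_mul_of_nonneg_left h2 ((pow_pos hl0 Z0).le.trans h3)

end Vale.Agent.P167.H506.Q
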