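import Vale.Agent.P167.H506.Q.Sp4
import Vale.Agent.P167.H506.Q.Loc4
import Vale.Agent.P167.H945.Q.TLoc

/-!
# P167, general `q`, block Q-NORM: `P1a`, `P1b`, `P1c` (comparison of the radii and moments)

`P1aS`, `P1bS`, `P1cS`: the statements for a class of centres. Classes: `SA` (ends), `SG` (growing
junction), `SZ` (junctions and base points of zero type).
-/

namespace Vale.Agent.P167.H506.Q

open Finset MeasureTheory Vale.Agent.P167.FK Vale.Agent.P167.FKA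
open Vale.Agent.P167.H166 (bxx mem_bxx)
open Vale.Agent.P167.H562.QM (MajA OneC Nr)
open Vale.Agent.P167.H825.Q (Row)
open Vale.Agent.P167.H945.Q (face faces lrs SP tipL tipR jn Plain Tc ctr P1a P1b tj)

variable {θ : ℝ} {r : Row} {b : Bool} {ω : Cfg} {R : ℤ} {I : Finset (ℤ × ℤ)}

/-! ### boxes of the special points -/

theorem bf_sp {p : SP} (h1 : p.e.1 ≤ 1) (h2 : p.e.2 ≤ 1) : BF p.c p.bx := by
  refine ⟨fun R v hv => ?_, fun R v hv => ?_, fun R R' h v hv => ?_, fun R => ⟨_, _, _, _, rfl⟩⟩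
  · rw [mem_bq] at hv
    unfold SP.bx
    rw [mem_product, mem_Ico, mem_Ico]
    omega
  · unfold SP.bx at hv
    rw [mem_product, mem_Ico, mem_Ico] at hv
    rw [mem_bq]
    omega
  · unfold SP.bx at hv ⊢
    rw [mem_product, mem_Ico, mem_Ico] at hv ⊢
    omega

theorem bf_L : BF (r.sq 0) (tipL θ r).bx := bf_sp (p := tipL θ r) le_rfl le_rfl

theorem bf_R : BF (r.sq (r.L - 1)) (tipR θ r).bx := bf_sp (p := tipR θ r) le_rfl le_rfl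

theorem bf_J : BF (r.sq r.k0) (jn θ r b).bx := by
  refine bf_sp (p := jn θ r b) ?_ ?_
  · unfold jn
    dsimp only
    split_ifs <;> simp
  · unfold jn
    dsimp only
    split_ifs <;> simp

theorem tau_pm (hs : r.s = 1 ∨ r.s = -1) (hη : r.η = 1 ∨ r.η = -1) (v : ℤ × ℤ) :
    r.τ v = 1 ∨ r.τ v = -1 := by
  unfold Row.τ
  split_ifs <;> rcases hs with h | h <;> rcases hη with h' | h' <;> simp [h, h']

theorem eta_pm {κ : ℝ} {n : ℕ} (h : r.Ok θ κ n) : r.η = 1 ∨ r.η = -1 := by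
  rcases h.kind with h1 | ⟨(⟨-, h1⟩ | ⟨-, h1⟩), -⟩
  · exact Or.inl h1.2
  · exact Or.inr h1
  · exact Or.inl h1

/-! ### the classes of the centres -/

/-- The ends. -/
def SA (_ : Row) (i : Fin 3) : Prop := i ≠ 2

/-- The growing junction. -/
def SG (θ : ℝ) (r : Row) (i : Fin 3) : Prop := i = 2 ∧ |r.j| = (Real.pi - 3 * θ) / 2 ∧ r.η = -1

/-- The junctions and base points of zero type. -/
def SZ (θ : ℝ) (r : Row) (i : Fin 3) : Prop :=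
  i = 2 ∧ ((|r.j| = (Real.pi - θ) / 2 ∧ r.η = -1) ∨ (|r.j| = θ ∧ r.η = 1))

theorem S_cases {κ : ℝ} {n : ℕ} (h : r.Ok θ κ n) {i : Fin 3} (hi : i = 2 → ¬ Plain r) :
    SA r i ∨ SG θ r i ∨ SZ θ r i := by
  by_cases h2 : i = 2
  · right
    rcases h.kind with h1 | ⟨(⟨h1 | h1, h3⟩ | ⟨h1, h3⟩), -⟩
    · exact absurd h1 (hi h2)
    · exact Or.inr ⟨h2, Or.inl ⟨h1, h3⟩⟩
    · exact Or.inl ⟨h2, h1, h3⟩
    · exact Or.inr ⟨h2, Or.inr ⟨h1, h3⟩⟩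
  · exact Or.inl h2

theorem k0_ok {κ : ℝ} {n : ℕ} (h : r.Ok θ κ n) (hi : ¬ Plain r) :
    κ * n ≤ r.k0 ∧ r.k0 + κ * n ≤ r.L := by
  rcases h.kind with h1 | ⟨-, h1⟩
  · exact absurd h1 hi
  · exact h1

/-! ### the statements for a class -/

/-- `P1a` for the centres of the class `S`. -/
def P1aS (θ : ℝ) (S : Row → Fin 3 → Prop) : Prop :=
  ∀ Λ : ℝ, 1 ≤ Λ → ∃ C ρ₀ : ℝ, 0 < C ∧ ∀ (r : Row) (m : ℕ) (i : Fin 3) (ρ ρ' : ℤ), S r i →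
    r.Ok θ 1 m → (i = 2 → ¬ Plain r) → ρ₀ ≤ ρ → ρ ≤ ρ' → (ρ' : ℝ) ≤ Λ * ρ → 8 * ρ' ≤ m →
    ∀ η : Cfg, Good η → (∀ v ∈ r.I, η v = r.fr v) →
      Ex (2 * Real.cos θ) (Bq (ctr r i) (4 * ρ') \ r.I) η (Tc θ r.I r i ρ) ≤
        C * Ex (2 * Real.cos θ) (Bq (ctr r i) (4 * ρ') \ r.I) η (Tc θ r.I r i ρ')

/-- `P1b` for the centres of the class `S`. -/
def P1bS (θ : ℝ) (S : Row → Fin 3 → Prop) : Prop :=
  ∀ ε s : ℝ, 0 < ε → ∃ C ρ₀ : ℝ, 0 < C ∧ ∀ (r : Row) (m : ℕ) (i : Fin 3) (ρ : ℤ), S r i →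
    r.Ok θ 1 m → (i = 2 → ¬ Plain r) → ρ₀ ≤ ρ → 8 * ρ ≤ m → ∃ N : Cfg → ℕ,
    (∀ ω ω' : Cfg, (∀ v ∈ Bq (ctr r i) (4 * ρ), ω v = ω' v) → N ω = N ω') ∧
    (∀ ω, Good ω → MajA (Bq (ctr r i) (2 * ρ)) (ε * ρ) ω (N ω)) ∧
    ∀ η : Cfg, Good η → (∀ v ∈ r.I, η v = r.fr v) →
      Ex (2 * Real.cos θ) (Bq (ctr r i) (4 * ρ) \ r.I) η
          (fun ω => Tc θ r.I r i ρ ω * Real.exp (s * (N ω : ℝ))) ≤
        C * Ex (2 * Real.cos θ) (Bq (ctr r i) (4 * ρ) \ r.I) η (Tc θ r.I r i ρ)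

/-- The other direction of `P1a` for the centres of the class `S`. -/
def P1cS (θ : ℝ) (S : Row → Fin 3 → Prop) : Prop :=
  ∀ Λ : ℝ, 1 ≤ Λ → ∃ C ρ₀ : ℝ, 0 < C ∧ ∀ (r : Row) (m : ℕ) (i : Fin 3) (ρ ρ' : ℤ), S r i →
    r.Ok θ 1 m → (i = 2 → ¬ Plain r) → ρ₀ ≤ ρ → ρ ≤ ρ' → (ρ' : ℝ) ≤ Λ * ρ → 8 * ρ' ≤ m →
    ∀ η : Cfg, Good η → (∀ v ∈ r.I, η v = r.fr v) →
      Ex (2 * Real.cos θ) (Bq (ctr r i) (4 * ρ') \ r.I) η (Tc θ r.I r i ρ') ≤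
        C * Ex (2 * Real.cos θ) (Bq (ctr r i) (4 * ρ') \ r.I) η (Tc θ r.I r i ρ)

/-- **The other direction of `P1a`.** -/
def P1c (θ : ℝ) : Prop :=
  ∀ Λ : ℝ, 1 ≤ Λ → ∃ C ρ₀ : ℝ, 0 < C ∧ ∀ (r : Row) (m : ℕ) (i : Fin 3) (ρ ρ' : ℤ),
    r.Ok θ 1 m → (i = 2 → ¬ Plain r) → ρ₀ ≤ ρ → ρ ≤ ρ' → (ρ' : ℝ) ≤ Λ * ρ → 8 * ρ' ≤ m →
    ∀ η : Cfg, Good η → (∀ v ∈ r.I, η v = r.fr v) →
      Ex (2 * Real.cos θ) (Bq (ctr r i) (4 * ρ') \ r.I) η (Tc θ r.I r i ρ') ≤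
        C * Ex (2 * Real.cos θ) (Bq (ctr r i) (4 * ρ') \ r.I) η (Tc θ r.I r i ρ)

/-! ### the factors -/

theorem T_TB (p : SP) : p.T I R ω = TB I p.A p.A' p.w p.w' p.bx R ω := rfl

theorem Tc_J (hP : ¬ Plain r) : Tc θ I r 2 R ω =
    TB I (faces r true 0 r.k0) (faces r true r.k0 r.L) (jn θ r true).w (jn θ r true).w'
      (jn θ r true).bx R ω *
    TB I (faces r false 0 r.k0) (faces r false r.k0 r.L) (jn θ r false).w (jn θ r false).w'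
      (jn θ r false).bx R ω := by
  unfold Tc
  rw [if_neg (by decide), if_neg (by decide), if_neg hP]
  rfl

theorem TB_one {A A' : Finset Ed} {bx : ℤ → Finset (ℤ × ℤ)} : TB I A A' 1 1 bx R ω = 1 := by
  simp [TB]

theorem Tc_nn (h0 : 0 < θ) (h1 : θ ≤ Real.pi / 3) {i : Fin 3} (ω : Cfg) : 0 ≤ Tc θ I r i R ω :=
  H945.Q.Tc_nonneg h0 h1 I r i R ω

theorem Ex_Tc_nn (h0 : 0 < θ) (h1 : θ ≤ Real.pi / 3) {i : Fin 3} {D : Finset (ℤ × ℤ)} {η : Cfg} :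
    0 ≤ Ex (2 * Real.cos θ) D η (Tc θ I r i R) :=
  Ex_nonneg (by linarith [one_le_two_cos h0 h1]) fun _ _ => Tc_nn h0 h1 _

theorem hone_row {η : Cfg} (hη : ∀ v ∈ r.I, η v = r.fr v) (x : ℤ × ℤ) (R : ℤ) :
    ∀ (y : ℤ × ℤ) (a : ℤ), 1 ≤ a → bxx y a ⊆ Bq x R → OneC y a (Bq x R \ r.I) η := by
  intro y a _ h
  refine oneC_row (fun v hv => ?_) hη
  rw [mem_sdiff]
  constructor
  · intro h1
    by_contra h2
    exact h1 ⟨h hv, h2⟩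
  · rintro h1 ⟨-, h2⟩
    exact h2 h1

/-! ### the ends -/

/-- The lower bound of the weights of the ends. -/
noncomputable def cT (θ : ℝ) : ℝ := min (wP θ) (wD θ)

/-- The upper bound. -/
noncomputable def MT (θ : ℝ) : ℝ := max 1 (max (wP θ) (wD θ))

theorem cT_pos (h0 : 0 < θ) (h1 : θ ≤ Real.pi / 3) : 0 < cT θ := lt_min (wP_pos h0 h1) (wD_pos h0 h1)

theorem cT_le (h0 : 0 < θ) (h1 : θ ≤ Real.pi / 3) : cT θ ≤ 1 := by
  by_contra h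
  push Not at h
  have h2 : 1 < wP θ := h.trans_le (min_le_left _ _)
  have h3 : 1 < wD θ := h.trans_le (min_le_right _ _)
  have := wP_wD h0 h1
  nlinarith

theorem len_row {m : ℕ} (hok : r.Ok θ 1 m) : m ≤ r.L := by
  have := hok.len
  rw [one_mul] at this
  exact_mod_cast this

theorem k0_row {m : ℕ} (hok : r.Ok θ 1 m) (hP : ¬ Plain r) : m ≤ r.k0 ∧ r.k0 + m ≤ r.L := by
  have := k0_ok hok hP
  rw [one_mul] at this
  exact ⟨by exact_mod_cast this.1, by exact_mod_cast this.2⟩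

/-- **The ends are of decreasing type.** -/
theorem tip_fam (h0 : 0 < θ) (h1 : θ ≤ Real.pi / 3) {i : Fin 3} (hi : i ≠ 2) {m : ℕ}
    (hok : r.Ok θ 1 m) (hR : 8 * R ≤ m) :
    RadDec (ctr r i) r.I r.fr (cT θ) (MT θ ^ 6) R (Tc θ r.I r i) := by
  have hL := len_row hok
  have hRL : 8 * R ≤ r.L := by omega
  have hM1 : 1 ≤ MT θ := le_max_left _ _
  have key : ∀ {b : Bool} {w w' : ℝ} {bx : ℤ → Finset (ℤ × ℤ)}, BF (tc r b) bx →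
      ((w = wP θ ∧ w' = wD θ) ∨ (w = wD θ ∧ w' = wP θ)) →
      RadDec (tc r b) r.I r.fr (cT θ) (MT θ ^ 6) R
        (TB r.I (faces r b 0 r.L) (faces r (!b) 0 r.L) w w' bx) := by
    rintro b w w' bx hb (⟨rfl, rfl⟩ | ⟨rfl, rfl⟩)
    · exact tip_dec (cT_pos h0 h1) (cT_le h0 h1) (min_le_left _ _) (min_le_right _ _)
        (wP_wD h0 h1) ((le_max_left _ _).trans (le_max_right _ _))
        ((le_max_right _ _).trans (le_max_right _ _)) hM1 hb hRL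
    · exact tip_dec (cT_pos h0 h1) (cT_le h0 h1) (min_le_right _ _) (min_le_left _ _)
        (by rw [mul_comm]; exact wP_wD h0 h1) ((le_max_right _ _).trans (le_max_right _ _))
        ((le_max_left _ _).trans (le_max_right _ _)) hM1 hb hRL
  have hτ := tau_pm hok.s (eta_pm hok)
  have hi' : i = 0 ∨ i = 1 := by omega
  rcases hi' with rfl | rfl
  · have e1 : tc r r.o = r.sq 0 := by simp [tc]
    have h := key (b := r.o) (bx := (tipL θ r).bx) (by rw [e1]; exact bf_L)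
      (relw_tip h0 h1 (hτ (r.sq 0)))
    rw [e1] at h
    have e2 : Tc θ r.I r 0 = TB r.I (faces r r.o 0 r.L) (faces r (!r.o) 0 r.L)
        (H945.Q.relw θ 4 0 (r.τ (r.sq 0)) (r.τ (r.sq 0)))
        (H945.Q.relw θ (-4) 0 (r.τ (r.sq 0)) (r.τ (r.sq 0))) (tipL θ r).bx := by
      funext s ω
      unfold Tc
      rw [if_pos rfl]
      rfl
    rw [e2]
    exact h
  · have e1 : tc r (!r.o) = r.sq (r.L - 1) := by simp [tc]
    have h := key (b := !r.o) (bx := (tipR θ r).bx) (by rw [e1]; exact bf_R)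
      (relw_tip h0 h1 (hτ (r.sq (r.L - 1))))
    rw [e1, Bool.not_not] at h
    have e2 : Tc θ r.I r 1 = TB r.I (faces r (!r.o) 0 r.L) (faces r r.o 0 r.L)
        (H945.Q.relw θ 4 0 (r.τ (r.sq (r.L - 1))) (r.τ (r.sq (r.L - 1))))
        (H945.Q.relw θ (-4) 0 (r.τ (r.sq (r.L - 1))) (r.τ (r.sq (r.L - 1)))) (tipR θ r).bx := by
      funext s ω
      unfold Tc
      rw [if_neg (by decide), if_pos rfl]
      rfl
    rw [e2]
    exact h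

theorem p1a_A (h0 : 0 < θ) (h1 : θ ≤ Real.pi / 3) (hR : RSW (2 * Real.cos θ)) : P1aS θ SA := by
  intro Λ hΛ
  obtain ⟨C, ρ0, hC, hρ0, H⟩ := rad_dec (one_le_two_cos h0 h1) hR (cT_pos h0 h1) (cT_le h0 h1)
    (show 0 ≤ MT θ ^ 6 by have : 0 ≤ MT θ := zero_le_one.trans (le_max_left _ _); positivity) Λ
  refine ⟨C, ρ0, hC, fun r m i ρ ρ' hS hok hP h3 h4 h5 h6 η h7 h8 => ?_⟩
  exact H _ _ _ _ _ _ (tip_fam h0 h1 hS hok h6) h3 h4 h5 η h7 h8 (hone_row h8 _ _)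

theorem p1b_A (h0 : 0 < θ) (h1 : θ ≤ Real.pi / 3) (hR : RSW (2 * Real.cos θ)) : P1bS θ SA := by
  intro ε s hε
  obtain ⟨C, ρ0, hC, hρ0, H⟩ := mom_dec (one_le_two_cos h0 h1) hR (cT_pos h0 h1) (cT_le h0 h1)
    (show 0 ≤ MT θ ^ 6 by have : 0 ≤ MT θ := zero_le_one.trans (le_max_left _ _); positivity) hε s
  refine ⟨C, ρ0, hC, fun r m i ρ hS hok hP h3 h6 => ?_⟩
  obtain ⟨N, n1, n2, n3⟩ := H (ctr r i) ρ h3
  exact ⟨N, n1, fun ω _ => n2 ω, fun η h7 h8 =>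
    n3 _ _ _ (tip_fam h0 h1 hS hok h6) η h7 h8 (hone_row h8 _ _)⟩

/-! ### the growing junction -/

theorem jn_fam (h0 : 0 < θ) (h1 : θ ≤ Real.pi / 3) {i : Fin 3} {m : ℕ}
    (hok : r.Ok θ 1 m) (hS : SG θ r i) (hP : i = 2 → ¬ Plain r) :
    RadGrow (ctr r i) r.I r.fr (2 * Real.cos θ) R (Tc θ r.I r i) := by
  obtain ⟨rfl, hj, hη⟩ := hS
  have hP' := hP rfl
  show RadGrow (r.sq r.k0) _ _ _ _ _
  rcases jn_K2 (b := true) h0 h1 hok.s hj hη with ⟨g1, g2, g3, g4⟩ | ⟨g1, g2, g3, g4⟩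
  · have e2 : Tc θ r.I r 2 = TB r.I (faces r true 0 r.k0) (faces r true r.k0 r.L)
        (2 * Real.cos θ) (2 * Real.cos θ) (jn θ r true).bx := by
      funext s ω
      rw [Bool.not_true] at g3 g4
      rw [Tc_J hP', g1, g2, g3, g4, TB_one, mul_one]
    rw [e2]
    exact jn_grow (one_le_two_cos h0 h1) bf_J
  · have e2 : Tc θ r.I r 2 = TB r.I (faces r false 0 r.k0) (faces r false r.k0 r.L)
        (2 * Real.cos θ) (2 * Real.cos θ) (jn θ r false).bx := by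
      funext s ω
      rw [Bool.not_true] at g3 g4
      rw [Tc_J hP', g1, g2, g3, g4, TB_one, one_mul]
    rw [e2]
    exact jn_grow (one_le_two_cos h0 h1) bf_J

theorem Ex_pe' (h0 : 0 < θ) (h1 : θ ≤ Real.pi / 3) {D : Finset (ℤ × ℤ)} {η : Cfg} (hη : Good η) :
    PE (Ex (2 * Real.cos θ) D η) fun ω => Good ω ∧ ∀ v ∉ D, ω v = η v :=
  Ex_pe (by linarith [one_le_two_cos h0 h1]) hη

theorem lf_Tc {i : Fin 3} : LF (Tc θ r.I r i R) := by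
  obtain ⟨D, hD⟩ : ∃ D, D = Bq (ctr r i) (R + 1) := ⟨_, rfl⟩
  refine ⟨_, H945.Q.Tc_loc (θ := θ) r.I r i R⟩

theorem p1a_G (h0 : 0 < θ) (h1 : θ ≤ Real.pi / 3) : P1aS θ (SG θ) := by
  intro Λ hΛ
  refine ⟨1, 8, one_pos, fun r m i ρ ρ' hS hok hP h3 h4 h5 h6 η h7 h8 => ?_⟩
  have h3' : 8 ≤ ρ := by exact_mod_cast h3
  rw [one_mul]
  refine (Ex_pe' h0 h1 h7).mono lf_Tc lf_Tc fun ω hω => ?_
  refine (jn_fam (R := ρ') h0 h1 hok hS hP).mono ρ ρ' h3' h4 le_rfl ω hω.1 fun v hv => ?_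
  rw [hω.2 v (fun h => (mem_sdiff.1 h).2 hv), h8 v hv]

theorem p1b_G (h0 : 0 < θ) (h1 : θ ≤ Real.pi / 3) (hR : RSW (2 * Real.cos θ)) :
    P1bS θ (SG θ) := by
  intro ε s hε
  obtain ⟨C, ρ0, hC, hρ0, H⟩ := mom_grow (one_le_two_cos h0 h1) hR (one_le_two_cos h0 h1) hε s
  refine ⟨C, ρ0, hC, fun r m i ρ hS hok hP h3 h6 => ?_⟩
  obtain ⟨N, n1, n2, n3⟩ := H (ctr r i) ρ h3
  exact ⟨N, n1, fun ω _ => n2 ω, fun η h7 h8 =>
    n3 _ _ _ (jn_fam h0 h1 hok hS hP) η h7 h8 (hone_row h8 _ _)⟩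

theorem p1c_G (h0 : 0 < θ) (h1 : θ ≤ Real.pi / 3) (hR : RSW (2 * Real.cos θ)) :
    P1cS θ (SG θ) := by
  intro Λ hΛ
  obtain ⟨C, ρ0, hC, hρ0, H⟩ := rad_grow (one_le_two_cos h0 h1) hR (one_le_two_cos h0 h1) Λ
  refine ⟨C, ρ0, hC, fun r m i ρ ρ' hS hok hP h3 h4 h5 h6 η h7 h8 => ?_⟩
  exact H (ctr r i) ρ' (h3.trans (by exact_mod_cast h4)) _ _ _ (jn_fam h0 h1 hok hS hP) η h7 h8
    (hone_row h8 _ _) ρ h3 h4 h5

end Vale.Agent.P167.H506.Q
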