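import Vale.Agent.P167.H519.GRat
import Vale.Agent.P167.H167.Q.Rat

/-!
# P167, general `q`, block Q-START: arms in the presence of frozen closed squares

All squares of the annulus (or of the box) which are not in the domain are closed in the outside
configuration.
-/

namespace Vale.Agent.P167.H506.Q

open Finset Vale.Agent.P167.FK Vale.Agent.P167.FKA
open Vale.Agent.P145.FB (PStep PConn)
open Vale.Agent.P167.H259 (f_markov f_fkg f_comp f_comp2 Ex_out cf_cf PC_mono)
open Vale.Agent.P167.H519 (Jn Sx cf_in ind_le_of_imp gen_comp loc_mono)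
open Relation

variable {Q : ℝ}

/-- Removing closed squares from the domain decreases increasing functions. -/
theorem sub_le (hQ : 1 ≤ Q) {A B : Finset (ℤ × ℤ)} (hAB : A ⊆ B) {η : Cfg} (hη : Good η)
    (hc : ∀ v ∈ B, v ∉ A → η v = false) {F : Cfg → ℝ} (hF : IncF F) :
    Ex Q A η F ≤ Ex Q B η F := by
  have hQ0 : 0 < Q := by linarith
  rw [f_markov Q A B η F hQ0 hAB hη, ← Ex_const (D := B) (η := η) hQ0 (Ex Q A η F)]
  refine Ex_mono hQ0 fun S _ => ?_
  have h1 : Ex Q A η F = Ex Q A (cf A η ∅) F := Ex_out (fun v hv => by rw [cf_out hv]) F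
  rw [h1]
  refine f_comp Q A _ _ F hQ (f_good.1 A η ∅ hη) (f_good.1 B η S hη) (fun v hv => ?_) hF
  by_cases hA : v ∈ A
  · rw [cf_in hA] at hv
    simp at hv
  · rw [cf_out hA] at hv
    by_cases hB : v ∈ B
    · rw [hc v hB hA] at hv
      simp at hv
    · rw [cf_out hB]
      exact hv

/-- Arms through an annulus whose squares outside of the domain are closed. -/
theorem arm_cl (hQ : 1 ≤ Q) {α C : ℝ} (h : ArmDec Q α C) {x : ℤ × ℤ} {r R : ℤ} (hr : 1 ≤ r)
    (hrR : r ≤ R) {D : Finset (ℤ × ℤ)} {η : Cfg} (hη : Good η)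
    (hc : ∀ v ∈ Bq x R \ Bq x r, v ∉ D → η v = false) {G : Cfg → ℝ} (hG0 : ∀ ω, 0 ≤ G ω)
    (hG : Ind (Bq x R \ Bq x r) G) :
    Ex Q D η (fun ω => G ω * {ω | ArmPx x r R ω}.indicator 1 ω) ≤
      C * ((r : ℝ) / R) ^ α * Ex Q D η G := by
  have hQ0 : 0 < Q := by linarith
  set N := Bq x R \ Bq x r with hN
  have hA : N ∩ D ⊆ D := Finset.inter_subset_right
  rw [markov f_markov hQ0 hA hη (hG.mono Finset.inter_subset_left), ← Ex_mul_left]
  refine Ex_mono hQ0 fun S _ => ?_
  rw [mul_comm]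
  refine mul_le_mul_of_nonneg_right ?_ (hG0 _)
  have hgood : Good (cf D η S) := f_good.1 D η S hη
  refine (sub_le hQ (A := N ∩ D) (B := N) Finset.inter_subset_left hgood (fun v hv hv' => ?_)
    (inc_arm x r R).incF).trans ?_
  · have hvD : v ∉ D := fun h => hv' (Finset.mem_inter.2 ⟨hv, h⟩)
    rw [cf_out hvD]
    exact hc v hv hvD
  · have h1 := h x r R N (cf D η S) (fun _ => 1) hr hrR hgood subset_rfl (fun _ => zero_le_one)
      fun _ _ _ => rfl
    simp only [one_mul] at h1
    rw [Ex_const hQ0, mul_one] at h1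
    exact h1

end Vale.Agent.P167.H506.Q
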