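import Vale.Agent.P167.H506.Q.Cmp

/-!
# P167, general `q`, block Q-START: ratio mixing in the presence of frozen squares

`RM Q K κ A V a`: the squares of `K` are frozen in the states `κ`; the expectations in the domain `A`
of all functions `F ≥ 0` of the squares of `V` agree, for all outside configurations with the frozen
squares, up to the factor `a`. One box (`rm_closed`, `rm_open`), unions (`RM.union`, `RM.biUnion`) and
consequences for the expectations of products.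
-/

namespace Vale.Agent.P167.H506.Q

open Finset Vale.Agent.P167.FK Vale.Agent.P167.FKA
open Vale.Agent.P145.FB (PStep PConn)
open Vale.Agent.P167.H259 (f_markov f_fkg f_comp f_comp2 Ex_out cf_cf PC_mono)
open Vale.Agent.P167.H519 (Jn Sx cf_in ind_le_of_imp loc_mono conn_symm)
open Vale.Agent.P167.H562.GL (near_of_corx far_of_corx)
open Relation

variable {Q : ℝ} {A V K : Finset (ℤ × ℤ)} {κ : Cfg} {a : ℝ}

/-- Ratio mixing with the squares of `K` frozen in the states `κ`. -/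
def RM (Q : ℝ) (K : Finset (ℤ × ℤ)) (κ : Cfg) (A V : Finset (ℤ × ℤ)) (a : ℝ) : Prop :=
  ∀ ξ ξ' : Cfg, Good ξ → Good ξ' → (∀ v ∈ K, ξ v = κ v) → (∀ v ∈ K, ξ' v = κ v) →
    ∀ F : Cfg → ℝ, (∀ ω, 0 ≤ F ω) → Loc V F → Ex Q A ξ F ≤ a * Ex Q A ξ' F

theorem RM.mono (hQ : 1 ≤ Q) {a' : ℝ} (h : RM Q K κ A V a) (ha : a ≤ a') : RM Q K κ A V a' := by
  have hQ0 : 0 < Q := by linarith
  intro ξ ξ' h1 h2 h3 h4 F h5 h6
  exact (h ξ ξ' h1 h2 h3 h4 F h5 h6).trans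
    (mul_le_mul_of_nonneg_right ha (Ex_nonneg hQ0 fun _ _ => h5 _))

theorem one_le_of_rm (hQ : 1 ≤ Q) (hκ : Good κ) (h : RM Q K κ A V a) : 1 ≤ a := by
  have hQ0 : 0 < Q := by linarith
  have := h κ κ hκ hκ (fun _ _ => rfl) (fun _ _ => rfl) (fun _ => 1) (fun _ => zero_le_one)
    fun _ _ _ => rfl
  rw [Ex_const hQ0, mul_one] at this
  exact this

/-! ### One box, closed frozen squares -/

theorem mem_bq {x v : ℤ × ℤ} {R : ℤ} : v ∈ Bq x R ↔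
    (x.1 - R ≤ v.1 ∧ v.1 < x.1 + R) ∧ x.2 - R ≤ v.2 ∧ v.2 < x.2 + R := by
  simp only [Bq, Finset.mem_product, Finset.mem_Ico]

/-- **One box with closed frozen squares.** -/
theorem rm_closed (hQ : 1 ≤ Q) {α C : ℝ} (h : ArmDec Q α C) {x : ℤ × ℤ} {r R : ℤ} (hr : 1 ≤ r)
    (hrR : r ≤ R) (hκ : ∀ v ∈ K, v ∈ Bq x R → κ v = false)
    (hε : C * ((r : ℝ) / R) ^ α < 1) :
    RM Q K κ (Bq x R \ K) (Bq x r \ K) ((1 / (1 - C * ((r : ℝ) / R) ^ α)) ^ 2) := by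
  have hQ0 : 0 < Q := by linarith
  obtain ⟨ε, hε'⟩ : ∃ ε, ε = C * ((r : ℝ) / R) ^ α := ⟨_, rfl⟩
  rw [← hε'] at hε ⊢
  obtain ⟨T, hT⟩ : ∃ T : Cfg, T = cf (Bq x R ∩ K) eta1 ∅ := ⟨_, rfl⟩
  have hTg : Good T := by rw [hT]; exact f_good.1 _ _ _ f_good.2.2
  have hT1 : ∀ v, v ∉ Bq x R → T v = true := by
    intro v hv
    rw [hT, cf_out fun h => hv (Finset.mem_inter.1 h).1]
    rfl
  have hT0 : ∀ v ∈ Bq x R, v ∈ K → T v = false := by
    intro v hv hv'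
    rw [hT, cf_in (Finset.mem_inter.2 ⟨hv, hv'⟩)]
    simp
  have hsub : Bq x r \ K ⊆ Bq x R \ K := by
    intro v hv
    rw [Finset.mem_sdiff] at hv ⊢
    refine ⟨?_, hv.2⟩
    have := hv.1
    rw [mem_bq] at this ⊢
    omega
  have hS : Sep Q (Bq x R \ K) (Bq x r \ K) T ε := by
    intro F hF0 hF
    have h1 := arm_cl hQ h hr hrR (D := Bq x R \ K) (η := T) hTg (fun v hv hv' => by
      have h2 := (Finset.mem_sdiff.1 hv).1
      refine hT0 v h2 ?_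
      by_contra h3
      exact hv' (Finset.mem_sdiff.2 ⟨h2, h3⟩)) hF0 (fun ω ω' h' => hF ω ω' fun v hv => h' v
        fun h2 => (Finset.mem_sdiff.1 h2).2 (Finset.mem_sdiff.1 hv).1)
    rw [← hε'] at h1
    refine le_trans (Ex_mono hQ0 fun S _ => mul_le_mul_of_nonneg_left (ind_le_of_imp ?_) (hF0 _)) h1
    rintro ⟨s, ⟨hse, v, hvA, hvt, hvs⟩, u, ⟨w, hw, hwu⟩, hsu⟩
    show ArmPx x r R _
    have hvR : v ∉ Bq x R := by
      intro hvR
      have hvK : v ∈ K := by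
        by_contra h3
        exact hvA (Finset.mem_sdiff.2 ⟨hvR, h3⟩)
      rw [hT0 v hvR hvK] at hvt
      simp at hvt
    rw [armPx_iff hrR]
    refine ⟨u, s, ?_, near_of_corx (Finset.mem_sdiff.1 hw).1 hwu, far_of_corx hvR hvs,
      conn_symm hsu⟩
    have := rtg_parity hsu
    rw [Int.even_iff] at *
    omega
  have hle : ∀ ξ : Cfg, (∀ v ∈ K, ξ v = κ v) → ∀ v, v ∉ Bq x R \ K → ξ v = true → T v = true := by
    intro ξ hξ v hv hvt
    refine hT1 v fun hvR => ?_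
    have hvK : v ∈ K := by
      by_contra h3
      exact hv (Finset.mem_sdiff.2 ⟨hvR, h3⟩)
    rw [hξ v hvK, hκ v hvK hvR] at hvt
    simp at hvt
  intro ξ ξ' hξ hξ' hk hk' F hF0 hF
  have h1 := cmp_dn hQ hsub hξ hTg (hle ξ hk) hS hF0 hF
  have h2 := cmp_up hQ hsub hξ' hTg (hle ξ' hk') hS hF0 hF
  have h3 : 0 < 1 - ε := by linarith
  have h4 : (1 - ε) * ((1 - ε) * Ex Q (Bq x R \ K) ξ F) ≤ Ex Q (Bq x R \ K) ξ' F :=
    (mul_le_mul_of_nonneg_left h1 h3.le).trans h2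
  have h5 : Ex Q (Bq x R \ K) ξ F =
      (1 / (1 - ε)) ^ 2 * ((1 - ε) * ((1 - ε) * Ex Q (Bq x R \ K) ξ F)) := by
    field_simp
  rw [h5]
  exact mul_le_mul_of_nonneg_left h4 (by positivity)

/-! ### One box, open frozen squares -/

/-- Translation by `(1, 0)`. -/
def sq (v : ℤ × ℤ) : ℤ × ℤ := (v.1 + 1, v.2)

theorem sq_inj : Function.Injective sq := fun v w h => by
  simp only [sq, Prod.mk.injEq, add_left_inj] at h
  exact Prod.ext h.1 h.2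

theorem image_bq (x : ℤ × ℤ) (R : ℤ) : (Bq x R).image sq = Bq (sq x) R := by
  ext v
  rw [Finset.mem_image]
  constructor
  · rintro ⟨w, hw, rfl⟩
    rw [mem_bq] at hw ⊢
    simp only [sq]
    omega
  · intro hv
    refine ⟨(v.1 - 1, v.2), ?_, by simp [sq]⟩
    rw [mem_bq] at hv ⊢
    simp only [sq] at hv
    omega

/-- **One box with open frozen squares.** -/
theorem rm_open (hQ : 1 ≤ Q) {α C : ℝ} (h : ArmDec Q α C) {x : ℤ × ℤ} {r R : ℤ} (hr : 1 ≤ r)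
    (hrR : r ≤ R) (hκ : ∀ v ∈ K, v ∈ Bq x R → κ v = true)
    (hε : C * ((r : ℝ) / R) ^ α < 1) :
    RM Q K κ (Bq x R \ K) (Bq x r \ K) ((1 / (1 - C * ((r : ℝ) / R) ^ α)) ^ 2) := by
  have hQ0 : 0 < Q := by linarith
  have key := rm_closed hQ h hr hrR (x := sq x) (K := K.image sq) (κ := du κ) (fun v hv hvR => by
    obtain ⟨w, hw, rfl⟩ := Finset.mem_image.1 hv
    have h1 : w ∈ Bq x R := by
      rw [mem_bq] at hvR ⊢
      simp only [sq] at hvR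
      omega
    show (!(κ ((sq w).1 - 1, (sq w).2))) = false
    have h2 : ((sq w).1 - 1, (sq w).2) = w := by simp [sq]
    rw [h2, hκ w hw h1]
    rfl) hε
  have e1 : ∀ ρ : ℤ, Bq (sq x) ρ \ K.image sq = (Bq x ρ \ K).image sq := by
    intro ρ
    rw [← image_bq, Finset.image_sdiff _ _ sq_inj]
  rw [e1, e1] at key
  intro ξ ξ' hξ hξ' hk hk' F hF0 hF
  have hd : ∀ ξ : Cfg, Good ξ → Ex Q (Bq x R \ K) ξ F =
      Ex Q ((Bq x R \ K).image sq) (du ξ) (fun ω => F (H519.dui ω)) := fun ξ hξ =>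
    H519.Ex_du hQ0 _ hξ F
  rw [hd ξ hξ, hd ξ' hξ']
  have hfr : ∀ ξ : Cfg, (∀ v ∈ K, ξ v = κ v) → ∀ v ∈ K.image sq, du ξ v = du κ v := by
    intro ξ hk v hv
    obtain ⟨w, hw, rfl⟩ := Finset.mem_image.1 hv
    have h2 : ((sq w).1 - 1, (sq w).2) = w := by simp [sq]
    show (!(ξ ((sq w).1 - 1, (sq w).2))) = (!(κ ((sq w).1 - 1, (sq w).2)))
    rw [h2, hk w hw]
  refine key (du ξ) (du ξ') (f_dual.1 _ hξ) (f_dual.1 _ hξ') (hfr ξ hk) (hfr ξ' hk') _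
    (fun ω => hF0 _) fun ω ω' h' => hF _ _ fun v hv => ?_
  show (!(ω (v.1 + 1, v.2))) = (!(ω' (v.1 + 1, v.2)))
  have := h' (sq v) (Finset.mem_image_of_mem _ hv)
  unfold sq at this
  rw [this]

/-! ### Unions -/

theorem RM.union (hQ : 1 ≤ Q) (hκ : Good κ) {A₁ A₂ V₁ V₂ : Finset (ℤ × ℤ)} {a₁ a₂ : ℝ}
    (h₁ : RM Q K κ A₁ V₁ a₁) (h₂ : RM Q K κ A₂ V₂ a₂) (hV₂ : V₂ ⊆ A₂)
    (hA : Disjoint A₁ A₂) (hK₁ : Disjoint A₁ K) (hK₂ : Disjoint A₂ K) :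
    RM Q K κ (A₁ ∪ A₂) (V₁ ∪ V₂) (a₁ * (a₂ * a₁)) := by
  classical
  have hQ0 : 0 < Q := by linarith
  have ha₁ := one_le_of_rm hQ hκ h₁
  have ha₂ := one_le_of_rm hQ hκ h₂
  intro ξ ξ' hξ hξ' hk hk' F hF0 hF
  obtain ⟨Fm, hFm⟩ : ∃ Fm : Cfg → Cfg → ℝ,
      Fm = fun ω ω' => F fun v => if v ∈ V₂ then ω v else ω' v := ⟨_, rfl⟩
  obtain ⟨H, hH⟩ : ∃ H : Cfg → ℝ, H = fun ω => Ex Q A₁ κ (Fm ω) := ⟨_, rfl⟩
  have hFm0 : ∀ ω ω', 0 ≤ Fm ω ω' := fun ω ω' => by rw [hFm]; exact hF0 _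
  have hFm1 : ∀ ω, Loc V₁ (Fm ω) := by
    intro ω ω' ω'' h
    rw [hFm]
    refine hF _ _ fun v hv => ?_
    by_cases hv2 : v ∈ V₂
    · simp only [hv2, if_true]
    · simp only [hv2, if_false]
      rcases Finset.mem_union.1 hv with h3 | h3
      · exact h v h3
      · exact absurd h3 hv2
  have hH0 : ∀ ω, 0 ≤ H ω := fun ω => by
    rw [hH]
    exact Ex_nonneg hQ0 fun _ _ => hFm0 _ _
  have hH2 : Loc V₂ H := by
    intro ω ω' h
    rw [hH]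
    refine Ex_congr fun S _ => ?_
    rw [hFm]
    show F _ = F _
    congr 1
    funext v
    by_cases hv2 : v ∈ V₂
    · simp only [hv2, if_true]
      exact h v hv2
    · simp only [hv2, if_false]
  have hfr : ∀ (B : Finset (ℤ × ℤ)), Disjoint B K → ∀ ζ : Cfg, (∀ v ∈ K, ζ v = κ v) →
      ∀ S, ∀ v ∈ K, cf B ζ S v = κ v := by
    intro B hB ζ hζ S v hv
    rw [cf_out fun h => Finset.disjoint_left.1 hB h hv]
    exact hζ v hv
  have hsame : ∀ ω, Ex Q A₁ ω F = Ex Q A₁ ω (Fm ω) := by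
    intro ω
    refine Ex_congr fun S _ => ?_
    rw [hFm]
    show F _ = F _
    congr 1
    funext v
    by_cases hv2 : v ∈ V₂
    · simp only [hv2, if_true]
      exact cf_out fun h => Finset.disjoint_left.1 hA h (hV₂ hv2)
    · simp only [hv2, if_false]
  have hup : ∀ ω, Good ω → (∀ v ∈ K, ω v = κ v) → Ex Q A₁ ω F ≤ a₁ * H ω := by
    intro ω hω hk
    rw [hsame, hH]
    exact h₁ ω κ hω hκ hk (fun _ _ => rfl) _ (hFm0 ω) (hFm1 ω)
  have hdn : ∀ ω, Good ω → (∀ v ∈ K, ω v = κ v) → H ω ≤ a₁ * Ex Q A₁ ω F := by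
    intro ω hω hk
    rw [hsame, hH]
    exact h₁ κ ω hκ hω (fun _ _ => rfl) hk _ (hFm0 ω) (hFm1 ω)
  have hKA : Disjoint (A₁ ∪ A₂) K := Finset.disjoint_union_left.2 ⟨hK₁, hK₂⟩
  have g : ∀ (ζ : Cfg), Good ζ → ∀ S, Good (cf (A₁ ∪ A₂) ζ S) := fun ζ hζ S =>
    f_good.1 _ _ _ hζ
  -- the four steps
  have s1 : Ex Q (A₁ ∪ A₂) ξ F ≤ a₁ * Ex Q (A₁ ∪ A₂) ξ H := by
    rw [f_markov Q A₁ (A₁ ∪ A₂) ξ F hQ0 Finset.subset_union_left hξ, ← Ex_mul_left]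
    exact Ex_mono hQ0 fun S _ => hup _ (g ξ hξ S) (hfr _ hKA ξ hk S)
  have s3 : Ex Q (A₁ ∪ A₂) ξ' H ≤ a₁ * Ex Q (A₁ ∪ A₂) ξ' F := by
    rw [f_markov Q A₁ (A₁ ∪ A₂) ξ' F hQ0 Finset.subset_union_left hξ', ← Ex_mul_left]
    exact Ex_mono hQ0 fun S _ => hdn _ (g ξ' hξ' S) (hfr _ hKA ξ' hk' S)
  have s2 : Ex Q (A₁ ∪ A₂) ξ H ≤ a₂ * Ex Q (A₁ ∪ A₂) ξ' H := by
    rw [f_markov Q A₂ (A₁ ∪ A₂) ξ H hQ0 Finset.subset_union_right hξ,
      ← Ex_const (D := A₁ ∪ A₂) (η := ξ) hQ0 (a₂ * Ex Q (A₁ ∪ A₂) ξ' H)]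
    refine Ex_mono hQ0 fun S _ => ?_
    rw [f_markov Q A₂ (A₁ ∪ A₂) ξ' H hQ0 Finset.subset_union_right hξ', ← Ex_mul_left,
      ← Ex_const (D := A₁ ∪ A₂) (η := ξ') hQ0 (Ex Q A₂ (cf (A₁ ∪ A₂) ξ S) H)]
    exact Ex_mono hQ0 fun T _ => h₂ _ _ (g ξ hξ S) (g ξ' hξ' T) (hfr _ hKA ξ hk S)
      (hfr _ hKA ξ' hk' T) H hH0 hH2
  calc Ex Q (A₁ ∪ A₂) ξ F ≤ a₁ * Ex Q (A₁ ∪ A₂) ξ H := s1
    _ ≤ a₁ * (a₂ * Ex Q (A₁ ∪ A₂) ξ' H) := mul_le_mul_of_nonneg_left s2 (by linarith)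
    _ ≤ a₁ * (a₂ * (a₁ * Ex Q (A₁ ∪ A₂) ξ' F)) :=
        mul_le_mul_of_nonneg_left (mul_le_mul_of_nonneg_left s3 (by linarith)) (by linarith)
    _ = _ := by ring

theorem RM.empty (hQ : 1 ≤ Q) : RM Q K κ ∅ ∅ 1 := by
  have hQ0 : 0 < Q := by linarith
  intro ξ ξ' _ _ _ _ F _ hF
  rw [one_mul]
  refine le_of_eq ?_
  have h : ∀ ω, F ω = F ξ := fun ω => hF _ _ fun v hv => absurd hv (by simp)
  rw [Ex_congr (G := fun _ => F ξ) fun S _ => h _, Ex_const hQ0,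
    Ex_congr (Q := Q) (D := ∅) (η := ξ') (F := F) (G := fun _ => F ξ) fun S _ => h _, Ex_const hQ0]

/-- **Finite unions.** -/
theorem RM.biUnion (hQ : 1 ≤ Q) (hκ : Good κ) {ι : Type*} [DecidableEq ι] (I : Finset ι)
    {A V : ι → Finset (ℤ × ℤ)} (h : ∀ i ∈ I, RM Q K κ (A i) (V i) a) (hV : ∀ i ∈ I, V i ⊆ A i)
    (hA : ∀ i ∈ I, ∀ j ∈ I, i ≠ j → Disjoint (A i) (A j)) (hK : ∀ i ∈ I, Disjoint (A i) K) :
    RM Q K κ (I.biUnion A) (I.biUnion V) (a ^ (2 * I.card)) := by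
  induction I using Finset.induction_on with
  | empty =>
    rw [Finset.biUnion_empty, Finset.biUnion_empty, Finset.card_empty, mul_zero, pow_zero]
    exact RM.empty hQ
  | @insert i I hi ih =>
    have h1 := ih (fun j hj => h j (Finset.mem_insert_of_mem hj))
      (fun j hj => hV j (Finset.mem_insert_of_mem hj))
      (fun j hj k hk => hA j (Finset.mem_insert_of_mem hj) k (Finset.mem_insert_of_mem hk))
      (fun j hj => hK j (Finset.mem_insert_of_mem hj))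
    have h2 := h i (Finset.mem_insert_self _ _)
    rw [Finset.biUnion_insert, Finset.biUnion_insert, Finset.card_insert_of_notMem hi]
    have h3 : a ^ (2 * (I.card + 1)) = a * (a ^ (2 * I.card) * a) := by ring
    rw [h3]
    refine RM.union hQ hκ h2 h1 ?_ ?_ (hK i (Finset.mem_insert_self _ _)) ?_
    · exact Finset.biUnion_mono fun j hj => hV j (Finset.mem_insert_of_mem hj)
    · rw [Finset.disjoint_biUnion_right]
      intro j hj
      exact hA i (Finset.mem_insert_self _ _) j (Finset.mem_insert_of_mem hj)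
        fun h => hi (h ▸ hj)
    · rw [Finset.disjoint_biUnion_left]
      exact fun j hj => hK j (Finset.mem_insert_of_mem hj)

end Vale.Agent.P167.H506.Q
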