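import Vale.Agent.P167.H562.Q.CB3
import Vale.Agent.P167.H825.Q.Rows

/-!
# P167, general `q`, blocks Q-START and Q-NORM: boxes which see one row of frozen squares

`oneC_rect`: if the open squares (the closed squares) of the box outside of the domain form the
intersection of the box with a rectangle, then the box has the property `OneC`. `oneC_row`: boxes which
see one row.
-/

namespace Vale.Agent.P167.H506.Q

open Finset Vale.Agent.P167.FK
open Vale.Agent.P145.FB (PStep PConn)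
open Vale.Agent.P167.FKA (mem_bxx_sh shi_sh sh_shi)
open Vale.Agent.P167.H166 (bxx mem_bxx)
open Vale.Agent.P167.H562.QM (OneP OneC QC mem_image_sh)
open Vale.Agent.P167.H825.Q (Row)

variable {D : Finset (ℤ × ℤ)} {η : Cfg} {y : ℤ × ℤ} {a : ℤ}

/-- The squares of colour `c` of the box outside of the domain form a rectangle. -/
def RectP (c : Bool) (B D : Finset (ℤ × ℤ)) (η : Cfg) : Prop :=
  ∃ a0 a1 b0 b1 : ℤ, ∀ z ∈ B, (z ∉ D ∧ η z = c) ↔ ((a0 ≤ z.1 ∧ z.1 < a1) ∧ b0 ≤ z.2 ∧ z.2 < b1)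

theorem oneP_rect (h : RectP true (bxx y a) D η) : OneP (bxx y a) D η := by
  obtain ⟨a0, a1, b0, b1, h⟩ := h
  intro v hv hvD hv1 w hw hwD hw1
  have e1 := (h v hv).1 ⟨hvD, hv1⟩
  have e2 := (h w hw).1 ⟨hwD, hw1⟩
  rw [H945.mem_bxx'] at hv hw
  refine QC.rect (x0 := max (y.1 - a) a0) (x1 := min (y.1 + a + 1) a1) (y0 := max (y.2 - a) b0)
    (y1 := min (y.2 + a + 1) b1) (fun z h1 h2 h3 h4 => ?_) ?_ ?_
  · have hz : z ∈ bxx y a := by rw [H945.mem_bxx']; omega
    exact ⟨hz, (h z hz).2 (by omega)⟩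
  · omega
  · omega

theorem rect_du (h : RectP false (bxx y a) D η) :
    RectP true (bxx (FKA.sh y) a) (D.image fun v => (v.1 + 1, v.2)) (du η) := by
  obtain ⟨a0, a1, b0, b1, h⟩ := h
  refine ⟨a0 + 1, a1 + 1, b0, b1, fun z hz => ?_⟩
  rw [mem_bxx_sh] at hz
  have h1 := h _ hz
  have e : (z ∉ (D.image fun v => (v.1 + 1, v.2)) ∧ du η z = true) ↔
      (FKA.shi z ∉ D ∧ η (FKA.shi z) = false) := by
    rw [mem_image_sh]
    have e1 : du η z = !η (FKA.shi z) := rfl
    rw [e1]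
    cases η (FKA.shi z) <;> simp
  rw [e, h1]
  have e1 : (FKA.shi z).1 = z.1 - 1 := rfl
  have e2 : (FKA.shi z).2 = z.2 := rfl
  rw [e1, e2]
  constructor <;> intro h3 <;> omega

theorem oneC_rect (h1 : RectP true (bxx y a) D η) (h2 : RectP false (bxx y a) D η) :
    OneC y a D η :=
  ⟨oneP_rect h1, oneP_rect (rect_du h2)⟩

/-! ### rows -/

theorem mem_rowI {r : Row} {v : ℤ × ℤ} : v ∈ r.I ↔
    (if r.o then v.2 = r.x.2 ∧ r.x.1 ≤ v.1 ∧ v.1 < r.x.1 + r.L
      else v.1 = r.x.1 ∧ r.x.2 ≤ v.2 ∧ v.2 < r.x.2 + r.L) := by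
  unfold Row.I Row.sq
  rw [mem_image]
  by_cases ho : r.o = true
  · simp only [ho, if_true]
    constructor
    · rintro ⟨k, hk, rfl⟩
      have := mem_range.1 hk
      exact ⟨rfl, by dsimp only; omega, by dsimp only; omega⟩
    · rintro ⟨h1, h2, h3⟩
      refine ⟨(v.1 - r.x.1).toNat, mem_range.2 (by omega), ?_⟩
      refine Prod.ext ?_ h1.symm
      dsimp only
      omega
  · simp only [Bool.not_eq_true] at ho
    simp only [ho, Bool.false_eq_true, if_false]
    constructor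
    · rintro ⟨k, hk, rfl⟩
      have := mem_range.1 hk
      exact ⟨rfl, by dsimp only; omega, by dsimp only; omega⟩
    · rintro ⟨h1, h2, h3⟩
      refine ⟨(v.2 - r.x.2).toNat, mem_range.2 (by omega), ?_⟩
      refine Prod.ext h1.symm ?_
      dsimp only
      omega

/-- The frozen states of the two parts of a row. -/
theorem fr_eq (r : Row) (v : ℤ × ℤ) :
    r.fr v = if r.k0 ≤ r.ix v then decide (r.s * r.η = -1) else decide (r.s = -1) := by
  unfold Row.fr Row.τ
  by_cases h : r.k0 ≤ r.ix v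
  · simp only [h, if_true]
  · simp only [h, if_false, mul_one]

theorem ix_le {r : Row} {v : ℤ × ℤ} (hv : v ∈ r.I) : r.k0 ≤ r.ix v ↔
    (if r.o then r.x.1 + r.k0 ≤ v.1 else r.x.2 + r.k0 ≤ v.2) := by
  rw [mem_rowI] at hv
  unfold Row.ix
  by_cases ho : r.o = true
  · simp only [ho, if_true] at hv ⊢
    omega
  · simp only [Bool.not_eq_true] at ho
    simp only [ho, Bool.false_eq_true, if_false] at hv ⊢
    omega

/-- The squares of one colour of a row form a rectangle. -/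
theorem row_rect (r : Row) (c : Bool) : ∃ a0 a1 b0 b1 : ℤ, ∀ z : ℤ × ℤ,
    (z ∈ r.I ∧ r.fr z = c) ↔ ((a0 ≤ z.1 ∧ z.1 < a1) ∧ b0 ≤ z.2 ∧ z.2 < b1) := by
  obtain ⟨p, hp⟩ : ∃ p : Bool, p = decide (r.s = -1) := ⟨_, rfl⟩
  obtain ⟨q, hq⟩ : ∃ q : Bool, q = decide (r.s * r.η = -1) := ⟨_, rfl⟩
  have key : ∀ z : ℤ × ℤ, z ∈ r.I → (r.fr z = c ↔
      ((if r.o then r.x.1 + r.k0 ≤ z.1 else r.x.2 + r.k0 ≤ z.2) ∧ q = c) ∨
      (¬ (if r.o then r.x.1 + r.k0 ≤ z.1 else r.x.2 + r.k0 ≤ z.2) ∧ p = c)) := by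
    intro z hz
    rw [fr_eq, ← hp, ← hq]
    by_cases h : r.k0 ≤ r.ix z
    · have h' := (ix_le hz).1 h
      rw [if_pos h]
      constructor
      · exact fun h2 => Or.inl ⟨h', h2⟩
      · rintro (⟨-, h2⟩ | ⟨h2, -⟩)
        · exact h2
        · exact absurd h' h2
    · have h' := fun h1 => h ((ix_le hz).2 h1)
      rw [if_neg h]
      constructor
      · exact fun h2 => Or.inr ⟨h', h2⟩
      · rintro (⟨h2, -⟩ | ⟨-, h2⟩)
        · exact absurd h2 h'
        · exact h2
  by_cases ho : r.o = true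
  · have hI : ∀ z : ℤ × ℤ, z ∈ r.I ↔ z.2 = r.x.2 ∧ r.x.1 ≤ z.1 ∧ z.1 < r.x.1 + r.L := fun z => by
      rw [mem_rowI, if_pos ho]
    simp only [ho, if_true] at key
    refine ⟨if p = c then r.x.1 else max r.x.1 (r.x.1 + r.k0),
      if q = c then r.x.1 + r.L else min (r.x.1 + r.L) (r.x.1 + r.k0), r.x.2, r.x.2 + 1,
      fun z => ?_⟩
    constructor
    · rintro ⟨h1, h2⟩
      rw [key z h1] at h2
      rw [hI] at h1
      split_ifs <;> rcases h2 with h2 | h2 <;> first | omega | (exfalso; tauto)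
    · intro h1
      have hz : z ∈ r.I := by
        rw [hI]
        split_ifs at h1 <;> omega
      refine ⟨hz, (key z hz).2 ?_⟩
      by_cases hk : r.x.1 + r.k0 ≤ z.1
      · left
        refine ⟨hk, ?_⟩
        by_contra hqc
        rw [if_neg hqc] at h1
        omega
      · right
        refine ⟨hk, ?_⟩
        by_contra hpc
        rw [if_neg hpc] at h1
        omega
  · have hI : ∀ z : ℤ × ℤ, z ∈ r.I ↔ z.1 = r.x.1 ∧ r.x.2 ≤ z.2 ∧ z.2 < r.x.2 + r.L := fun z => by
      rw [mem_rowI, if_neg ho]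
    simp only [Bool.not_eq_true] at ho
    simp only [ho, Bool.false_eq_true, if_false] at key
    refine ⟨r.x.1, r.x.1 + 1, if p = c then r.x.2 else max r.x.2 (r.x.2 + r.k0),
      if q = c then r.x.2 + r.L else min (r.x.2 + r.L) (r.x.2 + r.k0),
      fun z => ?_⟩
    constructor
    · rintro ⟨h1, h2⟩
      rw [key z h1] at h2
      rw [hI] at h1
      split_ifs <;> rcases h2 with h2 | h2 <;> first | omega | (exfalso; tauto)
    · intro h1
      have hz : z ∈ r.I := by
        rw [hI]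
        split_ifs at h1 <;> omega
      refine ⟨hz, (key z hz).2 ?_⟩
      by_cases hk : r.x.2 + r.k0 ≤ z.2
      · left
        refine ⟨hk, ?_⟩
        by_contra hqc
        rw [if_neg hqc] at h1
        omega
      · right
        refine ⟨hk, ?_⟩
        by_contra hpc
        rw [if_neg hpc] at h1
        omega

/-- **Boxes which see one row.** -/
theorem oneC_row {r : Row} (hD : ∀ v ∈ bxx y a, v ∉ D ↔ v ∈ r.I)
    (hη : ∀ v ∈ r.I, η v = r.fr v) : OneC y a D η := by
  have key : ∀ c : Bool, RectP c (bxx y a) D η := by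
    intro c
    obtain ⟨a0, a1, b0, b1, h⟩ := row_rect r c
    refine ⟨a0, a1, b0, b1, fun z hz => ?_⟩
    rw [← h z, hD z hz]
    constructor
    · rintro ⟨h1, h2⟩
      exact ⟨h1, by rw [← hη z h1]; exact h2⟩
    · rintro ⟨h1, h2⟩
      exact ⟨h1, by rw [hη z h1]; exact h2⟩
  exact oneC_rect (key true) (key false)

end Vale.Agent.P167.H506.Q
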