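import Vale.Agent.P167.H506.Q.Hz5
import Vale.Agent.P167.H680.T.FinL
import Vale.Agent.P167.QX.L1E

/-!
# P167, general `q`: block 2A from `STARTR` only
-/

namespace Vale.Agent.P167.H506.Q

open MeasureTheory Vale.Agent.P167.FK
open Vale.Agent.P167.H519 (IsLim)
open Vale.Agent.P167.H825.Q (S2aQq)
open Vale.Agent.P167.H945.Q (Zp P1a P1b)
open Vale.Agent.P167.H680.T (STARTR)

variable {θ β : ℝ}

/-- **`P1a`**, unconditional. -/
theorem p1aU (h0 : 0 < θ) (h1 : θ ≤ Real.pi / 3) : P1a θ := p1a h0 h1 (K8.k_rsw θ h0.le h1)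

/-- **`P1b`**, unconditional. -/
theorem p1bU (h0 : 0 < θ) (h1 : θ ≤ Real.pi / 3) : P1b θ := p1b h0 h1 (K8.k_rsw θ h0.le h1)

/-- **`P3S`**, unconditional. -/
theorem p3SU {P : Measure Cfg} (h0 : 0 < θ) (h1 : θ ≤ Real.pi / 3)
    (hβ : β = (θ - Real.pi) / 2 ∨ β = (Real.pi - 3 * θ) / 2) (hP : IsLim (2 * Real.cos θ) P) :
    H398.Q.P3S θ β P :=
  p3SF h0 h1 hβ (K8.k_rsw θ h0.le h1) hP (H199.good_aeQ h0.le h1 hP h0)

/-- **The output of block 2A from `STARTR`.** -/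
theorem s2aQq_of_start {P : Measure Cfg} (h0 : 0 < θ) (h1 : θ ≤ Real.pi / 3)
    (hβ : β = (θ - Real.pi) / 2 ∨ β = (Real.pi - 3 * θ) / 2) (hP : IsLim (2 * Real.cos θ) P)
    (hS : STARTR θ β P (Zp θ P)) : S2aQq θ β :=
  H680.T.s2aQq_L h0 h1 hβ hP (QX.l1 h0 h1) (p1aU h0 h1) (p1bU h0 h1) hS

end Vale.Agent.P167.H506.Q
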