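import Vale.Agent.P167.H506.Q.Rad

/-!
# P167, general `q`, block Q-START: from finite domains to the expectations given the frozen squares

`EF_lim`: `EF P K κ F` is the limit of the expectations in the domains `D \ K` with the frozen squares
in the states `κ`. `EF_tr`: transfer of inequalities. `EF_fkg`: positive association given the frozen
squares.
-/

namespace Vale.Agent.P167.H506.Q

open Finset MeasureTheory Filter Topology Vale.Agent.P167.FK Vale.Agent.P167.FKA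
open Vale.Agent.P167.H259 (f_markov f_fkg f_comp f_comp2 Ex_out cf_cf PC_mono)
open Vale.Agent.P167.H519 (IsLim cf_in)
open Vale.Agent.P167.QX (QL dlr ql_Ex)

variable {Q : ℝ} {K : Finset (ℤ × ℤ)} {κ : Cfg} {P : Measure Cfg}

/-- Freezing squares = a smaller domain. -/
theorem Ex_fz (hQ0 : 0 < Q) {D : Finset (ℤ × ℤ)} {η : Cfg} (hη : Good η)
    (hk : ∀ v ∈ K, η v = κ v) (F : Cfg → ℝ) :
    Ex Q D η (fun ω => fz K κ ω * F ω) = Ex Q (D \ K) η F * Ex Q D η (fz K κ) := by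
  have hi : Ind (D \ K) (fz K κ) := (fz_loc K κ).ind disjoint_sdiff
  rw [markov f_markov hQ0 sdiff_subset hη hi, ← Ex_mul_left]
  refine Ex_congr fun S hS => ?_
  by_cases h : ∀ v ∈ K, cf D η S v = κ v
  · rw [fz_one h, one_mul, mul_one]
    refine Ex_out (fun v hv => ?_) F
    by_cases hvK : v ∈ K
    · rw [h v hvK, hk v hvK]
    · have : v ∉ D := fun h' => hv (mem_sdiff.2 ⟨h', hvK⟩)
      rw [cf_out this]
  · rw [fz_zero h, zero_mul, mul_zero]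

theorem Ex_fz_pos (hQ0 : 0 < Q) {D : Finset (ℤ × ℤ)} {η : Cfg} (hk : ∀ v ∈ K, η v = κ v) :
    0 < Ex Q D η (fz K κ) := by
  unfold Ex
  refine div_pos ?_ (FKA.Zq_pos hQ0 D η)
  refine Finset.sum_pos' (fun S _ => mul_nonneg (pow_pos hQ0 _).le (fz_nonneg _ _ _))
    ⟨D.filter fun v => η v = true, Finset.mem_powerset.2 (Finset.filter_subset _ _), ?_⟩
  have h2 : fz K κ (cf D η (D.filter fun v => η v = true)) = 1 := by
    refine fz_one fun v hv => ?_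
    rw [← hk v hv]
    by_cases hD : v ∈ D
    · rw [cf_in hD]
      cases h : η v <;> simp [hD, h]
    · rw [cf_out hD]
  rw [h2, mul_one]
  exact pow_pos hQ0 _

/-- **Finite-volume approximation of the expectations given the frozen squares.** -/
theorem EF_lim (hQ : 1 ≤ Q) (hP : IsLim Q P) (hg : ∀ᵐ ω ∂P, Good ω) (K : Finset (ℤ × ℤ)) (κ : Cfg)
    {F : Cfg → ℝ} (hF : LF F) {ε : ℝ} (hε : 0 < ε) : ∃ R : ℤ, ∀ (D : Finset (ℤ × ℤ)) (η : Cfg),
      Bq 0 R ⊆ D → Good η → (∀ v ∈ K, η v = κ v) → |Ex Q (D \ K) η F - EF P K κ F| ≤ ε := by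
  classical
  have hQ0 : 0 < Q := by linarith
  have hp := fz_pos hQ hP hg K κ
  obtain ⟨B, hB⟩ := hF
  obtain ⟨M, hM⟩ := loc_bdd hB
  have hM0 : 0 ≤ M := (abs_nonneg _).trans (hM κ)
  have hL : Loc (K ∪ B) (fun ω => fz K κ ω * F ω) := by
    intro ω ω' h
    show fz K κ ω * F ω = fz K κ ω' * F ω'
    rw [fz_congr fun v hv => h v (mem_union_left _ hv), hB ω ω' fun v hv => h v (mem_union_right _ hv)]
  obtain ⟨p, hp'⟩ : ∃ p, p = ∫ ω, fz K κ ω ∂P := ⟨_, rfl⟩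
  rw [← hp'] at hp
  obtain ⟨δ, hδ⟩ : ∃ δ, δ = ε * p / (1 + M) := ⟨_, rfl⟩
  have hδ0 : 0 < δ := by rw [hδ]; positivity
  obtain ⟨R₁, h₁⟩ := hP.2 _ _ hL δ hδ0
  obtain ⟨R₂, h₂⟩ := hP.2 _ _ (fz_loc K κ) δ hδ0
  refine ⟨max R₁ R₂, fun D η hD hη hk => ?_⟩
  have k1 := h₁ D η ((H519.Bq_mono (le_max_left _ _)).trans hD) hη
  have k2 := h₂ D η ((H519.Bq_mono (le_max_right _ _)).trans hD) hη
  rw [Ex_fz hQ0 hη hk] at k1
  rw [← hp'] at k2
  unfold EF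
  rw [← hp']
  obtain ⟨x, hx⟩ : ∃ x, x = Ex Q (D \ K) η F := ⟨_, rfl⟩
  obtain ⟨y, hy⟩ : ∃ y, y = Ex Q D η (fz K κ) := ⟨_, rfl⟩
  obtain ⟨f, hf⟩ : ∃ f, f = ∫ ω, fz K κ ω * F ω ∂P := ⟨_, rfl⟩
  rw [← hx, ← hy, ← hf] at k1
  rw [← hy] at k2
  rw [← hx, ← hf]
  have hxM : |x| ≤ M := by
    rw [hx, abs_le]
    constructor
    · rw [← Ex_const (D := D \ K) (η := η) hQ0 (-M)]
      exact Ex_mono hQ0 fun S _ => (abs_le.1 (hM _)).1
    · rw [← Ex_const (D := D \ K) (η := η) hQ0 M]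
      exact Ex_mono hQ0 fun S _ => (abs_le.1 (hM _)).2
  have e : x - f / p = ((x * y - f) - x * (y - p)) / p := by
    field_simp
    ring
  rw [e, abs_div, abs_of_pos hp, div_le_iff₀ hp]
  calc |x * y - f - x * (y - p)| ≤ |x * y - f| + |x * (y - p)| := abs_sub _ _
    _ ≤ δ + M * δ := by
        rw [abs_mul]
        gcongr
    _ = (1 + M) * δ := by ring
    _ = ε * p := by
        rw [hδ]
        field_simp
    _ ≤ ε * p := le_rfl

/-- A good configuration with the frozen squares. -/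
theorem exists_good (K : Finset (ℤ × ℤ)) (κ : Cfg) : ∃ η : Cfg, Good η ∧ ∀ v ∈ K, η v = κ v := by
  refine ⟨cf K eta1 (K.filter fun v => κ v = true), f_good.1 _ _ _ f_good.2.2, fun v hv => ?_⟩
  rw [cf_in hv]
  cases h : κ v <;> simp [hv, h]

/-- **Transfer**: an inequality between polynomials of expectations; here for two functions. -/
theorem EF_tr (hQ : 1 ≤ Q) (hP : IsLim Q P) (hg : ∀ᵐ ω ∂P, Good ω) (K : Finset (ℤ × ℤ)) (κ : Cfg)
    {F G : Cfg → ℝ} (hF : LF F) (hG : LF G) {a b : ℝ} (R₀ : ℤ)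
    (h : ∀ (D : Finset (ℤ × ℤ)) (η : Cfg), Bq 0 R₀ ⊆ D → K ⊆ D → Good η → (∀ v ∈ K, η v = κ v) →
      a * Ex Q (D \ K) η F ≤ b * Ex Q (D \ K) η G) :
    a * EF P K κ F ≤ b * EF P K κ G := by
  classical
  refine le_of_forall_pos_le_add fun ε hε => ?_
  have hc : 0 < |a| + |b| + 1 := by positivity
  obtain ⟨R₁, h₁⟩ := EF_lim hQ hP hg K κ hF (ε := ε / (|a| + |b| + 1)) (by positivity)
  obtain ⟨R₂, h₂⟩ := EF_lim hQ hP hg K κ hG (ε := ε / (|a| + |b| + 1)) (by positivity)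
  obtain ⟨η, hη, hk⟩ := exists_good K κ
  obtain ⟨D, hD⟩ : ∃ D : Finset (ℤ × ℤ), D = (Bq 0 (max R₀ (max R₁ R₂))) ∪ K := ⟨_, rfl⟩
  have hDR : ∀ R, R ≤ max R₀ (max R₁ R₂) → Bq 0 R ⊆ D := fun R hR => by
    rw [hD]
    exact (H519.Bq_mono hR).trans subset_union_left
  have k0 := h D η (hDR _ (le_max_left _ _)) (by rw [hD]; exact subset_union_right) hη hk
  have k1 := h₁ D η (hDR _ ((le_max_left _ _).trans (le_max_right _ _))) hη hk
  have k2 := h₂ D η (hDR _ ((le_max_right _ _).trans (le_max_right _ _))) hη hk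
  obtain ⟨x, hx⟩ : ∃ x, x = Ex Q (D \ K) η F := ⟨_, rfl⟩
  obtain ⟨y, hy⟩ : ∃ y, y = Ex Q (D \ K) η G := ⟨_, rfl⟩
  rw [← hx] at k0 k1
  rw [← hy] at k0 k2
  obtain ⟨t, ht⟩ : ∃ t, t = ε / (|a| + |b| + 1) := ⟨_, rfl⟩
  rw [← ht] at k1 k2
  have ht0 : 0 < t := by rw [ht]; positivity
  have e1 : |a * (x - EF P K κ F)| ≤ |a| * t := by
    rw [abs_mul]
    gcongr
  have e2 : |b * (y - EF P K κ G)| ≤ |b| * t := by
    rw [abs_mul]
    gcongr
  have e3 : (|a| + |b|) * t ≤ ε := by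
    have : (|a| + |b| + 1) * t = ε := by
      rw [ht]
      field_simp
    nlinarith
  have a1 := abs_le.1 e1
  have a2 := abs_le.1 e2
  nlinarith [a1.1, a1.2, a2.1, a2.2]

/-- **Positive association given the frozen squares.** -/
theorem EF_fkg (hQ : 1 ≤ Q) (hP : IsLim Q P) (hg : ∀ᵐ ω ∂P, Good ω) {F G : Cfg → ℝ} (hF : LF F)
    (hG : LF G) (hFi : IncF F) (hGi : IncF G) :
    EF P K κ F * EF P K κ G ≤ EF P K κ (fun ω => F ω * G ω) := by
  classical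
  obtain ⟨B, hB⟩ := hF
  obtain ⟨M, hM⟩ := loc_bdd hB
  obtain ⟨B', hB'⟩ := hG
  obtain ⟨M', hM'⟩ := loc_bdd hB'
  have hQ0 : 0 < Q := by linarith
  have hM0 : 0 ≤ M := (abs_nonneg _).trans (hM κ)
  have hM0' : 0 ≤ M' := (abs_nonneg _).trans (hM' κ)
  refine le_of_forall_pos_le_add fun ε hε => ?_
  obtain ⟨t, ht⟩ : ∃ t, t = ε / (M + M' + 1) := ⟨_, rfl⟩
  have ht0 : 0 < t := by rw [ht]; positivity
  obtain ⟨R₁, h₁⟩ := EF_lim hQ hP hg K κ (F := F) ⟨B, hB⟩ ht0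
  obtain ⟨R₂, h₂⟩ := EF_lim hQ hP hg K κ (F := G) ⟨B', hB'⟩ ht0
  obtain ⟨R₃, h₃⟩ := EF_lim hQ hP hg K κ (LF.mul (F := F) (G := G) ⟨B, hB⟩ ⟨B', hB'⟩) ht0
  obtain ⟨η, hη, hk⟩ := exists_good K κ
  obtain ⟨D, hD⟩ : ∃ D : Finset (ℤ × ℤ), D = Bq 0 (max R₁ (max R₂ R₃)) := ⟨_, rfl⟩
  have hDR : ∀ R, R ≤ max R₁ (max R₂ R₃) → Bq 0 R ⊆ D := fun R hR => by
    rw [hD]
    exact H519.Bq_mono hR
  have k1 := h₁ D η (hDR _ (le_max_left _ _)) hη hk
  have k2 := h₂ D η (hDR _ ((le_max_left _ _).trans (le_max_right _ _))) hη hk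
  have k3 := h₃ D η (hDR _ ((le_max_right _ _).trans (le_max_right _ _))) hη hk
  have k0 := f_fkg Q (D \ K) η F G hQ hη hFi hGi
  have bx : ∀ {H : Cfg → ℝ} {m : ℝ}, (∀ ω, |H ω| ≤ m) → |Ex Q (D \ K) η H| ≤ m := by
    intro H m hH
    rw [abs_le]
    constructor
    · rw [← Ex_const (D := D \ K) (η := η) hQ0 (-m)]
      exact Ex_mono hQ0 fun S _ => (abs_le.1 (hH _)).1
    · rw [← Ex_const (D := D \ K) (η := η) hQ0 m]
      exact Ex_mono hQ0 fun S _ => (abs_le.1 (hH _)).2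
  have b1 := bx hM
  have b2 := bx hM'
  have b3 : |EF P K κ G| ≤ M' := by
    refine le_of_forall_pos_le_add fun ε' hε' => ?_
    obtain ⟨R, h⟩ := EF_lim hQ hP hg K κ (F := G) ⟨B', hB'⟩ hε'
    have h4 := h (Bq 0 R) η subset_rfl hη hk
    have h5 : |Ex Q (Bq 0 R \ K) η G| ≤ M' := by
      rw [abs_le]
      constructor
      · rw [← Ex_const (D := Bq 0 R \ K) (η := η) hQ0 (-M')]
        exact Ex_mono hQ0 fun S _ => (abs_le.1 (hM' _)).1
      · rw [← Ex_const (D := Bq 0 R \ K) (η := η) hQ0 M']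
        exact Ex_mono hQ0 fun S _ => (abs_le.1 (hM' _)).2
    have h6 := abs_sub_abs_le_abs_sub (EF P K κ G) (Ex Q (Bq 0 R \ K) η G)
    rw [abs_sub_comm] at h6
    linarith
  obtain ⟨x, hx⟩ : ∃ x, x = Ex Q (D \ K) η F := ⟨_, rfl⟩
  obtain ⟨y, hy⟩ : ∃ y, y = Ex Q (D \ K) η G := ⟨_, rfl⟩
  obtain ⟨z, hz⟩ : ∃ z, z = Ex Q (D \ K) η (fun ω => F ω * G ω) := ⟨_, rfl⟩
  rw [← hx] at k0 k1 b1
  rw [← hy] at k0 k2 b2
  rw [← hz] at k0 k3
  have e : EF P K κ F * EF P K κ G - x * y =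
      (EF P K κ F - x) * EF P K κ G + x * (EF P K κ G - y) := by ring
  have e1 : |(EF P K κ F - x) * EF P K κ G| ≤ t * M' := by
    rw [abs_mul, abs_sub_comm]
    gcongr
  have e2 : |x * (EF P K κ G - y)| ≤ M * t := by
    rw [abs_mul, abs_sub_comm (EF P K κ G)]
    gcongr
  have e3 : (M + M' + 1) * t = ε := by
    rw [ht]
    field_simp
  have a1 := (abs_le.1 e1).2
  have a2 := (abs_le.1 e2).2
  have a3 := (abs_le.1 k3).2
  nlinarith

end Vale.Agent.P167.H506.Q
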