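import Vale.Agent.P167.H506.Q.Rad
import Vale.Agent.P167.H662.Q.Err

/-!
# P167, general `q`, block Q-START: arms given the frozen squares

`EF_arm_cl`: the frozen squares of the annulus are closed, open arm; `EF_arm_op`: the frozen squares of
the annulus are open, dual arm. The factor `G` does not read the free squares of the annulus.
-/

namespace Vale.Agent.P167.H506.Q

open Finset MeasureTheory Vale.Agent.P167.FK Vale.Agent.P167.FKA
open Vale.Agent.P167.H519 (IsLim)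
open Vale.Agent.P167.QX (QL dlr ql_Ex)
open Vale.Agent.P167.H662.Q (FrA WrA err_fr_dec err_wr_dec)

variable {Q : ℝ} {K : Finset (ℤ × ℤ)} {κ : Cfg} {P : Measure Cfg}

theorem EF_cond_le (hQ : 1 ≤ Q) (hP : IsLim Q P) (hg : ∀ᵐ ω ∂P, Good ω) {A B : Finset (ℤ × ℤ)}
    (hAK : Disjoint A K) {T : Cfg → ℝ} (hT : Loc B T) {t : ℝ}
    (ht : ∀ ξ, Good ξ → (∀ v ∈ K, ξ v = κ v) → Ex Q A ξ T ≤ t) {G : Cfg → ℝ} (hG0 : ∀ ω, 0 ≤ G ω)
    (hGq : QL G) {M : ℝ} (hM : ∀ ω, Good ω → |G ω| ≤ M) (hG : Ind A G) :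
    EF P K κ (fun ω => G ω * T ω) ≤ t * EF P K κ G := by
  have hPp : IsProbabilityMeasure P := hP.1
  have hQ0 : 0 < Q := by linarith
  obtain ⟨MT, hMT⟩ := loc_bdd hT
  have hMT0 : 0 ≤ MT := (abs_nonneg _).trans (hMT κ)
  have hM0 : 0 ≤ M := (abs_nonneg _).trans (hM _ f_good.2.1)
  unfold EF
  rw [dlr_fz (κ := κ) hQ0 hAK hP hg (QL.of_loc hT) (fun ω _ => hMT ω) hGq hM hG, ← mul_div_assoc]
  refine div_le_div_of_nonneg_right ?_ (integral_nonneg fun ω => fz_nonneg _ _ _)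
  have hfzq : QL (fz K κ) := QL.of_loc (fz_loc K κ)
  have hfM : ∀ ω, |fz K κ ω| ≤ 1 := fun ω => by
    rw [abs_of_nonneg (fz_nonneg _ _ _)]
    exact fz_le_one _ _ _
  have hEM : ∀ ω, |Ex Q A ω T| ≤ MT := by
    intro ω
    rw [abs_le]
    constructor
    · rw [← Ex_const (D := A) (η := ω) hQ0 (-MT)]
      exact Ex_mono hQ0 fun S _ => (abs_le.1 (hMT _)).1
    · rw [← Ex_const (D := A) (η := ω) hQ0 MT]
      exact Ex_mono hQ0 fun S _ => (abs_le.1 (hMT _)).2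
  have i1 : Integrable (fun ω => fz K κ ω * (G ω * Ex Q A ω T)) P :=
    (hfzq.mul (hGq.mul (ql_Ex A (QL.of_loc hT)))).int hg (M := 1 * (M * MT)) fun ω hω => by
      rw [abs_mul, abs_mul]
      have := hfM ω
      have := hEM ω
      have := hM ω hω
      gcongr
  have i2 : Integrable (fun ω => fz K κ ω * G ω) P := fz_int hg hGq hM
  rw [← integral_const_mul]
  refine integral_mono_ae i1 (i2.const_mul t) ?_
  filter_upwards [hg] with ω hω
  show fz K κ ω * (G ω * Ex Q A ω T) ≤ t * (fz K κ ω * G ω)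
  by_cases hk : ∀ v ∈ K, ω v = κ v
  · rw [fz_one hk, one_mul, one_mul, mul_comm]
    exact mul_le_mul_of_nonneg_right (ht ω hω hk) (hG0 ω)
  · rw [fz_zero hk, zero_mul, zero_mul, mul_zero]

/-- **Open arms, closed frozen squares.** -/
theorem EF_arm_cl (hQ : 1 ≤ Q) (hP : IsLim Q P) (hg : ∀ᵐ ω ∂P, Good ω) {α C : ℝ}
    (h : ArmDec Q α C) {x : ℤ × ℤ} {r R : ℤ} (hr : 1 ≤ r) (hrR : r ≤ R)
    (hκ : ∀ v ∈ K, v ∈ Bq x R \ Bq x r → κ v = false) {G : Cfg → ℝ} (hG0 : ∀ ω, 0 ≤ G ω)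
    (hGq : QL G) {M : ℝ} (hM : ∀ ω, Good ω → |G ω| ≤ M) (hG : Ind ((Bq x R \ Bq x r) \ K) G) :
    EF P K κ (fun ω => G ω * {ω | ArmPx x r R ω}.indicator 1 ω) ≤
      C * ((r : ℝ) / R) ^ α * EF P K κ G := by
  have hQ0 : 0 < Q := by linarith
  refine EF_cond_le hQ hP hg sdiff_disjoint (loc_arm x r R) (fun ξ hξ hk => ?_) hG0 hGq hM hG
  have key := err_fr_dec (Q := Q) (A := (Bq x R \ Bq x r) \ K) (ξ := ξ) (F := fun _ => 1)
    (T := fun _ => 1) hQ h hr hrR hξ (fun v hv hvA => ?_) (B := Bq x R \ Bq x r) subset_rfl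
    (fun _ => zero_le_one) (fun _ _ _ => rfl) (fun _ => zero_le_one) fun _ _ _ => le_rfl
  · simp only [one_mul, mul_one] at key
    rwa [Ex_const hQ0, mul_one] at key
  · have hvK : v ∈ K := by
      by_contra h'
      exact hvA (mem_sdiff.2 ⟨hv, h'⟩)
    rw [hk v hvK]
    exact hκ v hvK hv

theorem loc_armD (x : ℤ × ℤ) (r R : ℤ) :
    ∃ B : Finset (ℤ × ℤ), Loc B ({ω | ArmDx x r R ω}.indicator (1 : Cfg → ℝ)) := by
  refine ⟨(Bq (FKA.sh x) R).image FKA.shi, fun ω ω' hh => ?_⟩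
  have h1 : ∀ ω : Cfg, ({ω | ArmDx x r R ω}.indicator (1 : Cfg → ℝ)) ω =
      {ω | ArmPx (FKA.sh x) r R ω}.indicator 1 (du ω) := by
    intro ω
    by_cases h : ArmDx x r R ω
    · rw [Set.indicator_of_mem (show ω ∈ {ω | ArmDx x r R ω} from h),
        Set.indicator_of_mem (show du ω ∈ {ω | ArmPx (FKA.sh x) r R ω} from FKA.arm_dual.1 h)]
      rfl
    · rw [Set.indicator_of_notMem (show ω ∉ {ω | ArmDx x r R ω} from h),
        Set.indicator_of_notMem (show du ω ∉ {ω | ArmPx (FKA.sh x) r R ω} from fun h' =>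
          h (FKA.arm_dual.2 h'))]
  rw [h1, h1]
  refine loc_arm (FKA.sh x) r R _ _ fun v hv => ?_
  have := hh (FKA.shi v) (mem_image_of_mem _ hv)
  simp only [du]
  simp only [FKA.shi] at this
  rw [this]

/-- **Dual arms, open frozen squares.** -/
theorem EF_arm_op (hQ : 1 ≤ Q) (hP : IsLim Q P) (hg : ∀ᵐ ω ∂P, Good ω) {α C : ℝ}
    (h : ArmDec Q α C) {x : ℤ × ℤ} {r R : ℤ} (hr : 1 ≤ r) (hrR : r ≤ R)
    (hκ : ∀ v ∈ K, v ∈ Bq x R \ Bq x r → κ v = true) {G : Cfg → ℝ} (hG0 : ∀ ω, 0 ≤ G ω)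
    (hGq : QL G) {M : ℝ} (hM : ∀ ω, Good ω → |G ω| ≤ M) (hG : Ind ((Bq x R \ Bq x r) \ K) G) :
    EF P K κ (fun ω => G ω * {ω | ArmDx x r R ω}.indicator 1 ω) ≤
      C * ((r : ℝ) / R) ^ α * EF P K κ G := by
  have hQ0 : 0 < Q := by linarith
  obtain ⟨B, hB⟩ := loc_armD x r R
  refine EF_cond_le hQ hP hg sdiff_disjoint hB (fun ξ hξ hk => ?_) hG0 hGq hM hG
  have key := err_wr_dec (Q := Q) (A := (Bq x R \ Bq x r) \ K) (ξ := ξ) (F := fun _ => 1)
    (T := fun _ => 1) hQ h hr hrR hξ (fun v hv hvA => ?_) (B := Bq x R \ Bq x r) subset_rfl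
    (fun _ => zero_le_one) (fun _ _ _ => rfl) (fun _ => zero_le_one) fun _ _ _ => le_rfl
  · simp only [one_mul, mul_one] at key
    rwa [Ex_const hQ0, mul_one] at key
  · have hvK : v ∈ K := by
      by_contra h'
      exact hvA (mem_sdiff.2 ⟨hv, h'⟩)
    rw [hk v hvK]
    exact hκ v hvK hv

end Vale.Agent.P167.H506.Q
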