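import Vale.Agent.P167.H506.Q.Sp5

/-!
# P167, general `q`, block Q-NORM: junctions of zero type; `P1a`, `P1b`, `P1c`
-/

namespace Vale.Agent.P167.H506.Q

open Finset MeasureTheory Vale.Agent.P167.FK Vale.Agent.P167.FKA
open Vale.Agent.P167.H166 (bxx mem_bxx)
open Vale.Agent.P167.H562.QM (MajA OneC Nr)
open Vale.Agent.P167.H825.Q (Row)
open Vale.Agent.P167.H945.Q (face faces lrs SP tipL tipR jn Plain Tc ctr P1a P1b tj)
open Vale.Agent.P167.H871.Q (sqm alt_jn)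

variable {θ : ℝ} {r : Row} {b : Bool} {ω : Cfg} {R R' : ℤ} {I : Finset (ℤ × ℤ)} {w w' : ℝ}
  {bx : ℤ → Finset (ℤ × ℤ)}

/-- Alternation for the boxes. -/
theorem jn_alt {k0 : ℕ} (hb : BF (r.sq k0) bx) (hR : 2 ≤ R) (hk : R + 2 ≤ k0)
    (hk' : k0 + R + 2 ≤ r.L) (hg : Good ω) :
    |((lrs r.I (faces r b 0 k0) (faces r b k0 r.L) (bx R) ω).card : ℤ) -
      (lrs r.I (faces r b k0 r.L) (faces r b 0 k0) (bx R) ω).card| ≤ 3 := by
  have hw : ∀ v : ℤ × ℤ, R + 2 ≤ nm (v - r.sq k0) → v ∉ bx R := by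
    intro v hv h
    have := nm_bx hb h
    omega
  have hal : ∀ t : ℤ, al r (sqm r t) = t := by
    intro t
    unfold al sqm
    split_ifs <;> simp
  have halw : ∀ t : ℤ, (t = -1 ∨ t = r.L) → R + 2 ≤ nm (sqm r t - r.sq k0) := by
    intro t ht
    have h1 := al_nm (r := r) (sqm r t) (r.sq k0)
    rw [hal, al_sq] at h1
    rw [abs_le] at h1
    omega
  exact alt_jn (r := r) (b := b) (ω := ω) (B := bx R) (I := r.I) (m := k0) (by omega) hg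
    (rays_bf hb (sq_mem' (by omega)) hR)
    (hw _ (halw _ (by split_ifs <;> simp)))
    (hw _ (halw _ (by split_ifs <;> simp))) (by omega) le_rfl (fun _ _ h => h)

/-- One weight is zero. -/
theorem zero_anti {v M : ℝ} (hv : 0 ≤ v) (hM : v ≤ M) (hM1 : 1 ≤ M) {a b a' b' : ℕ}
    (ha : a ≤ a') (hb : b ≤ b') (h' : |(a' : ℤ) - b'| ≤ 3) :
    (0 : ℝ) ^ a' * v ^ b' ≤ M ^ 6 * (0 ^ a * v ^ b) := by
  have h0 : 0 ≤ M ^ 6 * ((0 : ℝ) ^ a * v ^ b) := by positivity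
  rcases Nat.eq_zero_or_pos a' with h | h
  · subst h
    have ha0 : a = 0 := by omega
    subst ha0
    rw [pow_zero, one_mul, one_mul]
    obtain ⟨j, rfl⟩ := Nat.exists_eq_add_of_le hb
    rw [abs_le] at h'
    have hj : j ≤ 6 := by push_cast at h'; omega
    rw [pow_add, mul_comm]
    refine mul_le_mul_of_nonneg_right ?_ (by positivity)
    exact (pow_le_pow_left₀ hv hM j).trans (pow_le_pow_right₀ hM1 hj)
  · rw [zero_pow (by omega), zero_mul]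
    exact h0

/-- The upper bound of the weights. -/
noncomputable def MZ (θ : ℝ) : ℝ :=
  max 1 (max (2 * Real.cos θ) (Real.sin (3 * θ) / Real.sin (2 * θ)))

/-- **The factors of the faces of the junctions of zero type are decreasing.** -/
theorem face_anti (h0 : 0 < θ) (h1 : θ ≤ Real.pi / 3) {i : Fin 3} {m : ℕ} (hok : r.Ok θ 1 m)
    (hS : SZ θ r i) (hP : ¬ Plain r) (hR : 2 ≤ R) (hRR : R ≤ R') (hR' : R' + 2 ≤ m)
    (hg : Good ω) (b : Bool) :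
    TB r.I (faces r b 0 r.k0) (faces r b r.k0 r.L) (jn θ r b).w (jn θ r b).w'
      (jn θ r b).bx R' ω ≤ MZ θ ^ 6 *
    TB r.I (faces r b 0 r.k0) (faces r b r.k0 r.L) (jn θ r b).w (jn θ r b).w'
      (jn θ r b).bx R ω := by
  have hb : BF (r.sq r.k0) (jn θ r b).bx := bf_J
  have hk := k0_row hok hP
  have hc1 := one_le_two_cos h0 h1
  have hM1 : 1 ≤ MZ θ := le_max_left _ _
  have hM2 : 2 * Real.cos θ ≤ MZ θ := (le_max_left _ _).trans (le_max_right _ _)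
  have hM3 : Real.sin (3 * θ) / Real.sin (2 * θ) ≤ MZ θ :=
    (le_max_right _ _).trans (le_max_right _ _)
  have hv0 : 0 ≤ Real.sin (3 * θ) / Real.sin (2 * θ) := div_nonneg
    (Real.sin_nonneg_of_nonneg_of_le_pi (by linarith) (by linarith)) (sin2_pos h0 h1).le
  have hinv : (2 * Real.cos θ)⁻¹ ≤ MZ θ := (inv_le_one_of_one_le₀ hc1).trans hM1
  have a1 := jn_alt (b := b) (ω := ω) (R := R) hb hR (by omega) (by omega) hg
  have a2 := jn_alt (b := b) (ω := ω) (R := R') hb (by omega) (by omega) (by omega) hg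
  have m1 := card_le_card (lrs_mono (I := r.I) (A := faces r b 0 r.k0)
    (A' := faces r b r.k0 r.L) (ω := ω) (hb.mono _ _ hRR))
  have m2 := card_le_card (lrs_mono (I := r.I) (A := faces r b r.k0 r.L)
    (A' := faces r b 0 r.k0) (ω := ω) (hb.mono _ _ hRR))
  have cz : ∀ {v : ℝ}, 0 ≤ v → v ≤ MZ θ → ∀ {x y x' y' : ℕ}, x ≤ x' → y ≤ y' →
      |(x' : ℤ) - y'| ≤ 3 → (0 : ℝ) ^ x' * v ^ y' ≤ MZ θ ^ 6 * (0 ^ x * v ^ y) := fun hv hM =>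
    fun h1 h2 h3 => zero_anti hv hM hM1 h1 h2 h3
  unfold TB
  obtain ⟨-, ⟨hj, hη⟩ | ⟨hj, hη⟩⟩ := hS
  · rcases jn_K1 (b := b) h0 h1 hok.s hj hη with ⟨-, g1, g2⟩ | ⟨-, g1, g2⟩
    · rw [g1, g2]
      simp only [one_pow, mul_one]
      exact one_le_pow₀ hM1
    · rw [g1, g2]
      exact cz le_rfl (by linarith) m1 m2 a2
  · rcases jn_K3 (b := b) h0 h1 hok.s hj hη with ⟨-, ⟨g1, g2⟩ | ⟨g1, g2⟩⟩ |
      ⟨-, ⟨g1, g2⟩ | ⟨g1, g2⟩⟩
    · rw [g1, g2]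
      exact alt_anti (by linarith) (by positivity) (by rw [mul_inv_cancel₀ (by linarith)])
        hM2 hinv hM1 m1 m2 a1 a2
    · rw [g1, g2]
      exact alt_anti (by positivity) (by linarith) (by rw [inv_mul_cancel₀ (by linarith)])
        hinv hM2 hM1 m1 m2 a1 a2
    · rw [g1, g2]
      exact cz hv0 hM3 m1 m2 a2
    · rw [g1, g2]
      rw [abs_sub_comm] at a2
      have := cz hv0 hM3 m2 m1 a2
      rw [mul_comm (_ ^ _), mul_comm (_ ^ _ : ℝ) (0 ^ _)]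
      exact this

theorem MZ_pos : 0 < MZ θ := lt_of_lt_of_le one_pos (le_max_left _ _)

theorem TB_nn (hw : 0 ≤ w) (hw' : 0 ≤ w') {A A' : Finset Ed} : 0 ≤ TB I A A' w w' bx R ω := by
  unfold TB
  positivity

theorem jn_nn (h0 : 0 < θ) (h1 : θ ≤ Real.pi / 3) : 0 ≤ (jn θ r b).w ∧ 0 ≤ (jn θ r b).w' :=
  ⟨H945.Q.relw_nonneg h0 h1 _ _ _ _, H945.Q.relw_nonneg h0 h1 _ _ _ _⟩

/-- **The factors of the junctions of zero type are decreasing.** -/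
theorem zero_fam (h0 : 0 < θ) (h1 : θ ≤ Real.pi / 3) {i : Fin 3} {m : ℕ} (hok : r.Ok θ 1 m)
    (hS : SZ θ r i) (hP : i = 2 → ¬ Plain r) (hR : 2 ≤ R) (hRR : R ≤ R') (hR' : R' + 2 ≤ m)
    (hg : Good ω) : Tc θ r.I r i R' ω ≤ MZ θ ^ 12 * Tc θ r.I r i R ω := by
  obtain ⟨rfl, h⟩ := hS
  have hP' := hP rfl
  have f1 := face_anti h0 h1 hok ⟨rfl, h⟩ hP' hR hRR hR' hg true
  have f2 := face_anti h0 h1 hok ⟨rfl, h⟩ hP' hR hRR hR' hg false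
  rw [Tc_J hP', Tc_J hP']
  have n1 := jn_nn (r := r) (b := true) h0 h1
  have n2 := jn_nn (r := r) (b := false) h0 h1
  have hM := (MZ_pos (θ := θ)).le
  refine (mul_le_mul f1 f2 (TB_nn n2.1 n2.2)
    (mul_nonneg (pow_nonneg hM 6) (TB_nn n1.1 n1.2))).trans (le_of_eq ?_)
  ring

theorem p1c_Z (h0 : 0 < θ) (h1 : θ ≤ Real.pi / 3) : P1cS θ (SZ θ) := by
  intro Λ hΛ
  refine ⟨MZ θ ^ 12, 8, pow_pos MZ_pos 12, fun r m i ρ ρ' hS hok hP h3 h4 h5 h6 η h7 h8 => ?_⟩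
  have h3' : 8 ≤ ρ := by exact_mod_cast h3
  rw [← (Ex_pe' h0 h1 h7).mul lf_Tc]
  refine (Ex_pe' h0 h1 h7).mono lf_Tc (lf_Tc.cmul _) fun ω hω => ?_
  exact zero_fam h0 h1 hok hS hP (by omega) h4 (by omega) hω.1

theorem p1c_A (h0 : 0 < θ) (h1 : θ ≤ Real.pi / 3) : P1cS θ SA := by
  intro Λ hΛ
  have hM : 0 < MT θ := lt_of_lt_of_le one_pos (le_max_left _ _)
  refine ⟨MT θ ^ 6, 8, pow_pos hM 6, fun r m i ρ ρ' hS hok hP h3 h4 h5 h6 η h7 h8 => ?_⟩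
  have h3' : 8 ≤ ρ := by exact_mod_cast h3
  rw [← (Ex_pe' h0 h1 h7).mul lf_Tc]
  refine (Ex_pe' h0 h1 h7).mono lf_Tc (lf_Tc.cmul _) fun ω hω => ?_
  refine (tip_fam (R := ρ') h0 h1 hS hok h6).anti ρ ρ' h3' h4 le_rfl ω hω.1 fun v hv => ?_
  rw [hω.2 v (fun h => (mem_sdiff.1 h).2 hv), h8 v hv]

/-- **Moments at the junctions of zero type**, from the comparison of the radii. -/
theorem p1b_Z (h0 : 0 < θ) (h1 : θ ≤ Real.pi / 3) (hR : RSW (2 * Real.cos θ))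
    (hz : P1aS θ (SZ θ)) : P1bS θ (SZ θ) := by
  intro ε s hε
  have hc1 := one_le_two_cos h0 h1
  obtain ⟨e, CM, ρ1, he0, he1, hCM, hρ1, H⟩ := num_two hc1 hR hε s
  obtain ⟨C, ρ2, hC, HR⟩ := hz (2 / e) (by rw [le_div_iff₀ he0]; linarith)
  have hM := MZ_pos (θ := θ)
  refine ⟨MZ θ ^ 12 * (CM * C), max ρ1 (2 * (|ρ2| + 16) / e), by positivity,
    fun r m i ρ hS hok hP h3 h6 => ?_⟩
  have g1 : ρ1 ≤ ρ := (le_max_left _ _).trans h3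
  have g2 : 2 * (|ρ2| + 16) / e ≤ ρ := (le_max_right _ _).trans h3
  rw [div_le_iff₀ he0] at g2
  have hRp : (0 : ℝ) < ρ := lt_of_lt_of_le hρ1 g1
  obtain ⟨N, n1, n2, n3⟩ := H (ctr r i) ρ g1
  refine ⟨N, n1, fun ω _ => n2 ω, fun η h7 h8 => ?_⟩
  obtain ⟨σ, hσ⟩ : ∃ σ : ℤ, σ = ⌊e * (ρ : ℝ)⌋ - 2 := ⟨_, rfl⟩
  have hf1 : ((⌊e * (ρ : ℝ)⌋ : ℤ) : ℝ) ≤ e * ρ := Int.floor_le _
  have hf2 : e * (ρ : ℝ) < ((⌊e * (ρ : ℝ)⌋ : ℤ) : ℝ) + 1 := Int.lt_floor_add_one _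
  have hσr : (σ : ℝ) = ((⌊e * (ρ : ℝ)⌋ : ℤ) : ℝ) - 2 := by rw [hσ]; push_cast; ring
  have ha := abs_nonneg ρ2
  have ha' := le_abs_self ρ2
  have hσ8 : (8 : ℝ) ≤ σ := by linarith
  have hσ8' : 8 ≤ σ := by exact_mod_cast hσ8
  have hσR : σ ≤ ρ := by
    have : (σ : ℝ) ≤ ρ := by nlinarith
    exact_mod_cast this
  have hpe := Ex_pe' (D := Bq (ctr r i) (4 * ρ) \ r.I) h0 h1 h7
  have hNl : LF fun ω => Real.exp (s * (N ω : ℝ)) :=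
    LF.comp (N := N) n1 fun n : ℕ => Real.exp (s * n)
  have e1 : Ex (2 * Real.cos θ) (Bq (ctr r i) (4 * ρ) \ r.I) η
      (fun ω => Tc θ r.I r i ρ ω * Real.exp (s * (N ω : ℝ))) ≤
      MZ θ ^ 12 * Ex (2 * Real.cos θ) (Bq (ctr r i) (4 * ρ) \ r.I) η
        (fun ω => Tc θ r.I r i σ ω * Real.exp (s * (N ω : ℝ))) := by
    rw [← hpe.mul (lf_Tc.mul hNl)]
    refine hpe.mono (lf_Tc.mul hNl) ((lf_Tc.mul hNl).cmul _) fun ω hω => ?_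
    rw [← mul_assoc]
    exact mul_le_mul_of_nonneg_right
      (zero_fam h0 h1 hok hS hP (by omega) hσR (by omega) hω.1) (Real.exp_pos _).le
  have e2 := n3 r.I η h7 (hone_row h8 _ _) (σ + 2) (Tc θ r.I r i σ) (by push_cast; linarith)
    (fun ω => Tc_nn h0 h1 ω) (fun ω ω' hh => H945.Q.Tc_loc (θ := θ) r.I r i σ ω ω' fun v hv =>
      hh v (mem_union_left _ (by rw [mem_bq] at hv ⊢; omega)))
  have e3 := HR r m i σ ρ hS hok hP (by linarith) hσR (by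
    rw [div_mul_eq_mul_div, le_div_iff₀ he0]
    nlinarith) h6 η h7 h8
  calc _ ≤ _ := e1
    _ ≤ MZ θ ^ 12 * (CM * Ex (2 * Real.cos θ) (Bq (ctr r i) (4 * ρ) \ r.I) η
        (Tc θ r.I r i σ)) := by gcongr
    _ ≤ MZ θ ^ 12 * (CM * (C * Ex (2 * Real.cos θ) (Bq (ctr r i) (4 * ρ) \ r.I) η
        (Tc θ r.I r i ρ))) := by gcongr
    _ = _ := by ring

/-! ### all centres -/

theorem P1aS.or {S S' : Row → Fin 3 → Prop} (h0 : 0 < θ) (h1 : θ ≤ Real.pi / 3) (h : P1aS θ S)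
    (h' : P1aS θ S') : P1aS θ fun r i => S r i ∨ S' r i := by
  intro Λ hΛ
  obtain ⟨C, ρ0, hC, H⟩ := h Λ hΛ
  obtain ⟨C', ρ0', hC', H'⟩ := h' Λ hΛ
  refine ⟨C + C', max ρ0 ρ0', by positivity, fun r m i ρ ρ' hS h2 hP h3 h4 h5 h6 η h7 h8 => ?_⟩
  rcases hS with hS | hS
  · exact (H r m i ρ ρ' hS h2 hP ((le_max_left _ _).trans h3) h4 h5 h6 η h7 h8).trans
      (mul_le_mul_of_nonneg_right (by linarith) (Ex_Tc_nn h0 h1))
  · exact (H' r m i ρ ρ' hS h2 hP ((le_max_right _ _).trans h3) h4 h5 h6 η h7 h8).trans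
      (mul_le_mul_of_nonneg_right (by linarith) (Ex_Tc_nn h0 h1))

theorem P1cS.or {S S' : Row → Fin 3 → Prop} (h0 : 0 < θ) (h1 : θ ≤ Real.pi / 3) (h : P1cS θ S)
    (h' : P1cS θ S') : P1cS θ fun r i => S r i ∨ S' r i := by
  intro Λ hΛ
  obtain ⟨C, ρ0, hC, H⟩ := h Λ hΛ
  obtain ⟨C', ρ0', hC', H'⟩ := h' Λ hΛ
  refine ⟨C + C', max ρ0 ρ0', by positivity, fun r m i ρ ρ' hS h2 hP h3 h4 h5 h6 η h7 h8 => ?_⟩
  rcases hS with hS | hS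
  · exact (H r m i ρ ρ' hS h2 hP ((le_max_left _ _).trans h3) h4 h5 h6 η h7 h8).trans
      (mul_le_mul_of_nonneg_right (by linarith) (Ex_Tc_nn h0 h1))
  · exact (H' r m i ρ ρ' hS h2 hP ((le_max_right _ _).trans h3) h4 h5 h6 η h7 h8).trans
      (mul_le_mul_of_nonneg_right (by linarith) (Ex_Tc_nn h0 h1))

theorem P1bS.or {S S' : Row → Fin 3 → Prop} (h0 : 0 < θ) (h1 : θ ≤ Real.pi / 3) (h : P1bS θ S)
    (h' : P1bS θ S') : P1bS θ fun r i => S r i ∨ S' r i := by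
  intro ε s hε
  obtain ⟨C, ρ0, hC, H⟩ := h ε s hε
  obtain ⟨C', ρ0', hC', H'⟩ := h' ε s hε
  refine ⟨C + C', max ρ0 ρ0', by positivity, fun r m i ρ hS h2 hP h3 h6 => ?_⟩
  rcases hS with hS | hS
  · obtain ⟨N, n1, n2, n3⟩ := H r m i ρ hS h2 hP ((le_max_left _ _).trans h3) h6
    exact ⟨N, n1, n2, fun η h7 h8 => (n3 η h7 h8).trans
      (mul_le_mul_of_nonneg_right (by linarith) (Ex_Tc_nn h0 h1))⟩
  · obtain ⟨N, n1, n2, n3⟩ := H' r m i ρ hS h2 hP ((le_max_right _ _).trans h3) h6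
    exact ⟨N, n1, n2, fun η h7 h8 => (n3 η h7 h8).trans
      (mul_le_mul_of_nonneg_right (by linarith) (Ex_Tc_nn h0 h1))⟩

/-- **`P1a` from the comparison of the radii at the junctions of zero type.** -/
theorem p1a_of (h0 : 0 < θ) (h1 : θ ≤ Real.pi / 3) (hR : RSW (2 * Real.cos θ))
    (hz : P1aS θ (SZ θ)) : P1a θ := by
  intro Λ hΛ
  obtain ⟨C, ρ0, hC, H⟩ := ((p1a_A h0 h1 hR).or h0 h1 ((p1a_G h0 h1).or h0 h1 hz)) Λ hΛ
  exact ⟨C, ρ0, hC, fun r m i ρ ρ' h2 hP => H r m i ρ ρ' (S_cases h2 hP) h2 hP⟩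

/-- **`P1b` from the comparison of the radii at the junctions of zero type.** -/
theorem p1b_of (h0 : 0 < θ) (h1 : θ ≤ Real.pi / 3) (hR : RSW (2 * Real.cos θ))
    (hz : P1aS θ (SZ θ)) : P1b θ := by
  intro ε s hε
  obtain ⟨C, ρ0, hC, H⟩ :=
    ((p1b_A h0 h1 hR).or h0 h1 ((p1b_G h0 h1 hR).or h0 h1 (p1b_Z h0 h1 hR hz))) ε s hε
  exact ⟨C, ρ0, hC, fun r m i ρ h2 hP => H r m i ρ (S_cases h2 hP) h2 hP⟩

/-- **`P1c`**, unconditional. -/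
theorem p1c (h0 : 0 < θ) (h1 : θ ≤ Real.pi / 3) (hR : RSW (2 * Real.cos θ)) : P1c θ := by
  intro Λ hΛ
  obtain ⟨C, ρ0, hC, H⟩ :=
    ((p1c_A h0 h1).or h0 h1 ((p1c_G h0 h1 hR).or h0 h1 (p1c_Z h0 h1))) Λ hΛ
  exact ⟨C, ρ0, hC, fun r m i ρ ρ' h2 hP => H r m i ρ ρ' (S_cases h2 hP) h2 hP⟩

end Vale.Agent.P167.H506.Q
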