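import Vale.Agent.P167.H506.Q.Mul

/-!
# P167, general `q`, block Q-START: boxes at the holes

Boxes of radius `R` around finitely many centres, each of which contains frozen squares of one state
only.
-/

namespace Vale.Agent.P167.H506.Q

open Finset MeasureTheory Vale.Agent.P167.FK Vale.Agent.P167.FKA

variable {Q : ℝ} {K : Finset (ℤ × ℤ)} {κ : Cfg}

/-- The factor for `n` boxes with the arm probability `ε`. -/
noncomputable def fac (n : ℕ) (ε : ℝ) : ℝ := ((1 / (1 - ε)) ^ 2) ^ (2 * n)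

theorem fac_le {n : ℕ} {ε : ℝ} (h0 : 0 ≤ ε) (h : 8 * n * ε ≤ 1) (h1 : ε < 1) :
    fac n ε ≤ 1 + 8 * n * ε := by
  have h2 : 1 + ((4 * n : ℕ) : ℝ) * (- ε) ≤ (1 + (- ε)) ^ (4 * n) :=
    one_add_mul_le_pow (by linarith) _
  have h3 : fac n ε = 1 / (1 - ε) ^ (4 * n) := by
    unfold fac
    rw [one_div, one_div, inv_pow, inv_pow, ← pow_mul]
    congr 2
    ring
  rw [h3]
  push_cast at h2
  have h4 : 0 < 1 - 4 * n * ε := by nlinarith
  have h5 : 1 - 4 * n * ε ≤ (1 - ε) ^ (4 * n) := by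
    calc 1 - 4 * n * ε = 1 + 4 * n * (-ε) := by ring
      _ ≤ _ := h2
      _ = _ := by ring
  calc 1 / (1 - ε) ^ (4 * n) ≤ 1 / (1 - 4 * n * ε) := one_div_le_one_div_of_le h4 h5
    _ ≤ 1 + 8 * n * ε := by
      rw [div_le_iff₀ h4]
      have h6 : (0 : ℝ) ≤ n * ε := by positivity
      nlinarith

/-- **Boxes at the holes.** Every box `(c i, R)` contains only closed or only open frozen squares. -/
theorem rm_holes (hQ : 1 ≤ Q) (hκ : Good κ) {α C : ℝ} (h : ArmDec Q α C) {ι : Type*}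
    [DecidableEq ι] (I : Finset ι) (c : ι → ℤ × ℤ) {r R : ℤ} (hr : 1 ≤ r) (hrR : r ≤ R)
    (hdis : ∀ i ∈ I, ∀ j ∈ I, i ≠ j → Disjoint (Bq (c i) R) (Bq (c j) R))
    (hcol : ∀ i ∈ I, ∃ b : Bool, ∀ v ∈ K, v ∈ Bq (c i) R → κ v = b)
    (hε : C * ((r : ℝ) / R) ^ α < 1) :
    RM Q K κ ((I.biUnion fun i => Bq (c i) R) \ K) ((I.biUnion fun i => Bq (c i) r) \ K)
      (fac I.card (C * ((r : ℝ) / R) ^ α)) := by
  have e : ∀ ρ : ℤ, (I.biUnion fun i => Bq (c i) ρ) \ K = I.biUnion fun i => Bq (c i) ρ \ K := by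
    intro ρ
    ext v
    simp only [Finset.mem_sdiff, Finset.mem_biUnion]
    constructor
    · rintro ⟨⟨i, hi, hv⟩, hK⟩
      exact ⟨i, hi, hv, hK⟩
    · rintro ⟨i, hi, hv, hK⟩
      exact ⟨⟨i, hi, hv⟩, hK⟩
  rw [e, e]
  refine RM.biUnion hQ hκ I ?_ ?_ ?_ ?_
  · intro i hi
    obtain ⟨b, hb⟩ := hcol i hi
    cases b with
    | false => exact rm_closed hQ h hr hrR hb hε
    | true => exact rm_open hQ h hr hrR hb hε
  · intro i _ v hv
    rw [Finset.mem_sdiff, mem_bq] at hv ⊢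
    refine ⟨?_, hv.2⟩
    have := hv.1
    omega
  · intro i hi j hj hij
    exact Finset.disjoint_of_subset_left Finset.sdiff_subset
      (Finset.disjoint_of_subset_right Finset.sdiff_subset (hdis i hi j hj hij))
  · intro i _
    exact Finset.sdiff_disjoint

/-- **(S-A)**: `T ≥ 0` depends on the balls `(c i, r)` (and on the frozen squares), `G` does not
depend on the free squares of the balls `(c i, R)`; expectations for the infinite-volume measure with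
the squares of `K` frozen in the states `κ` (not normalised). -/
theorem hole_mix (hQ : 1 ≤ Q) (hκ : Good κ) {α C : ℝ} (h : ArmDec Q α C) {ι : Type*}
    [DecidableEq ι] (I : Finset ι) (c : ι → ℤ × ℤ) {r R : ℤ} (hr : 1 ≤ r) (hrR : r ≤ R)
    (hdis : ∀ i ∈ I, ∀ j ∈ I, i ≠ j → Disjoint (Bq (c i) R) (Bq (c j) R))
    (hcol : ∀ i ∈ I, ∃ b : Bool, ∀ v ∈ K, v ∈ Bq (c i) R → κ v = b)
    (hC : 0 ≤ C) (hε1 : C * ((r : ℝ) / R) ^ α < 1)
    (hε : 8 * I.card * (C * ((r : ℝ) / R) ^ α) ≤ 1) {P : Measure Cfg} (hP : H519.IsLim Q P)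
    (hg : ∀ᵐ ω ∂P, Good ω) {T G : Cfg → ℝ} (hT0 : ∀ ω, 0 ≤ T ω)
    (hT : Loc ((I.biUnion fun i => Bq (c i) r) ∪ K) T) (hGq : QX.QL G) {M : ℝ}
    (hM : ∀ ω, Good ω → |G ω| ≤ M) (hG : Ind ((I.biUnion fun i => Bq (c i) R) \ K) G) :
    |(∫ ω, fz K κ ω * (G ω * T ω) ∂P) * (∫ ω, fz K κ ω ∂P) -
        (∫ ω, fz K κ ω * G ω ∂P) * (∫ ω, fz K κ ω * T ω ∂P)| ≤
      8 * I.card * (C * ((r : ℝ) / R) ^ α) *
        ((∫ ω, fz K κ ω * |G ω| ∂P) * (∫ ω, fz K κ ω * T ω ∂P)) := by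
  have hRr : (0 : ℝ) < r := by exact_mod_cast (by omega : 0 < r)
  have hRR : (0 : ℝ) < R := by exact_mod_cast (by omega : 0 < R)
  have hε0 : 0 ≤ C * ((r : ℝ) / R) ^ α := by positivity
  have h1 := rm_holes hQ hκ h I c hr hrR hdis hcol hε1
  have h2 := RM.mul_lim hQ hκ h1 Finset.sdiff_disjoint hP hg hT0 (by
    have e : (I.biUnion fun i => Bq (c i) r) ∪ K = ((I.biUnion fun i => Bq (c i) r) \ K) ∪ K := by
      rw [Finset.sdiff_union_self_eq_union]
    rw [← e]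
    exact hT) hGq hM hG
  refine h2.trans (mul_le_mul_of_nonneg_right ?_ (mul_nonneg
    (integral_nonneg fun ω => mul_nonneg (fz_nonneg _ _ _) (abs_nonneg _))
    (integral_nonneg fun ω => mul_nonneg (fz_nonneg _ _ _) (hT0 _))))
  have := fac_le hε0 hε hε1
  linarith

end Vale.Agent.P167.H506.Q
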