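import Vale.Agent.P167.H506.Q.Upd

/-!
# P167, general `q`, block Q-START: one row and decoupling, lower bounds
-/

namespace Vale.Agent.P167.H506.Q

open Finset MeasureTheory Filter
open Vale.Agent.P167.FK Vale.Agent.P167.FKA
open Vale.Agent.P167.H519 (IsLim)
open Vale.Agent.P167.H825.Q (Row)
open Vale.Agent.P167.H680.T (uI mem_uI)
open Vale.Agent.P167.H199 (Rsc nbh mem_nbh walls_lim Cw subset_nbh)
open Vale.Agent.P167.H945.Q (Tc ctr Plain Sp Tc_plain Tc_row Tc_loc Frz TT TT_eq TT_nonneg rad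
  exists_m ctr_mem ctr_sep1 nm_of_Bq fz_prod)

variable {θ : ℝ} {P : Measure Cfg}

theorem TT_FT (r : Row) (R : ℤ) (ω : Cfg) :
    TT θ r.I r R ω = FT θ (fun _ : Unit => r) (fun _ => R) ω := by
  rw [TT_eq]
  unfold FT
  rw [Fintype.prod_prod_type]
  simp [uI_unit]

/-- The zones of one row. -/
theorem zn_unit {r : Row} {m : ℕ} (hr : r.Ok θ 1 m) (hm : 16 ≤ m) {ρ : ℤ} (hρ : 8 * ρ ≤ m) :
    Zn (fun _ : Unit => r) (fun _ => 4 * ρ) (fun _ => ρ) := by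
  refine ⟨fun q _ v _ h => ?_, fun _ e _ h => ?_, fun _ h => ?_, fun q q' hne h1 h2 v hv hv' => ?_⟩
  · rw [uI_unit] at h
    exact h
  · rw [uI_unit] at h
    exact h
  · have := (k0_row hr h).2
    omega
  · have hk : q.2 ≠ q'.2 := fun h => hne (Prod.ext rfl h)
    have h3 := ctr_sep1 hr (by rw [one_mul]; exact_mod_cast (by omega : 1 ≤ m)) h1 h2 hk
    have h4 := nm_of_Bq hv
    have h5 := nm_of_Bq hv'
    have h6 := nm_tri (ctr r q.2) v (ctr r q'.2)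
    rw [nm_symm (ctr r q.2) v] at h6
    have h7 : nm (ctr r q.2 - ctr r q'.2) ≤ 5 * ρ := by linarith
    have h8 : (nm (ctr r q.2 - ctr r q'.2) : ℝ) ≤ ((5 * ρ : ℤ) : ℝ) := by exact_mod_cast h7
    have h9 : ((8 * ρ : ℤ) : ℝ) ≤ ((m : ℤ) : ℝ) := by exact_mod_cast hρ
    have h10 : (16 : ℝ) ≤ m := by exact_mod_cast hm
    push_cast at h8 h9
    linarith

/-- **One row**, from the intrinsic radius down to the radius `δ n / 32`. -/
theorem row_down (h0 : 0 < θ) (h1 : θ ≤ Real.pi / 3) (hR : RSW (2 * Real.cos θ))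
    (hP : IsLim (2 * Real.cos θ) P) (hg : ∀ᵐ ω ∂P, Good ω) {δ : ℝ} (hδ : 0 < δ) :
    ∃ C : ℝ, 1 ≤ C ∧ ∀ᶠ n : ℕ in atTop, ∀ r : Row, r.Ok θ δ n → r.L ≤ n →
      ∫ ω, fz r.I r.fr ω * TT θ r.I r (rad r) ω ∂P ≤
        C * ∫ ω, fz r.I r.fr ω * TT θ r.I r ⌊δ * n / 32⌋ ω ∂P := by
  obtain ⟨C, ρ₀, hC, H⟩ := p1c h0 h1 hR (max 1 (8 / δ)) (le_max_left _ _)
  refine ⟨(max C 1) ^ Fintype.card (Unit × Fin 3), one_le_pow₀ (le_max_right _ _), ?_⟩
  have hlim : Tendsto (fun n : ℕ => δ * (n : ℝ)) atTop atTop :=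
    tendsto_natCast_atTop_atTop.const_mul_atTop hδ
  filter_upwards [hlim.eventually_ge_atTop 100, hlim.eventually_ge_atTop (32 * (ρ₀ + 1))]
    with n hn hnρ r hr hL
  obtain ⟨m, hm1, hm2, hm3, hm4, hm5⟩ := exists_m hr (by linarith)
  obtain ⟨ρ, hρ⟩ : ∃ ρ : ℤ, ρ = ⌊δ * n / 32⌋ := ⟨_, rfl⟩
  have hρ1 : (ρ : ℝ) ≤ δ * n / 32 := by rw [hρ]; exact Int.floor_le _
  have hρ2 : δ * n / 32 - 1 < ρ := by rw [hρ]; exact Int.sub_one_lt_floor _
  rw [← hρ]
  have hm8 : 8 * rad r ≤ m := by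
    rw [hm5]
    have : 8 * (m / 8) ≤ m := by omega
    exact_mod_cast this
  have hm16 : 16 ≤ m := by
    have : (16 : ℝ) ≤ m := by linarith
    exact_mod_cast this
  have h8 : ((m : ℝ) - 7) / 8 ≤ (rad r : ℝ) := by
    rw [hm5, Int.cast_natCast]
    have : (m : ℝ) ≤ 8 * ((m / 8 : ℕ) : ℝ) + 7 := by
      have h9 : m ≤ 8 * (m / 8) + 7 := by omega
      exact_mod_cast h9
    linarith
  have h9 : (rad r : ℝ) ≤ n / 8 := by
    have h10 : ((8 * rad r : ℤ) : ℝ) ≤ ((m : ℤ) : ℝ) := by exact_mod_cast hm8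
    have h11 : (m : ℝ) ≤ n := by exact_mod_cast hm3.trans hL
    push_cast at h10
    linarith
  have hρrad : ρ ≤ rad r := by
    have : (ρ : ℝ) ≤ (rad r : ℝ) := by linarith
    exact_mod_cast this
  have hΛρ : (rad r : ℝ) ≤ max 1 (8 / δ) * ρ := by
    have h10 : δ * n / 64 ≤ (ρ : ℝ) := by linarith
    have h11 : 8 / δ * (δ * n / 64) = n / 8 := by field_simp; ring
    have hρ0 : (0 : ℝ) ≤ ρ := by linarith
    calc (rad r : ℝ) ≤ 8 / δ * (δ * n / 64) := by rw [h11]; exact h9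
      _ ≤ 8 / δ * ρ := mul_le_mul_of_nonneg_left h10 (by positivity)
      _ ≤ _ := mul_le_mul_of_nonneg_right (le_max_right _ _) hρ0
  have hQ0 : (0 : ℝ) < 2 * Real.cos θ := by linarith [one_le_two_cos h0 h1]
  have hσ : Frz (fun _ : Unit => r) r.fr := fun _ v _ => rfl
  have key := FT_all h0 h1 hP hg (r := fun _ : Unit => r) (σ := r.fr) hσ
    (W := fun _ => 4 * rad r) (S := fun _ => rad r) (s := fun _ => rad r) (s1 := fun _ => ρ)
    (zn_unit hm1 hm16 hm8) (fun _ => le_rfl) (fun _ => hρrad)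
    (fun _ => by show rad r ≤ 4 * rad r; omega) (fun _ => by show ρ ≤ 4 * rad r; omega)
    (C := max C 1) (le_max_right _ _) (fun q hq η hη hf => by
      have h2 := H r m q.2 ρ (rad r) hm1 hq (by linarith) hρrad hΛρ hm8 η hη hf
      refine h2.trans (mul_le_mul_of_nonneg_right (le_max_left _ _) ?_)
      exact Ex_nonneg hQ0 fun S _ => H945.Q.Tc_nonneg h0 h1 _ _ _ _ _)
  rw [uI_unit] at key
  have hp := fz_pos (one_le_two_cos h0 h1) hP hg r.I r.fr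
  unfold EF at key
  rw [← mul_div_assoc, div_le_div_iff_of_pos_right hp] at key
  simp only [← TT_FT] at key
  exact key

/-- **Decoupling of the rows**, lower bound. -/
theorem decouple' (h0 : 0 < θ) (h1 : θ ≤ Real.pi / 3) (hP : IsLim (2 * Real.cos θ) P)
    {Λ : ℤ} {c' : ℝ} (hc' : Rsc (2 * Real.cos θ) Λ c') {ι : Type} [Fintype ι] {r : ι → Row}
    {σ : Cfg} (hσ : Frz r σ) {ρ κw : ℤ} (hκw : 0 ≤ κw) (hρΛ : Λ ≤ ρ) (hρ1 : 1 ≤ ρ)
    (hsep : ∀ i j, i ≠ j → ∀ v ∈ (r i).I, ∀ w ∈ (r j).I, 6 * ρ < nm (v - w))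
    (hdiam : ∀ i, ∀ w ∈ (r i).I, nm (w - (r i).sq 0) ≤ κw * ρ)
    (hmem : ∀ i k, Sp (r i) k → ctr (r i) k ∈ (r i).I)
    (hk0 : ∀ i, ¬ Plain (r i) → (r i).k0 ≤ (r i).L) :
    ∏ i, ∫ ω, fz (r i).I (r i).fr ω * TT θ (r i).I (r i) ρ ω ∂P ≤
      Cw Λ κw c' (Fintype.card ι) * ∫ ω, fz (uI r) σ ω * FT θ r (fun _ => ρ) ω ∂P := by
  classical
  have key := (walls_lim hP (one_le_two_cos h0 h1) hc' (κ := κw) (s := ρ) hκw hρΛ
    (univ : Finset ι) (W := fun i => (r i).I) (x := fun i => (r i).sq 0)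
    (fun i _ w hw' => hdiam i w hw') (fun i _ j _ hij v hv w hw' => hsep i j hij v hv w hw')
    (F := fun i ω => fz (r i).I (r i).fr ω * TT θ (r i).I (r i) ρ ω)
    (fun i _ ω => mul_nonneg (fz_nonneg _ _ _) (TT_nonneg h0 h1 _ _ _ _)) (fun i _ => by
      intro ω ω' hw'
      have hsub : (r i).I ⊆ nbh (r i).I ρ := subset_nbh (by omega)
      have e1 : fz (r i).I (r i).fr ω = fz (r i).I (r i).fr ω' :=
        fz_loc _ _ _ _ fun v hv => hw' v (hsub hv)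
      have e2 : ∀ k, Tc θ (r i).I (r i) k ρ ω = Tc θ (r i).I (r i) k ρ ω' := fun k => by
        by_cases hk : Sp (r i) k
        · refine Tc_loc _ _ _ _ _ _ fun v hv => hw' v (mem_nbh.2 ⟨_, hmem i k hk, nm_of_Bq hv⟩)
        · rw [Tc_plain hk, Tc_plain hk]
      show fz (r i).I (r i).fr ω * TT θ (r i).I (r i) ρ ω =
        fz (r i).I (r i).fr ω' * TT θ (r i).I (r i) ρ ω'
      rw [e1, TT_eq, TT_eq]
      congr 1
      exact prod_congr rfl fun k _ => e2 k)).1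
  rw [Finset.card_univ] at key
  refine key.trans (le_of_eq ?_)
  congr 1
  refine integral_congr_ae (Eventually.of_forall fun ω => ?_)
  show ∏ i, (fz (r i).I (r i).fr ω * TT θ (r i).I (r i) ρ ω) =
    fz (uI r) σ ω * FT θ r (fun _ => ρ) ω
  rw [prod_mul_distrib, fz_prod hσ ω]
  congr 1
  unfold FT
  rw [Fintype.prod_prod_type]
  refine prod_congr rfl fun i _ => ?_
  rw [TT_eq]
  refine prod_congr rfl fun k _ => ?_
  by_cases hk : Sp (r i) k
  · symm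
    refine Tc_row (fun v hv => mem_uI.2 ⟨_, hv⟩) (fun v hv h => ?_) (fun e he h => ?_) (hk0 i)
    · obtain ⟨j, hj⟩ := mem_uI.1 h
      by_cases hij : i = j
      · rw [hij]; exact hj
      · exfalso
        have a1 := hsep i j hij _ (hmem i k hk) v hj
        have a2 : nm (v - ctr (r i) k) ≤ ρ := nm_of_Bq hv
        rw [nm_symm] at a2
        omega
    · obtain ⟨j, hj⟩ := mem_uI.1 h
      by_cases hij : i = j
      · rw [hij]; exact hj
      · exfalso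
        have a1 := hsep i j hij _ he _ hj
        rw [nm_hd_tl] at a1
        omega
  · rw [Tc_plain hk, Tc_plain hk]

end Vale.Agent.P167.H506.Q
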