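import Vale.Agent.P167.H506.Q.Arm

/-!
# P167, general `q`, block Q-START: comparison of two outside configurations, ratio form

`Sep Q A V ξ ε`: for all weights `F ≥ 0` of the squares of `V` the outside configuration `ξ` is not
joined to `V`, up to the relative error `ε`. Then the expectations of all `F ≥ 0` which depend on `V`
are comparable for all smaller outside configurations, up to the factor `1 - ε`.
-/

namespace Vale.Agent.P167.H506.Q

open Finset Vale.Agent.P167.FK Vale.Agent.P167.FKA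
open Vale.Agent.P145.FB (PStep PConn)
open Vale.Agent.P167.H259 (f_markov f_fkg f_comp f_comp2 Ex_out cf_cf PC_mono four lattice_w
  cf_mono2 cf_mono)
open Vale.Agent.P167.H519 (Jn Sx cf_in ind_le_of_imp gen_comp loc_mono pc_of_cor pa_cor pa_even
  conn_symm)
open Vale.Agent.P167.H562.GL (Ex_split)
open Relation

variable {Q : ℝ} {A V : Finset (ℤ × ℤ)} {ξ ξ' : Cfg} {F : Cfg → ℝ} {ε : ℝ}

/-- The outside is not joined to `V`, for all weights of the squares of `V`. -/
def Sep (Q : ℝ) (A V : Finset (ℤ × ℤ)) (ξ : Cfg) (ε : ℝ) : Prop :=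
  ∀ F : Cfg → ℝ, (∀ ω, 0 ≤ F ω) → Loc V F →
    Ex Q A ξ (fun ω => F ω * {ω | Jn (Sx A ξ) V ω}.indicator 1 ω) ≤ ε * Ex Q A ξ F

theorem Sep.split (hS : Sep Q A V ξ ε) (hF0 : ∀ ω, 0 ≤ F ω) (hF : Loc V F) :
    (1 - ε) * Ex Q A ξ F ≤
      Ex Q A ξ (fun ω => F ω * (1 - {ω | Jn (Sx A ξ) V ω}.indicator 1 ω)) := by
  have h1 := hS F hF0 hF
  have h2 : Ex Q A ξ (fun ω => F ω * (1 - {ω | Jn (Sx A ξ) V ω}.indicator 1 ω)) =
      Ex Q A ξ F - Ex Q A ξ (fun ω => F ω * {ω | Jn (Sx A ξ) V ω}.indicator 1 ω) := by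
    rw [← Ex_sub]
    refine Ex_congr fun S _ => ?_
    ring
  rw [h2]
  linarith

/-- From the larger to the smaller outside configuration. -/
theorem cmp_up (hQ : 1 ≤ Q) (hV : V ⊆ A) (hξ : Good ξ) (hξ' : Good ξ')
    (hle : ∀ v, v ∉ A → ξ v = true → ξ' v = true) (hS : Sep Q A V ξ' ε) (hF0 : ∀ ω, 0 ≤ F ω)
    (hF : Loc V F) : (1 - ε) * Ex Q A ξ' F ≤ Ex Q A ξ F :=
  (hS.split hF0 hF).trans (gen_comp hQ hF0 hF A.card A ξ ξ' rfl hV hξ hξ' hle)

/-- All squares of `V` are closed. -/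
noncomputable def cl (V : Finset (ℤ × ℤ)) : Cfg → ℝ := {ω : Cfg | ∀ v ∈ V, ω v = false}.indicator 1

theorem cl_nonneg (V : Finset (ℤ × ℤ)) (ω : Cfg) : 0 ≤ cl V ω := ind_nonneg _ _

theorem cl_loc (V : Finset (ℤ × ℤ)) : Loc V (cl V) := by
  intro ω ω' h
  unfold cl
  have h1 : ω ∈ {ω : Cfg | ∀ v ∈ V, ω v = false} ↔ ω' ∈ {ω : Cfg | ∀ v ∈ V, ω v = false} := by
    constructor
    · intro h' v hv
      rw [← h v hv]
      exact h' v hv
    · intro h' v hv
      rw [h v hv]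
      exact h' v hv
  by_cases h2 : ω ∈ {ω : Cfg | ∀ v ∈ V, ω v = false}
  · rw [Set.indicator_of_mem h2, Set.indicator_of_mem (h1.1 h2)]
    rfl
  · rw [Set.indicator_of_notMem h2, Set.indicator_of_notMem fun h3 => h2 (h1.2 h3)]

theorem cl_dec (V : Finset (ℤ × ℤ)) : IncF fun ω => - cl V ω := by
  refine DecS.incF (A := {ω : Cfg | ∀ v ∈ V, ω v = false}) fun ω ω' h h' v hv => ?_
  cases h1 : ω v with
  | false => rfl
  | true =>
    have := h v h1
    rw [h' v hv] at this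
    simp at this

/-- **The ratio inequality**: the relative weight of a configuration of `V` with respect to the closed
one increases with the outside configuration. -/
theorem ratio_dn (hQ : 1 ≤ Q) (hξ : Good ξ) (hξ' : Good ξ')
    (hle : ∀ v, ξ v = true → ξ' v = true) (hF0 : ∀ ω, 0 ≤ F ω) (hV : V ⊆ A)
    (hF : Loc V F) :
    Ex Q A ξ F * Ex Q A ξ' (cl V) ≤ Ex Q A ξ (cl V) * Ex Q A ξ' F := by
  classical
  have hQ0 : 0 < Q := by linarith
  have hZ := FKA.Zq_pos hQ0 A ξ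
  have hZ' := FKA.Zq_pos hQ0 A ξ'
  have hp : ∀ (η : Cfg) (S : Finset (ℤ × ℤ)), 0 ≤ Q ^ LD A (cf A η S) := fun _ _ =>
    (pow_pos hQ0 _).le
  have h := four (D := A) (fun S => Q ^ LD A (cf A ξ S) * F (cf A ξ S))
    (fun S => Q ^ LD A (cf A ξ' S) * cl V (cf A ξ' S))
    (fun S => Q ^ LD A (cf A ξ S) * cl V (cf A ξ S))
    (fun S => Q ^ LD A (cf A ξ' S) * F (cf A ξ' S))
    (fun S => mul_nonneg (hp _ _) (hF0 _)) (fun S => mul_nonneg (hp _ _) (cl_nonneg _ _))
    (fun S => mul_nonneg (hp _ _) (cl_nonneg _ _)) (fun S => mul_nonneg (hp _ _) (hF0 _)) ?_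
  · unfold Ex
    rw [div_mul_div_comm, div_mul_div_comm]
    exact div_le_div_of_nonneg_right h (mul_pos hZ hZ').le
  · intro s hs t ht
    by_cases hc : ∀ v ∈ V, cf A ξ' t v = false
    · have hvt : ∀ v ∈ V, v ∉ t := by
        intro v hv hvt
        have := hc v hv
        rw [cf_in (hV hv)] at this
        simp [hvt] at this
      have e1 : cl V (cf A ξ' t) = 1 := by
        unfold cl
        rw [Set.indicator_of_mem (show cf A ξ' t ∈ {ω : Cfg | ∀ v ∈ V, ω v = false} from hc)]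
        rfl
      have e2 : cl V (cf A ξ (s ∩ t)) = 1 := by
        unfold cl
        rw [Set.indicator_of_mem]
        · rfl
        · intro v hv
          rw [cf_in (hV hv)]
          simp [hvt v hv]
      have e3 : F (cf A ξ' (s ∪ t)) = F (cf A ξ s) := by
        refine hF _ _ fun v hv => ?_
        rw [cf_in (hV hv), cf_in (hV hv)]
        simp [hvt v hv]
      have hPC : ∀ S, S ⊆ A → ∀ a ∈ A, a ∉ S → PC (cf A ξ S) (pa a) (pb a) →
          PC (cf A ξ' S) (pa a) (pb a) := fun S _ a _ _ hp => PC_mono (cf_mono2 hle S) hp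
      have h1 := lattice_w f_flip f_good hQ hξ hξ' hPC hs ht
      show Q ^ LD A (cf A ξ s) * F (cf A ξ s) * (Q ^ LD A (cf A ξ' t) * cl V (cf A ξ' t)) ≤
        Q ^ LD A (cf A ξ (s ∩ t)) * cl V (cf A ξ (s ∩ t)) *
          (Q ^ LD A (cf A ξ' (s ∪ t)) * F (cf A ξ' (s ∪ t)))
      rw [e1, e2, e3]
      calc Q ^ LD A (cf A ξ s) * F (cf A ξ s) * (Q ^ LD A (cf A ξ' t) * 1) =
          (Q ^ LD A (cf A ξ s) * Q ^ LD A (cf A ξ' t)) * F (cf A ξ s) := by ring
        _ ≤ (Q ^ LD A (cf A ξ (s ∩ t)) * Q ^ LD A (cf A ξ' (s ∪ t))) * F (cf A ξ s) :=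
            mul_le_mul_of_nonneg_right h1 (hF0 _)
        _ = _ := by ring
    · have e1 : cl V (cf A ξ' t) = 0 := by
        unfold cl
        rw [Set.indicator_of_notMem]
        exact hc
      show Q ^ LD A (cf A ξ s) * F (cf A ξ s) * (Q ^ LD A (cf A ξ' t) * cl V (cf A ξ' t)) ≤ _
      rw [e1, mul_zero, mul_zero]
      exact mul_nonneg (mul_nonneg (hp _ _) (cl_nonneg _ _)) (mul_nonneg (hp _ _) (hF0 _))

/-- If the outside does not touch `A`, no site of the outside is joined to `V`. -/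
theorem not_jn (hV : V ⊆ A) (he : ∀ e ∈ A, ∀ c ∈ Sx A ξ, ¬ Cor e c) (S : Finset (ℤ × ℤ)) :
    ¬ Jn (Sx A ξ) V (cf A ξ S) := by
  rintro ⟨s, hs, u, ⟨v, hv, hvu⟩, hsu⟩
  have hue : Even (u.1 + u.2) := by
    have := rtg_parity hsu
    have h1 := hs.1
    rw [Int.even_iff] at *
    omega
  have hus := conn_symm hsu
  have key : ∀ w, ReflTransGen (PStep (op (cf A ξ S))) u w →
      (∃ v ∈ A, Cor v w) ∧ Even (w.1 + w.2) := by
    intro w hw
    induction hw with
    | refl => exact ⟨⟨v, hV hv, hvu⟩, hue⟩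
    | @tail y w _ hyw ih =>
      obtain ⟨⟨a, haA, hay⟩, h2⟩ := ih
      have hcw := cor_of_step hyw
      have hm : cf A ξ S (min y.1 w.1, min y.2 w.2) = true := hyw.2.2
      have hwe : Even (w.1 + w.2) := (FKA.even_step hyw).1 h2
      by_cases hmA : (min y.1 w.1, min y.2 w.2) ∈ A
      · exact ⟨⟨_, hmA, hcw.2⟩, hwe⟩
      · exfalso
        rw [cf_out hmA] at hm
        exact he a haA y ⟨h2, _, hmA, hm, hcw.1⟩ hay
  obtain ⟨⟨a, haA, has⟩, -⟩ := key s hus
  exact he a haA s hs has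

/-- **Exploration from the outside**: off the connection, a decreasing function of `V` is at least as
large as with the closed outside configuration. -/
theorem dec_comp (hQ : 1 ≤ Q) (hFd : IncF fun ω => - F ω) (hL : Loc V F)
    {m : ℝ} : ∀ (n : ℕ) (A : Finset (ℤ × ℤ)) (ξ : Cfg), A.card = n → V ⊆ A →
    Good ξ → m ≤ Ex Q A eta0 F →
    m * Ex Q A ξ (fun ω => 1 - {ω | Jn (Sx A ξ) V ω}.indicator 1 ω) ≤
      Ex Q A ξ (fun ω => F ω * (1 - {ω | Jn (Sx A ξ) V ω}.indicator 1 ω)) := by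
  have hQ0 : 0 < Q := by linarith
  intro n
  induction n with
  | zero =>
    intro A ξ hn hVA hξ hm
    rw [Finset.card_eq_zero] at hn
    subst hn
    have hV : V = ∅ := Finset.subset_empty.1 hVA
    subst hV
    have h1 : ∀ ω ω' : Cfg, F ω = F ω' := fun ω ω' => hL ω ω' fun v hv => absurd hv (by simp)
    rw [← Ex_mul_left]
    refine Ex_mono hQ0 fun S _ => mul_le_mul_of_nonneg_right ?_ (by
      have := ind_le_one {ω | Jn (Sx ∅ ξ) ∅ ω} (cf ∅ ξ S)
      linarith)
    refine hm.trans ?_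
    rw [← Ex_const (Q := Q) (D := ∅) (η := eta0) hQ0 (F (cf ∅ ξ S))]
    exact Ex_mono hQ0 fun T _ => (h1 _ _).le
  | succ n ih =>
    intro A ξ hn hVA hξ hm
    by_cases he : ∃ e ∈ A, ∃ c ∈ Sx A ξ, Cor e c
    · obtain ⟨e, heA, c, hc, hec⟩ := he
      by_cases heV : e ∈ V
      · -- the event of no connection is empty
        have h1 : ∀ ω : Cfg, (1 : ℝ) - {ω | Jn (Sx A ξ) V ω}.indicator 1 ω = 0 := by
          intro ω
          have h2 : ω ∈ {ω | Jn (Sx A ξ) V ω} := ⟨c, hc, c, ⟨e, heV, hec⟩, ReflTransGen.refl⟩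
          rw [Set.indicator_of_mem h2]
          simp
        simp only [h1, mul_zero]
        rw [Ex_const hQ0, mul_zero]
      · set A' := A.erase e with hA'
        have hA'A : A' ⊆ A := Finset.erase_subset _ _
        have hcard : A'.card = n := by rw [hA', Finset.card_erase_of_mem heA, hn]; rfl
        have hVA' : V ⊆ A' := fun v hv => Finset.mem_erase.2 ⟨fun h => heV (h ▸ hv), hVA hv⟩
        have heA' : e ∉ A' := by rw [hA']; exact Finset.notMem_erase _ _
        have hnot : ∀ v, v ∉ A' → v ∉ A ∨ v = e := by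
          intro v hv
          by_cases h : v = e
          · exact Or.inr h
          · exact Or.inl fun h' => hv (Finset.mem_erase.2 ⟨h, h'⟩)
        have hm' : m ≤ Ex Q A' eta0 F := by
          refine hm.trans ?_
          have h1 := sub_le hQ hA'A f_good.2.1 (fun v _ _ => rfl) hFd
          rw [Ex_neg, Ex_neg] at h1
          linarith
        have i1 := ih A' (cf A ξ {e}) hcard hVA' (f_good.1 A ξ {e} hξ) hm'
        have i0 := ih A' (cf A ξ ∅) hcard hVA' (f_good.1 A ξ ∅ hξ) hm'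
        -- the connections
        have hJ : ∀ S T : Finset (ℤ × ℤ), {ω | Jn (Sx A ξ) V ω}.indicator (1 : Cfg → ℝ)
            (cf A' (cf A ξ S) T) = {ω | Jn (Sx A' (cf A ξ S)) V ω}.indicator 1
            (cf A' (cf A ξ S) T) := by
          intro S T
          have hiff : cf A' (cf A ξ S) T ∈ {ω | Jn (Sx A ξ) V ω} ↔
              cf A' (cf A ξ S) T ∈ {ω | Jn (Sx A' (cf A ξ S)) V ω} := by
            constructor
            · rintro ⟨s, ⟨hse, v, hvA, hvω, hvs⟩, u, hu, hsu⟩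
              refine ⟨s, ⟨hse, v, fun h => hvA (hA'A h), ?_, hvs⟩, u, hu, hsu⟩
              rw [cf_out hvA]
              exact hvω
            · rintro ⟨s, ⟨hse, v, hvA', hvω, hvs⟩, u, hu, hsu⟩
              rcases hnot v hvA' with h | h
              · refine ⟨s, ⟨hse, v, h, ?_, hvs⟩, u, hu, hsu⟩
                rw [cf_out h] at hvω
                exact hvω
              · subst h
                refine ⟨c, hc, u, hu, ReflTransGen.trans ?_ hsu⟩
                refine pc_of_cor (v := v) ?_ hec hvs hc.1 hse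
                rw [cf_out heA']
                exact hvω
          by_cases h : cf A' (cf A ξ S) T ∈ {ω | Jn (Sx A ξ) V ω}
          · rw [Set.indicator_of_mem h, Set.indicator_of_mem (hiff.1 h)]
          · rw [Set.indicator_of_notMem h, Set.indicator_of_notMem fun h' => h (hiff.2 h')]
        have e1 : ∀ S : Finset (ℤ × ℤ),
            Ex Q A' (cf A ξ S) (fun ω => 1 - {ω | Jn (Sx A' (cf A ξ S)) V ω}.indicator 1 ω) =
            Ex Q A' (cf A ξ S) (fun ω => 1 - {ω | Jn (Sx A ξ) V ω}.indicator 1 ω) := fun S =>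
          Ex_congr fun T _ => by rw [hJ S T]
        have e2 : ∀ S : Finset (ℤ × ℤ),
            Ex Q A' (cf A ξ S) (fun ω => F ω *
              (1 - {ω | Jn (Sx A' (cf A ξ S)) V ω}.indicator 1 ω)) =
            Ex Q A' (cf A ξ S) (fun ω => F ω * (1 - {ω | Jn (Sx A ξ) V ω}.indicator 1 ω)) :=
          fun S => Ex_congr fun T _ => by rw [hJ S T]
        rw [e1, e2] at i1 i0
        rw [Ex_split hQ0 heA hξ (fun ω => 1 - {ω | Jn (Sx A ξ) V ω}.indicator 1 ω),
          Ex_split hQ0 heA hξ (fun ω => F ω * (1 - {ω | Jn (Sx A ξ) V ω}.indicator 1 ω)), ← hA']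
        have hp0 : 0 ≤ Pr Q A ξ {ω : Cfg | ω e = true} := Pr_nonneg hQ0 _
        have hp1 : Pr Q A ξ {ω : Cfg | ω e = true} ≤ 1 := Pr_le_one hQ0 _
        have q1 := mul_le_mul_of_nonneg_left i1 hp0
        have q0 := mul_le_mul_of_nonneg_left i0 (sub_nonneg.2 hp1)
        rw [mul_add]
        linarith
    · push Not at he
      have h0 : ∀ S, {ω | Jn (Sx A ξ) V ω}.indicator (1 : Cfg → ℝ) (cf A ξ S) = 0 := fun S =>
        Set.indicator_of_notMem (show cf A ξ S ∉ {ω | Jn (Sx A ξ) V ω} from not_jn hVA he S) _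
      have e1 : Ex Q A ξ (fun ω => 1 - {ω | Jn (Sx A ξ) V ω}.indicator 1 ω) = 1 :=
        (Ex_congr (G := fun _ => 1) fun S _ => by rw [h0, sub_zero]).trans (Ex_const hQ0 1)
      have e2 : Ex Q A ξ (fun ω => F ω * (1 - {ω | Jn (Sx A ξ) V ω}.indicator 1 ω)) =
          Ex Q A ξ F := Ex_congr fun S _ => by rw [h0, sub_zero, mul_one]
      rw [e1, e2, mul_one]
      refine hm.trans ?_
      have h1 : Ex Q A ξ (fun ω => - F ω) ≤ Ex Q A eta0 (fun ω => - F ω) := by
        refine f_comp2 Q A ξ eta0 _ hQ hξ f_good.2.1 ?_ hFd fun ω ω' h => by rw [hL ω ω' fun v hv =>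
          h v (hVA hv)]
        intro S hS a ha haS hpc
        have key : ∀ u, PC (cf A ξ S) (FK.pa a) u → PC (cf A eta0 S) (FK.pa a) u ∧
            (∃ v ∈ A, Cor v u) ∧ Even (u.1 + u.2) := by
          intro u hu
          induction hu with
          | refl => exact ⟨ReflTransGen.refl, ⟨a, ha, pa_cor a⟩, pa_even a⟩
          | @tail u w _ huw ih =>
            obtain ⟨h1, ⟨v, hvA, hvu⟩, h2⟩ := ih
            have hcw := cor_of_step huw
            have hm : cf A ξ S (min u.1 w.1, min u.2 w.2) = true := huw.2.2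
            have hwe : Even (w.1 + w.2) := (FKA.even_step huw).1 h2
            by_cases hmA : (min u.1 w.1, min u.2 w.2) ∈ A
            · refine ⟨h1.tail ⟨huw.1, huw.2.1, ?_⟩, ⟨_, hmA, hcw.2⟩, hwe⟩
              show cf A eta0 S _ = true
              rw [cf_in hmA] at hm ⊢
              exact hm
            · exfalso
              rw [cf_out hmA] at hm
              exact he v hvA u ⟨h2, _, hmA, hm, hcw.1⟩ hvu
        exact (key _ hpc).1
      rw [Ex_neg, Ex_neg] at h1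
      linarith

/-- The closed configuration has positive weight. -/
theorem cl_pos (hQ0 : 0 < Q) (hV : V ⊆ A) (ξ : Cfg) : 0 < Ex Q A ξ (cl V) := by
  unfold Ex
  refine div_pos ?_ (FKA.Zq_pos hQ0 A ξ)
  refine Finset.sum_pos' (fun S _ => mul_nonneg (pow_pos hQ0 _).le (cl_nonneg _ _))
    ⟨∅, by simp, ?_⟩
  have h1 : cl V (cf A ξ ∅) = 1 := by
    unfold cl
    rw [Set.indicator_of_mem]
    · rfl
    · intro v hv
      rw [cf_in (hV hv)]
      simp
  rw [h1, mul_one]
  exact pow_pos hQ0 _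

/-- From the smaller to the larger outside configuration. -/
theorem cmp_dn (hQ : 1 ≤ Q) (hV : V ⊆ A) (hξ : Good ξ) (hξ' : Good ξ')
    (hle : ∀ v, v ∉ A → ξ v = true → ξ' v = true) (hS : Sep Q A V ξ' ε)
    (hF0 : ∀ ω, 0 ≤ F ω) (hF : Loc V F) : (1 - ε) * Ex Q A ξ F ≤ Ex Q A ξ' F := by
  have hQ0 : 0 < Q := by linarith
  -- normalise the outside configurations
  have g0 : Good (cf A ξ ∅) := f_good.1 A ξ ∅ hξ
  have g0' : Good (cf A ξ' ∅) := f_good.1 A ξ' ∅ hξ'
  have n0 : ∀ G, Ex Q A ξ G = Ex Q A (cf A ξ ∅) G := fun G =>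
    Ex_out (fun v hv => by rw [cf_out hv]) G
  have n0' : ∀ G, Ex Q A ξ' G = Ex Q A (cf A ξ' ∅) G := fun G =>
    Ex_out (fun v hv => by rw [cf_out hv]) G
  have hle' : ∀ v, cf A ξ ∅ v = true → cf A ξ' ∅ v = true := by
    intro v hv
    by_cases h : v ∈ A
    · rw [cf_in h] at hv; simp at hv
    · rw [cf_out h] at hv ⊢
      exact hle v h hv
  have h1 := ratio_dn hQ g0 g0' hle' hF0 hV hF
  rw [← n0, ← n0, ← n0', ← n0'] at h1
  -- the closed configuration
  have hp := cl_pos hQ0 hV ξ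
  have hm : Ex Q A ξ (cl V) ≤ Ex Q A eta0 (cl V) := by
    have h2 := f_comp Q A eta0 ξ _ hQ f_good.2.1 hξ (fun v hv => by simp [eta0] at hv) (cl_dec V)
    rw [Ex_neg, Ex_neg] at h2
    linarith
  have h3 := dec_comp hQ (cl_dec V) (cl_loc V) A.card A ξ' rfl hV hξ' hm
  have h4 : 1 - ε ≤ Ex Q A ξ' (fun ω => 1 - {ω | Jn (Sx A ξ') V ω}.indicator 1 ω) := by
    have h5 := hS.split (F := fun _ => 1) (fun _ => zero_le_one) fun _ _ _ => rfl
    rw [Ex_const hQ0, mul_one] at h5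
    simpa only [one_mul] using h5
  have h5 : Ex Q A ξ' (fun ω => cl V ω * (1 - {ω | Jn (Sx A ξ') V ω}.indicator 1 ω)) ≤
      Ex Q A ξ' (cl V) := by
    refine Ex_mono hQ0 fun S _ => ?_
    have h6 := ind_nonneg {ω | Jn (Sx A ξ') V ω} (cf A ξ' S)
    have h7 := cl_nonneg V (cf A ξ' S)
    nlinarith
  have h6 : Ex Q A ξ (cl V) * (1 - ε) ≤ Ex Q A ξ' (cl V) :=
    (mul_le_mul_of_nonneg_left h4 hp.le).trans (h3.trans h5)
  have hE : 0 ≤ Ex Q A ξ F := Ex_nonneg hQ0 fun S _ => hF0 _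
  have h7 : Ex Q A ξ (cl V) * ((1 - ε) * Ex Q A ξ F) ≤ Ex Q A ξ (cl V) * Ex Q A ξ' F := by
    calc Ex Q A ξ (cl V) * ((1 - ε) * Ex Q A ξ F) =
        Ex Q A ξ F * (Ex Q A ξ (cl V) * (1 - ε)) := by ring
      _ ≤ Ex Q A ξ F * Ex Q A ξ' (cl V) := mul_le_mul_of_nonneg_left h6 hE
      _ ≤ _ := h1
  exact le_of_mul_le_mul_left h7 hp

end Vale.Agent.P167.H506.Q
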