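import Vale.Agent.P167.H704.S.Half
import Vale.Agent.P167.H469.SrswB

/-!
# P167, general `q`, block Q-NORM: arms in a half plane, extension of the radius

`HA e r0 p v R`: an arm of colour `e` from `v` to distance `R` of `p`, in the closed half plane of
direction `r0`. For all boundary conditions its probability does not decrease by more than a constant
factor when the radius is multiplied by a bounded factor.
-/

namespace Vale.Agent.P167.H506.Q

open Finset Vale.Agent.P167.FK Vale.Agent.P167.FKA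
open Vale.Agent.P145.FB (PStep PConn)
open Vale.Agent.P153.Topo (Rect mem_rect)
open Vale.Agent.P167.H632 (IncC cs pr nm_le le_nm cs_compl NoX an bl)
open Vale.Agent.P167.H166N (Hs Qs Fold exists_fold)
open Vale.Agent.P167.H469 (Ks exists_Ks)
open Vale.Agent.P167.H704 (Hc Vc cut2)
open Vale.Agent.P167.H704.Q (rs_fk prC_inter)
open Vale.Agent.P167.H704.S (NH inc_NH nh_ge glueH)

variable {Q : ℝ} {D : Finset (ℤ × ℤ)} {η : Cfg} {e : Bool} {p v : ℤ × ℤ} {m R R' R1 : ℤ}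
  {r0 : Fin 4}

/-- An arm of colour `e` in the half plane. -/
def HA (e : Bool) (r0 : Fin 4) (p v : ℤ × ℤ) (R : ℤ) : Set Cfg :=
  {ω | ∃ z : ℤ × ℤ, R ≤ nm (z - p) ∧ PConn (cs e ω) (Hs r0 p ∩ bl p R) v z}

/-- A crossing by the colour `e`. -/
def CX (e : Bool) (r0 : Fin 4) (p : ℤ × ℤ) (m R : ℤ) : Set Cfg :=
  {ω | ∃ u z : ℤ × ℤ, (u.1 + u.2) % 2 = pr e ∧ nm (u - p) ≤ 2 * m ∧ R ≤ nm (z - p) ∧
    PConn (cs e ω) (Hs r0 p) u z}

theorem inc_HA : IncC e (HA e r0 p v R) := by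
  rintro ω ω' h ⟨z, h1, h2⟩
  exact ⟨z, h1, h2.mono (fun w hw => h w hw) subset_rfl⟩

theorem inc_CX : IncC e (CX e r0 p m R) := by
  rintro ω ω' h ⟨u, z, h1, h2, h3, h4⟩
  exact ⟨u, z, h1, h2, h3, h4.mono (fun w hw => h w hw) subset_rfl⟩

theorem nm_stp {G : Set (ℤ × ℤ)} (p : ℤ × ℤ) : ∀ u v : ℤ × ℤ, PStep G u v →
    nm (v - p) ≤ nm (u - p) + 1 := by
  intro u v h
  obtain ⟨h1, h2, -⟩ := h
  rw [nm_le]
  have h3 : nm (u - p) ≤ nm (u - p) := le_rfl
  rw [nm_le] at h3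
  simp only [Prod.fst_sub, Prod.snd_sub] at h3 ⊢
  omega

/-- The first part of a path. -/
theorem cut_bl {G Rg : Set (ℤ × ℤ)} {u z : ℤ × ℤ} (h : PConn G Rg u z) (h1 : nm (u - p) ≤ R)
    (h2 : R ≤ nm (z - p)) : ∃ z', nm (z' - p) = R ∧ PConn G (Rg ∩ bl p R) u z' := by
  obtain ⟨z', -, h3, -, h4, -, -⟩ := cut2 (fun w => nm (w - p)) (nm_stp p) (le_refl R) h h1 h2
  exact ⟨z', h3, h4⟩

theorem HA_mono (hv : nm (v - p) ≤ R) (hR : R ≤ R1) : HA e r0 p v R1 ⊆ HA e r0 p v R := by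
  rintro ω ⟨z, h1, h2⟩
  obtain ⟨z', h4, h5⟩ := cut_bl h2 hv (hR.trans h1)
  have hs : Hs r0 p ∩ bl p R1 ∩ bl p R ⊆ Hs r0 p ∩ bl p R := fun w hw => ⟨hw.1.1, hw.2⟩
  exact ⟨z', h4.ge, h5.mono subset_rfl hs⟩

/-- **Gluing**: arm, no crossing by the other colour, crossing. -/
theorem ha_glue (hm : 1 ≤ m) (hR : 3 * m ≤ R) (hR1 : R ≤ R1) (hv : nm (v - p) < 3 * m)
    (hp : (v.1 + v.2) % 2 = pr e) :
    HA e r0 p v R ∩ (NH e r0 p (3 * m) R ∩ CX e r0 p m R1) ⊆ HA e r0 p v R1 := by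
  rintro ω ⟨⟨z, h1, h2⟩, h3, u, z', h4, h5, h6, h7⟩
  obtain ⟨f, g, hf⟩ := exists_fold r0 p
  obtain ⟨z1, h8, h9⟩ := cut_bl h7 (by omega) (show R ≤ nm (z' - p) by omega)
  have h10 := glueH hf (H632.pr_or e) (by omega) hR h3 hp h4 h2 h9 hv (by omega) h1 h8.ge
  have h11 : PConn (cs e ω) (Hs r0 p) v z' :=
    (h10.mono subset_rfl Set.inter_subset_left).trans h7
  obtain ⟨z2, h12, h13⟩ := cut_bl h11 (by omega) h6
  exact ⟨z2, h12.ge, h13⟩

/-- **Crossings have a positive probability.** -/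
theorem cx_ge (hQ : 1 ≤ Q) (h : RSW Q) (M : ℕ) : ∃ (c : ℝ) (s0 : ℤ), 0 < c ∧ 1 ≤ s0 ∧
    ∀ (e : Bool) (r0 : Fin 4) (p : ℤ × ℤ) (m R1 : ℤ) (D : Finset (ℤ × ℤ)) (η : Cfg), s0 ≤ m →
      2 * m ≤ R1 → R1 ≤ M * m → Good η →
      (∀ u ∈ Bq p (R1 + m), u ∉ Bq p m → u ∈ Qs r0 p → u ∈ D) →
        c ≤ Pr Q D η (CX e r0 p m R1) := by
  obtain ⟨c, s0, hc, -, hs0, H⟩ := rs_fk hQ h M
  have hQ0 : 0 < Q := by linarith
  refine ⟨c, s0, hc, hs0, fun e r0 p m R1 D η hm hR hRM hη hD => ?_⟩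
  have hM : (0 : ℤ) ≤ M := by positivity
  have hMm : R1 ≤ M * (2 * m) := by nlinarith
  have hD' : ∀ u : ℤ × ℤ, p.1 - (R1 + m) ≤ u.1 → u.1 < p.1 + (R1 + m) → p.2 - (R1 + m) ≤ u.2 →
      u.2 < p.2 + (R1 + m) → (u.1 < p.1 - m ∨ p.1 + m ≤ u.1 ∨ u.2 < p.2 - m ∨ p.2 + m ≤ u.2) →
      u ∈ Qs r0 p → u ∈ D := by
    intro u h1 h2 h3 h4 h5 h6
    refine hD u ?_ ?_ h6
    · unfold Bq
      rw [mem_product, mem_Ico, mem_Ico]
      omega
    · unfold Bq
      rw [mem_product, mem_Ico, mem_Ico]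
      omega
  have nmb : ∀ u : ℤ × ℤ, p.1 - 2 * m ≤ u.1 → u.1 ≤ p.1 + 2 * m → p.2 - 2 * m ≤ u.2 →
      u.2 ≤ p.2 + 2 * m → nm (u - p) ≤ 2 * m := by
    intro u h1 h2 h3 h4
    rw [nm_le]
    simp only [Prod.fst_sub, Prod.snd_sub]
    omega
  have nmf : ∀ u : ℤ × ℤ, (u.1 = p.1 - R1 ∨ u.1 = p.1 + R1 ∨ u.2 = p.2 - R1 ∨ u.2 = p.2 + R1) →
      R1 ≤ nm (u - p) := by
    intro u h1
    rw [le_nm]
    simp only [Prod.fst_sub, Prod.snd_sub]
    omega
  fin_cases r0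
  · -- down
    refine ((H e (p.1 - m) (p.1 + m) (p.2 - R1) (p.2 - 2 * m) D η hη (by omega) (by omega)).2
      (by omega) ?_ fun v v1 v2 v3 v4 hv => ?_).trans (Pr_mono hQ0 ?_)
    · have : p.1 + m - (p.1 - m) = 2 * m := by ring
      rw [this]
      omega
    · refine absurd (hD' v (by omega) (by omega) (by omega) (by omega) (by omega) ?_) hv
      show v.2 < p.2
      omega
    · rintro ω ⟨s, t, h1, h2, h3, h4⟩
      have h5 := h4.right_mem
      rw [mem_rect] at h5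
      refine ⟨t, s, by rw [← h4.parity]; exact h3, nmb t ?_ ?_ ?_ ?_, nmf s ?_,
        h4.symm.mono subset_rfl ?_⟩
      · omega
      · omega
      · omega
      · omega
      · omega
      · intro w hw
        rw [mem_rect] at hw
        show w.2 ≤ p.2
        omega
  · -- right
    refine ((H e (p.1 + 2 * m) (p.1 + R1) (p.2 - m) (p.2 + m) D η hη (by omega) (by omega)).1
      (by omega) ?_ fun v v1 v2 v3 v4 hv => ?_).trans (Pr_mono hQ0 ?_)
    · have : p.2 + m - (p.2 - m) = 2 * m := by ring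
      rw [this]
      omega
    · refine absurd (hD' v (by omega) (by omega) (by omega) (by omega) (by omega) ?_) hv
      show p.1 ≤ v.1
      omega
    · rintro ω ⟨s, t, h1, h2, h3, h4⟩
      have h5 := h4.left_mem
      rw [mem_rect] at h5
      refine ⟨s, t, h3, nmb s ?_ ?_ ?_ ?_, nmf t ?_, h4.mono subset_rfl ?_⟩
      · omega
      · omega
      · omega
      · omega
      · omega
      · intro w hw
        rw [mem_rect] at hw
        show p.1 ≤ w.1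
        omega
  · -- up
    refine ((H e (p.1 - m) (p.1 + m) (p.2 + 2 * m) (p.2 + R1) D η hη (by omega) (by omega)).2
      (by omega) ?_ fun v v1 v2 v3 v4 hv => ?_).trans (Pr_mono hQ0 ?_)
    · have : p.1 + m - (p.1 - m) = 2 * m := by ring
      rw [this]
      omega
    · refine absurd (hD' v (by omega) (by omega) (by omega) (by omega) (by omega) ?_) hv
      show p.2 ≤ v.2
      omega
    · rintro ω ⟨s, t, h1, h2, h3, h4⟩
      have h5 := h4.left_mem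
      rw [mem_rect] at h5
      refine ⟨s, t, h3, nmb s ?_ ?_ ?_ ?_, nmf t ?_, h4.mono subset_rfl ?_⟩
      · omega
      · omega
      · omega
      · omega
      · omega
      · intro w hw
        rw [mem_rect] at hw
        show p.2 ≤ w.2
        omega
  · -- left
    refine ((H e (p.1 - R1) (p.1 - 2 * m) (p.2 - m) (p.2 + m) D η hη (by omega) (by omega)).1
      (by omega) ?_ fun v v1 v2 v3 v4 hv => ?_).trans (Pr_mono hQ0 ?_)
    · have : p.2 + m - (p.2 - m) = 2 * m := by ring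
      rw [this]
      omega
    · refine absurd (hD' v (by omega) (by omega) (by omega) (by omega) (by omega) ?_) hv
      show v.1 < p.1
      omega
    · rintro ω ⟨s, t, h1, h2, h3, h4⟩
      have h5 := h4.right_mem
      rw [mem_rect] at h5
      refine ⟨t, s, by rw [← h4.parity]; exact h3, nmb t ?_ ?_ ?_ ?_, nmf s ?_,
        h4.symm.mono subset_rfl ?_⟩
      · omega
      · omega
      · omega
      · omega
      · omega
      · intro w hw
        rw [mem_rect] at hw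
        show w.1 ≤ p.1
        omega

/-- **Extension of the radius of a half plane arm**, for all boundary conditions. -/
theorem ha_ext (C : Ks Q) (hR : RSW Q) (M : ℕ) : ∃ (K : ℝ) (s0 : ℤ), 0 < K ∧ 1 ≤ s0 ∧
    ∀ (e : Bool) (r0 : Fin 4) (p v : ℤ × ℤ) (m R R1 : ℤ) (D : Finset (ℤ × ℤ)) (η : Cfg),
      s0 ≤ m → nm (v - p) < 3 * m → (v.1 + v.2) % 2 = pr e → C.Λ * (3 * m) ≤ R → R ≤ R1 →
      R1 ≤ M * m → Good η → (∀ u ∈ Bq p (R1 + m), u ∉ Bq p m → u ∈ Qs r0 p → u ∈ D) →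
        Pr Q D η (HA e r0 p v R) ≤ K * Pr Q D η (HA e r0 p v R1) := by
  obtain ⟨c, s0, hc, hs0, H⟩ := cx_ge C.hQ hR M
  have hQ0 : 0 < Q := by have := C.hQ; linarith
  have hc0 := C.hc0
  have hΛ := C.hΛ
  refine ⟨(C.c0 * c)⁻¹, s0, by positivity, hs0, fun e r0 p v m R R1 D η hm hv hp hR1 hRR hRM hη
    hD => ?_⟩
  have hm1 : 1 ≤ m := hs0.trans hm
  have h3m : 3 * m ≤ R := by nlinarith
  have hsub : ∀ {a b : ℤ}, a ≤ b → ∀ u ∈ Bq p a, u ∈ Bq p b := by
    intro a b hab u hu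
    unfold Bq at hu ⊢
    rw [mem_product, mem_Ico, mem_Ico] at hu ⊢
    omega
  have a1 : C.c0 ≤ Pr Q D η (NH e r0 p (3 * m) R) := nh_ge C r0 (by omega) hR1 hη
    fun u h1 h2 h3 => hD u (hsub (by omega) u h1) (fun h4 => h2 (hsub (by omega) u h4)) h3
  have a2 := H e r0 p m R1 D η hm (by omega) hRM hη hD
  have a3 := prC_inter (D := D) C.hQ hη (inc_NH e r0 p (3 * m) R) (inc_CX (e := e) (r0 := r0)
    (p := p) (m := m) (R := R1))
  have a4 := prC_inter (D := D) C.hQ hη (inc_HA (e := e) (r0 := r0) (p := p) (v := v) (R := R))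
    ((inc_NH e r0 p (3 * m) R).inter (inc_CX (e := e) (r0 := r0) (p := p) (m := m) (R := R1)))
  have a5 := Pr_mono (Q := Q) (D := D) (η := η) hQ0 (ha_glue (r0 := r0) hm1 h3m hRR hv hp)
  have a6 : C.c0 * c ≤ Pr Q D η (NH e r0 p (3 * m) R) * Pr Q D η (CX e r0 p m R1) :=
    mul_le_mul a1 a2 hc.le (hc0.le.trans a1)
  have a7 : Pr Q D η (HA e r0 p v R) * (C.c0 * c) ≤ Pr Q D η (HA e r0 p v R1) :=
    (mul_le_mul_of_nonneg_left (a6.trans a3) (Pr_nonneg hQ0 _)).trans (a4.trans a5)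
  rw [inv_mul_eq_div, le_div_iff₀ (by positivity)]
  exact a7

end Vale.Agent.P167.H506.Q
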