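import Vale.Agent.P167.H506.Q.Hz1
import Vale.Agent.P167.H135.Z.Up

/-!
# P167, general `q`, block Q-NORM: arms over a junction and half plane arms
-/

namespace Vale.Agent.P167.H506.Q

open Finset Relation Vale.Agent.P167.FK Vale.Agent.P167.FKA
open Vale.Agent.P145.FB (PStep PConn)
open Vale.Agent.P167.H632 (IncC cs pr nm_le le_nm cs_compl NoX an bl)
open Vale.Agent.P167.H166N (Hs Qs)
open Vale.Agent.P167.H825.Q (Row)
open Vale.Agent.P167.H945.Q (face faces lrs)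
open Vale.Agent.P167.H135.Z (st pc Sd bxJ Db Rc AR ov sd E1 Gd mem_bxJ mem_Db mem_ov sd_face
  ov_of_arm arm_of_ov face_sq osq sd_par)

variable {r : Row} {b e c : Bool} {ω : Cfg} {v z : ℤ × ℤ} {R s : ℤ}

/-- The direction of the half plane on the side `b` of the row. -/
def dr (r : Row) (b : Bool) : Fin 4 := if r.o then (if b then 2 else 0) else (if b then 1 else 3)

theorem mem_Hs : v ∈ Hs (dr r b) (pc r b) ↔ if r.o then
    (if b then r.x.2 + 1 ≤ v.2 else v.2 ≤ r.x.2) else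
    (if b then r.x.1 + 1 ≤ v.1 else v.1 ≤ r.x.1) := by
  unfold dr pc st
  by_cases ho : r.o = true <;> cases b <;>
    simp only [ho, if_true, if_false, Bool.false_eq_true, add_zero, Hs, Set.mem_ofPred_eq]

theorem mem_Qs : v ∈ Qs (dr r b) (pc r b) ↔ Sd r b v := by
  unfold dr pc st Sd
  by_cases ho : r.o = true <;> cases b <;>
    simp only [ho, if_true, if_false, Bool.false_eq_true, add_zero, Qs, Set.mem_ofPred_eq] <;>
    omega

theorem pc_eq (r : Row) (b : Bool) : (pc r b).1 = (if r.o then r.x.1 + r.k0 else r.x.1 +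
    if b then 1 else 0) ∧ (pc r b).2 = (if r.o then r.x.2 + (if b then 1 else 0) else
      r.x.2 + r.k0) := by
  unfold pc st
  by_cases ho : r.o = true <;> simp [ho]

/-- A path in the half box is a path in the half plane. -/
theorem pconn_of_rc (hv : v ∈ Hs (dr r b) (pc r b)) (hv' : nm (v - pc r b) ≤ R)
    (h : Rc e (Db r b R) ω v z) : PConn (cs e ω) (Hs (dr r b) (pc r b) ∩ bl (pc r b) R) v z := by
  refine ⟨⟨hv, hv'⟩, ?_⟩
  induction h with
  | refl => exact ReflTransGen.refl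
  | @tail x y _ hxy ih =>
    refine ih.tail ⟨⟨hxy.1, hxy.2.1, hxy.2.2.1⟩, ?_⟩
    obtain ⟨h1, h2, -, h3⟩ := hxy
    rw [mem_Db, mem_bxJ] at h3
    obtain ⟨p1, p2⟩ := pc_eq r b
    refine ⟨mem_Hs.2 ?_, ?_⟩
    · unfold Sd at h3
      by_cases ho : r.o = true <;> cases b <;>
        simp only [ho, if_true, if_false, Bool.false_eq_true] at h3 ⊢ <;> omega
    · show nm (y - pc r b) ≤ R
      rw [nm_le]
      simp only [Prod.fst_sub, Prod.snd_sub, p1, p2]
      unfold Sd at h3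
      by_cases ho : r.o = true <;> cases b <;>
        simp only [ho, if_true, if_false, Bool.false_eq_true] at h3 ⊢ <;> omega

/-- A path in the half plane near the junction is a path in the half box. -/
theorem rc_of_pconn (h : PConn (cs e ω) (Hs (dr r b) (pc r b) ∩ bl (pc r b) R) v z) :
    Rc e (Db r b (R + 1)) ω v z := by
  obtain ⟨h0, h⟩ := h
  induction h with
  | refl => exact ReflTransGen.refl
  | @tail x y hx hxy ih =>
    refine ih.tail ?_
    have hxm := (show PConn (cs e ω) (Hs (dr r b) (pc r b) ∩ bl (pc r b) R) v x from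
      ⟨h0, hx⟩).right_mem
    obtain ⟨⟨h1, h2, h3⟩, hym⟩ := hxy
    refine ⟨h1, h2, h3, ?_⟩
    obtain ⟨p1, p2⟩ := pc_eq r b
    obtain ⟨a1, a2⟩ := hxm
    obtain ⟨b1, b2⟩ := hym
    rw [mem_Hs] at a1 b1
    change nm (x - pc r b) ≤ R at a2
    change nm (y - pc r b) ≤ R at b2
    rw [nm_le] at a2 b2
    simp only [Prod.fst_sub, Prod.snd_sub, p1, p2] at a2 b2
    show (min x.1 y.1, min x.2 y.2) ∈ Db r b (R + 1)
    rw [mem_Db, mem_bxJ]
    unfold Sd
    by_cases ho : r.o = true <;> cases b <;>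
      simp only [ho, if_true, if_false, Bool.false_eq_true] at a1 a2 b1 b2 ⊢ <;> omega

theorem ar_sub (hv : v ∈ Hs (dr r b) (pc r b)) (hv' : nm (v - pc r b) ≤ R - 1) :
    AR r b e (Db r b R) v (R - 1) ⊆ HA e (dr r b) (pc r b) v (R - 1) := by
  rintro ω ⟨z, h1, h2⟩
  obtain ⟨z', h3, h4⟩ := cut_bl (pconn_of_rc hv (by omega) h2) hv' h1
  have hs : Hs (dr r b) (pc r b) ∩ bl (pc r b) R ∩ bl (pc r b) (R - 1) ⊆
    Hs (dr r b) (pc r b) ∩ bl (pc r b) (R - 1) := fun w hw => ⟨hw.1.1, hw.2⟩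
  exact ⟨z', h3.ge, h4.mono subset_rfl hs⟩

theorem ha_sub : HA e (dr r b) (pc r b) v R ⊆ AR r b e (Db r b (R + 1)) v R := by
  rintro ω ⟨z, h1, h2⟩
  exact ⟨z, h1, rc_of_pconn h2⟩

theorem Db_I : ∀ v ∈ Db r b R, v ∉ r.I := by
  intro v hv hI
  obtain ⟨k, -, rfl⟩ := mem_image.1 (show v ∈ (range r.L).image r.sq from hI)
  exact H135.Z.sq_not_mem _ _ _ hv

theorem pc_mem (r : Row) (b : Bool) : pc r b ∈ Hs (dr r b) (pc r b) := by
  obtain ⟨p1, p2⟩ := pc_eq r b
  rw [mem_Hs, p1, p2]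
  by_cases ho : r.o = true <;> cases b <;> simp [ho]

theorem nm_pc (r : Row) (b : Bool) : nm (pc r b - pc r b) = 0 := by
  simp [nm]

/-- **Upper bound**: no strand, so an arm. -/
theorem ov_sub (h : Gd r R) (hp : ((pc r b).1 + (pc r b).2) % 2 = pr e) :
    {ω | ov r b (!e) r.k0 R ω = ∅} ⊆ HA e (dr r b) (pc r b) (pc r b) (R - 1) := by
  intro ω hω
  have h2 := h.h2
  have h1 := arm_of_ov (t := r.k0) h (by omega) (by omega) hp hω
  exact ar_sub (pc_mem r b) (by rw [nm_pc]; omega) h1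

/-- **Lower bound**: an arm, so no strand of both colours. -/
theorem sub_ov (h : Gd r R) (hp : ((pc r b).1 + (pc r b).2) % 2 = pr e) (c : Bool) :
    HA e (dr r b) (pc r b) (pc r b) R ⊆ {ω | ov r b c r.k0 R ω = ∅} := by
  intro ω hω
  have hi := h.hi
  have hh := h.h2
  have h1 := ha_sub hω
  exact ov_of_arm (t := r.k0) h (by omega) hp Db_I h1 c

/-! ### strands over the junction -/

theorem ov_near {c : Bool} {x : Ed} (hx : x ∈ ov r b c r.k0 s ω) (hL : r.k0 ≤ r.L) :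
    ∃ i : ℕ, i < r.L ∧ x = face r b i ∧ r.k0 - s ≤ i ∧ (i : ℤ) < r.k0 + s := by
  obtain ⟨i, j, h1, h2, h3, h4, h5, h6, h7, h8, h9⟩ := (mem_ov hL).1 hx
  refine ⟨i, h1, h3, ?_⟩
  have h10 := h8 0 h7.spec.1
  rw [Function.iterate_zero, id, mem_coe, mem_bxJ] at h10
  have h11 : hdv x = osq r b i := by
    rcases face_sq r b i with ⟨g1, g2⟩ | ⟨g1, g2⟩
    · exfalso
      apply h5
      rw [h3, g1]
      exact mem_image_of_mem _ (mem_range.2 h1)
    · rw [h3, g1]
  rw [h11] at h10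
  unfold osq at h10
  by_cases ho : r.o = true <;> cases b <;>
    simp only [ho, if_true, if_false, Bool.false_eq_true] at h10 <;> omega

theorem E1_near {c c' : Bool} {x : Ed} (hω : ω ∈ E1 r b c x s) (hL : r.k0 ≤ r.L) :
    (∃ i < r.L, x = face r b i) ∧ nm (sd c' x - pc r b) ≤ s ∧
      sd c' x ∈ Hs (dr r b) (pc r b) := by
  have hx : x ∈ ov r b c r.k0 s ω := by
    rw [hω.1]
    exact mem_singleton_self _
  obtain ⟨i, h1, h2, h3, h4⟩ := ov_near hx hL
  obtain ⟨p1, p2⟩ := pc_eq r b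
  refine ⟨⟨i, h1, h2⟩, ?_, ?_⟩
  · rw [h2, nm_le]
    simp only [Prod.fst_sub, Prod.snd_sub, p1, p2]
    rcases sd_face r b i c' with ⟨g, -⟩ | ⟨g, -⟩ <;> rw [g] <;> unfold st <;>
      by_cases ho : r.o = true <;> cases b <;>
      simp only [ho, if_true, if_false, Bool.false_eq_true] <;> omega
  · rw [h2, mem_Hs]
    rcases sd_face r b i c' with ⟨g, -⟩ | ⟨g, -⟩ <;> rw [g] <;> unfold st <;>
      by_cases ho : r.o = true <;> cases b <;>
      simp only [ho, if_true, if_false, Bool.false_eq_true] <;> omega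

theorem ov_congr {c : Bool} {t : ℕ} {ω ω' : Cfg} (h : ∀ v ∈ bxJ r s, ω v = ω' v) :
    ov r b c t s ω = ov r b c t s ω' := by
  unfold ov
  rw [H871.Q.lrs_congr h, H871.Q.lrs_congr h]

theorem E1_congr {c : Bool} {x : Ed} {ω ω' : Cfg} (h : ∀ v ∈ bxJ r s, ω v = ω' v) :
    ω ∈ E1 r b c x s ↔ ω' ∈ E1 r b c x s := by
  show (_ = _ ∧ _ = _) ↔ (_ = _ ∧ _ = _)
  rw [ov_congr h, ov_congr h]

theorem bxJ_sub {m : ℤ} (hm : s + 1 ≤ m) : bxJ r s ⊆ Bq (pc r b) m := by
  intro v hv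
  rw [mem_bxJ] at hv
  obtain ⟨p1, p2⟩ := pc_eq r b
  unfold Bq
  rw [mem_product, mem_Ico, mem_Ico, p1, p2]
  by_cases ho : r.o = true <;> cases b <;>
    simp only [ho, if_true, if_false, Bool.false_eq_true] at hv ⊢ <;> omega

/-! ### the deterministic input for the strands of the colour of the junction -/

/-- Structure of the configuration without strands of the colour of the junction. -/
def B1 : Prop := ∀ (r : Row) (b e : Bool) (s R : ℤ) (ω : Cfg), Gd r R → 2 ≤ s → s < R →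
  ((pc r b).1 + (pc r b).2) % 2 = pr e → Good ω → ov r b e r.k0 R ω = ∅ →
    ω ∈ AR r b e (Db r b s) (pc r b) (s - 1) ∨
      ∃ x, ω ∈ E1 r b (!e) x s ∧ ω ∈ AR r b (!e) (Db r b R) (sd (!e) x) (R - 1)

/-- The converse. -/
def B2 : Prop := ∀ (r : Row) (b e : Bool) (s R : ℤ) (x : Ed) (ω : Cfg) (A : Finset (ℤ × ℤ)),
  Gd r R → 2 ≤ s → s ≤ R → ((pc r b).1 + (pc r b).2) % 2 = pr e → Good ω → (∀ v ∈ A, Sd r b v) →
    ω ∈ E1 r b (!e) x s → ω ∈ AR r b (!e) A (sd (!e) x) R → ov r b e r.k0 R ω = ∅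

end Vale.Agent.P167.H506.Q
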