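import Vale.Agent.P167.H506.Q.Hz2
import Vale.Agent.P167.FKA.All

/-!
# P167, general `q`, block Q-NORM: the law of the strands over a junction of zero type

For all boundary conditions the probability that there is no strand over the junction of a given
colour (or of both colours) does not decrease by more than a constant factor when the radius is
multiplied by a bounded factor.
-/

namespace Vale.Agent.P167.H506.Q

open Finset Relation Vale.Agent.P167.FK Vale.Agent.P167.FKA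
open Vale.Agent.P167.H259 (f_markov)
open Vale.Agent.P145.FB (PStep PConn)
open Vale.Agent.P167.H632 (IncC cs pr nm_le le_nm cs_compl NoX an bl)
open Vale.Agent.P167.H166N (Hs Qs)
open Vale.Agent.P167.H825.Q (Row)
open Vale.Agent.P167.H945.Q (face faces lrs)
open Vale.Agent.P167.H469 (Ks exists_Ks)
open Vale.Agent.P167.H135.Z (st pc Sd bxJ Db Rc AR ov sd E1 Gd mem_bxJ mem_Db mem_ov sd_face
  ov_of_arm arm_of_ov face_sq osq sd_par)

variable {r : Row} {b e c : Bool} {ω : Cfg} {v z : ℤ × ℤ} {R s : ℤ} {Q : ℝ}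
  {D : Finset (ℤ × ℤ)} {η : Cfg}

/-- The constants: the comparison of the radii of half plane arms for the ratio `M`. -/
structure KE (Q : ℝ) where
  hQ : 1 ≤ Q
  Λ : ℤ
  hΛ : 2 ≤ Λ
  ext : ∀ M : ℕ, ∃ (K : ℝ) (s0 : ℤ), 0 < K ∧ 1 ≤ s0 ∧
    ∀ (e : Bool) (r0 : Fin 4) (p v : ℤ × ℤ) (m R R1 : ℤ) (D : Finset (ℤ × ℤ)) (η : Cfg),
      s0 ≤ m → nm (v - p) < 3 * m → (v.1 + v.2) % 2 = pr e → Λ * (3 * m) ≤ R → R ≤ R1 →
      R1 ≤ M * m → Good η → (∀ u ∈ Bq p (R1 + m), u ∉ Bq p m → u ∈ Qs r0 p → u ∈ D) →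
        Pr Q D η (HA e r0 p v R) ≤ K * Pr Q D η (HA e r0 p v R1)

theorem exists_KE {θ : ℝ} (h0 : 0 < θ) (h1 : θ ≤ Real.pi / 3) (hQ : 1 ≤ 2 * Real.cos θ)
    (hR : RSW (2 * Real.cos θ)) : Nonempty (KE (2 * Real.cos θ)) := by
  obtain ⟨C⟩ := exists_Ks hQ hR (H469.srsw_of_rsw h0 h1 hR)
  exact ⟨⟨hQ, C.Λ, C.hΛ, ha_ext C hR⟩⟩

/-- The squares near the junction on the side `b` are in the domain. -/
def DomJ (r : Row) (b : Bool) (D : Finset (ℤ × ℤ)) (R : ℤ) : Prop :=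
  ∀ u ∈ Bq (pc r b) R, Sd r b u → u ∈ D

/-- **Strands of the colour opposite to the junction.** -/
theorem law_arm (C : KE Q) (M : ℕ) : ∃ (K : ℝ) (s0 : ℤ), 0 < K ∧ 1 ≤ s0 ∧
    ∀ (r : Row) (b e : Bool) (m R R1 : ℤ) (D : Finset (ℤ × ℤ)) (η : Cfg), s0 ≤ m →
      C.Λ * (3 * m) ≤ R - 1 → R ≤ R1 → R1 ≤ M * m → Gd r R → Gd r R1 → Good η →
      DomJ r b D (R1 + m) → ((pc r b).1 + (pc r b).2) % 2 = pr e →
        Pr Q D η {ω | ov r b (!e) r.k0 R ω = ∅} ≤
          K * Pr Q D η {ω | ∀ c, ov r b c r.k0 R1 ω = ∅} := by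
  obtain ⟨K, s0, hK, hs0, H⟩ := C.ext M
  have hQ0 : 0 < Q := by have := C.hQ; linarith
  refine ⟨K, s0, hK, hs0, fun r b e m R R1 D η hm hR hR1 hRM hg hg1 hη hD hp => ?_⟩
  refine (Pr_mono hQ0 (ov_sub hg hp)).trans ((H e (dr r b) (pc r b) (pc r b) m (R - 1) R1 D η hm
    (by rw [nm_pc]; omega) hp hR (by omega) hRM hη fun u h1 _ h3 => hD u h1 (mem_Qs.1 h3)).trans ?_)
  refine mul_le_mul_of_nonneg_left (Pr_mono hQ0 fun ω hω c => sub_ov hg1 hp c hω) hK.le

/-- The events of one strand: comparison of the radii given the inner box. -/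
theorem law_E1 (C : KE Q) (M : ℕ) : ∃ (K : ℝ) (s0 : ℤ), 0 < K ∧ 1 ≤ s0 ∧
    ∀ (r : Row) (b e : Bool) (x : Ed) (s m R R1 : ℤ) (D : Finset (ℤ × ℤ)) (η : Cfg), s0 ≤ m →
      s + 1 ≤ m → C.Λ * (3 * m) ≤ R → R ≤ R1 → R1 ≤ M * m → Gd r s → Good η →
      DomJ r b D (R1 + m) →
        Pr Q D η (E1 r b e x s ∩ HA e (dr r b) (pc r b) (sd e x) R) ≤
          K * Pr Q D η (E1 r b e x s ∩ HA e (dr r b) (pc r b) (sd e x) R1) := by
  obtain ⟨K, s0, hK, hs0, H⟩ := C.ext M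
  have hQ0 : 0 < Q := by have := C.hQ; linarith
  refine ⟨K, s0, hK, hs0, fun r b e x s m R R1 D η hm hsm hR hR1 hRM hg hη hD => ?_⟩
  have hm1 : 1 ≤ m := hs0.trans hm
  have h2 := hg.h2
  have hlo := hg.lo
  have hhi := hg.hi
  by_cases hne : ∃ ω, ω ∈ E1 r b e x s
  · obtain ⟨ω0, hω0⟩ := hne
    obtain ⟨-, hn, -⟩ := E1_near (c' := e) hω0 (by omega)
    have key : ∀ B : Set Cfg, Pr Q D η (E1 r b e x s ∩ B) = Ex Q D η (fun ω =>
        (E1 r b e x s).indicator 1 ω * Pr Q (D \ Bq (pc r b) m) ω B) := by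
      intro B
      have h3 : Ind (D \ Bq (pc r b) m) ((E1 r b e x s).indicator (1 : Cfg → ℝ)) := by
        intro ω ω' h
        have h4 := E1_congr (r := r) (b := b) (c := e) (x := x) (s := s) (ω := ω) (ω' := ω')
          fun v hv => h v fun hv' => (mem_sdiff.1 hv').2 (bxJ_sub hsm hv)
        by_cases h5 : ω ∈ E1 r b e x s
        · rw [Set.indicator_of_mem h5, Set.indicator_of_mem (h4.1 h5)]
          rfl
        · rw [Set.indicator_of_notMem h5, Set.indicator_of_notMem (fun h6 => h5 (h4.2 h6))]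
      have h4 := markov (Q := Q) (D := D) (η := η) (F := B.indicator 1) f_markov hQ0
        sdiff_subset hη h3
      show Ex Q D η ((E1 r b e x s ∩ B).indicator 1) = _
      rw [show (fun ω => (E1 r b e x s).indicator 1 ω * Pr Q (D \ Bq (pc r b) m) ω B) =
        (fun ω => (E1 r b e x s).indicator 1 ω * Ex Q (D \ Bq (pc r b) m) ω (B.indicator 1))
        from rfl, ← h4]
      exact Ex_congr fun S _ => ind_inter _ _ _
    rw [key, key, ← Ex_mul_left]
    refine Ex_mono hQ0 fun S _ => ?_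
    rw [mul_left_comm]
    refine mul_le_mul_of_nonneg_left ?_ (ind_nonneg _ _)
    refine H e (dr r b) (pc r b) (sd e x) m R R1 _ _ hm (by omega) (sd_par e x) hR hR1 hRM
      (f_good.1 _ _ _ hη) fun u h1 h2 h3 => mem_sdiff.2 ⟨hD u h1 (mem_Qs.1 h3), h2⟩
  · have he : E1 r b e x s = ∅ := by
      rw [Set.eq_empty_iff_forall_notMem]
      exact fun ω hω => hne ⟨ω, hω⟩
    rw [he, Set.empty_inter, Set.empty_inter]
    have h3 := Pr_nonneg (Q := Q) (D := D) (η := η) hQ0 ∅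
    have h4 : Pr Q D η (∅ : Set Cfg) = 0 := by
      unfold Pr
      rw [Set.indicator_empty]
      exact Ex_const hQ0 0
    rw [h4, mul_zero]

/-- **Strands of the colour of the junction.** -/
theorem law_B (hB1 : B1) (hB2 : B2) (C : KE Q) (M : ℕ) : ∃ (K : ℝ) (s0 : ℤ), 0 < K ∧ 1 ≤ s0 ∧
    ∀ (r : Row) (b e : Bool) (m s m' R R1 : ℤ) (D : Finset (ℤ × ℤ)) (η : Cfg), s0 ≤ m →
      C.Λ * (3 * m) ≤ s - 1 → s + 1 ≤ m' → C.Λ * (3 * m') ≤ R - 1 → R ≤ R1 → R1 ≤ M * m →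
      Gd r s → Gd r R → Gd r R1 → Good η → DomJ r b D (R1 + m') →
      ((pc r b).1 + (pc r b).2) % 2 = pr e →
        Pr Q D η {ω | ov r b e r.k0 R ω = ∅} ≤ K * Pr Q D η {ω | ov r b e r.k0 R1 ω = ∅} := by
  classical
  obtain ⟨K1, s1, hK1, hs1, H1⟩ := C.ext M
  obtain ⟨K2, s2, hK2, hs2, H2⟩ := law_E1 C M
  have hQ0 : 0 < Q := by have := C.hQ; linarith
  have hΛ := C.hΛ
  refine ⟨K1 + K2, max s1 s2, by positivity, hs1.trans (le_max_left _ _),
    fun r b e m s m' R R1 D η hm hs hsm hR hR1 hRM hgs hg hg1 hη hD hp => ?_⟩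
  have g1 : s1 ≤ m := (le_max_left _ _).trans hm
  have g2 : s2 ≤ m := (le_max_right _ _).trans hm
  have hm1 : 1 ≤ m := hs1.trans g1
  have hms : m ≤ s := by nlinarith
  have hms' : s + 1 ≤ R := by nlinarith
  have hh := hg.h2
  have hlo := hg.lo
  have hhi := hg.hi
  have hDm : DomJ r b D (R1 + m) := fun u hu hs => hD u (by
    unfold Bq at hu ⊢
    rw [mem_product, mem_Ico, mem_Ico] at hu ⊢
    omega) hs
  -- the first term
  have t1 : Pr Q D η (HA e (dr r b) (pc r b) (pc r b) (s - 1)) ≤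
      K1 * Pr Q D η {ω | ov r b e r.k0 R1 ω = ∅} := by
    refine (H1 e (dr r b) (pc r b) (pc r b) m (s - 1) R1 D η g1 (by rw [nm_pc]; omega) hp hs
      (by omega) hRM hη fun u h1 _ h3 => hDm u h1 (mem_Qs.1 h3)).trans ?_
    exact mul_le_mul_of_nonneg_left (Pr_mono hQ0 (sub_ov hg1 hp e)) hK1.le
  -- the second term
  obtain ⟨X, hX⟩ : ∃ X : Finset Ed, X = (range r.L).image fun i => face r b i := ⟨_, rfl⟩
  have t2 : ∀ x ∈ X, Pr Q D η (E1 r b (!e) x s ∩ HA (!e) (dr r b) (pc r b) (sd (!e) x) (R - 1)) ≤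
      K2 * Pr Q D η (E1 r b (!e) x s ∩ HA (!e) (dr r b) (pc r b) (sd (!e) x) R1) := fun x _ =>
    H2 r b (!e) x s m' (R - 1) R1 D η (by omega) hsm hR (by omega) (by
      have : (0 : ℤ) ≤ M := by positivity
      nlinarith) hgs hη hD
  have t3 : ∑ x ∈ X, Pr Q D η (E1 r b (!e) x s ∩ HA (!e) (dr r b) (pc r b) (sd (!e) x) R1) ≤
      Pr Q D η {ω | ov r b e r.k0 R1 ω = ∅} := by
    unfold Pr
    rw [← Ex_sum]
    refine Ex_mono hQ0 fun S hS => ?_
    have hgd := f_good.1 D η S hη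
    generalize cf D η S = ω at hgd ⊢
    by_cases hx : ∃ x ∈ X, ω ∈ E1 r b (!e) x s ∩
        HA (!e) (dr r b) (pc r b) (sd (!e) x) R1
    · obtain ⟨x, hx1, hx2⟩ := hx
      have hov : ω ∈ {ω | ov r b e r.k0 R1 ω = ∅} :=
        hB2 r b e s R1 x ω _ hg1 hgs.h2 (by omega) hp hgd
          (fun v hv => (mem_Db.1 hv).2) hx2.1 (ha_sub hx2.2)
      rw [Set.indicator_of_mem hov, sum_eq_single x]
      · exact ind_le_one _ _
      · intro y _ hyx
        rw [Set.indicator_of_notMem]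
        rintro ⟨hy, -⟩
        have a1 := hy.1
        rw [hx2.1.1, singleton_inj] at a1
        exact hyx a1.symm
      · exact fun h => absurd hx1 h
    · rw [sum_eq_zero fun x hx' => Set.indicator_of_notMem (fun h => hx ⟨x, hx', h⟩) _]
      exact ind_nonneg _ _
  have t4 : Pr Q D η {ω | ov r b e r.k0 R ω = ∅} ≤
      Pr Q D η (HA e (dr r b) (pc r b) (pc r b) (s - 1)) +
        ∑ x ∈ X, Pr Q D η (E1 r b (!e) x s ∩
          HA (!e) (dr r b) (pc r b) (sd (!e) x) (R - 1)) := by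
    unfold Pr
    rw [← Ex_sum, ← Ex_add]
    refine Ex_mono hQ0 fun S hS => ?_
    have hgd := f_good.1 D η S hη
    generalize cf D η S = ω at hgd ⊢
    have hs0 : 0 ≤ ∑ x ∈ X, (E1 r b (!e) x s ∩
        HA (!e) (dr r b) (pc r b) (sd (!e) x) (R - 1)).indicator (1 : Cfg → ℝ) ω :=
      sum_nonneg fun x _ => ind_nonneg _ _
    by_cases h0 : ω ∈ {ω | ov r b e r.k0 R ω = ∅}
    · rw [Set.indicator_of_mem h0]
      rcases hB1 r b e s R ω hg hgs.h2 (by omega) hp hgd h0 with h | ⟨x, h, h'⟩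
      · rw [Set.indicator_of_mem (ar_sub (pc_mem r b) (by rw [nm_pc]; omega) h)]
        simp only [Pi.one_apply]
        linarith
      · obtain ⟨⟨i, hi, hxi⟩, hn, hH⟩ := E1_near (c' := !e) h (by omega)
        have hxX : x ∈ X := by
          rw [hX, hxi]
          exact mem_image_of_mem _ (mem_range.2 hi)
        have h2 : ω ∈ E1 r b (!e) x s ∩ HA (!e) (dr r b) (pc r b) (sd (!e) x) (R - 1) :=
          ⟨h, ar_sub hH (by omega) h'⟩
        have h3 := single_le_sum (f := fun x => (E1 r b (!e) x s ∩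
          HA (!e) (dr r b) (pc r b) (sd (!e) x) (R - 1)).indicator (1 : Cfg → ℝ) ω)
          (fun x _ => ind_nonneg _ _) hxX
        simp only [Set.indicator_of_mem h2, Pi.one_apply] at h3
        have h4 := ind_nonneg (HA e (dr r b) (pc r b) (pc r b) (s - 1)) ω
        simp only [Pi.one_apply]
        linarith
    · rw [Set.indicator_of_notMem h0]
      have h4 := ind_nonneg (HA e (dr r b) (pc r b) (pc r b) (s - 1)) ω
      linarith
  calc _ ≤ _ := t4
    _ ≤ K1 * Pr Q D η {ω | ov r b e r.k0 R1 ω = ∅} +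
        ∑ x ∈ X, K2 * Pr Q D η (E1 r b (!e) x s ∩
          HA (!e) (dr r b) (pc r b) (sd (!e) x) R1) := add_le_add t1 (sum_le_sum t2)
    _ ≤ K1 * Pr Q D η {ω | ov r b e r.k0 R1 ω = ∅} +
        K2 * Pr Q D η {ω | ov r b e r.k0 R1 ω = ∅} := by
      rw [← mul_sum]
      exact add_le_add le_rfl (mul_le_mul_of_nonneg_left t3 hK2.le)
    _ = _ := by ring

end Vale.Agent.P167.H506.Q
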