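import Vale.Agent.P167.H506.Q.Hz3
import Vale.Agent.P167.H506.Q.Sp6

/-!
# P167, general `q`, block Q-NORM: `P1a` at the junctions of zero type
-/

namespace Vale.Agent.P167.H506.Q

open Finset Relation Vale.Agent.P167.FK Vale.Agent.P167.FKA
open Vale.Agent.P167.H632 (pr)
open Vale.Agent.P167.H825.Q (Row)
open Vale.Agent.P167.H945.Q (face faces lrs SP jn Plain Tc ctr P1a P1b tj)
open Vale.Agent.P167.H135.Z (st pc Sd bxJ Db Rc AR sd E1 Gd mem_bxJ mem_Db)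
open Vale.Agent.P167.H135.Z renaming ov → ovz

variable {θ : ℝ} {r : Row} {b e c : Bool} {ω : Cfg} {v z : ℤ × ℤ} {R s : ℤ} {Q : ℝ}
  {D : Finset (ℤ × ℤ)} {η : Cfg} {w w' : ℝ}

theorem bool_ne {c e : Bool} (h : c ≠ e) : c = !e := by
  revert h
  cases c <;> cases e <;> decide

/-- The event of a face of zero type. -/
def GZ (r : Row) (b : Bool) (o : Option Bool) (R : ℤ) : Set Cfg :=
  {ω | ∀ c, (o = none ∨ o = some c) → ovz r b c r.k0 R ω = ∅}

/-- **The law of the zero faces.** -/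
theorem law_GZ (hB1 : B1) (hB2 : B2) (C : KE Q) {Λ : ℝ} (hΛ : 1 ≤ Λ) : ∃ (K : ℝ) (ρ₀ : ℝ),
    0 < K ∧ 8 ≤ ρ₀ ∧ ∀ (r : Row) (b : Bool) (o : Option Bool) (ρ ρ' : ℤ) (D : Finset (ℤ × ℤ))
      (η : Cfg), ρ₀ ≤ ρ → ρ ≤ ρ' → (ρ' : ℝ) ≤ Λ * ρ → Gd r ρ' → Good η → DomJ r b D (2 * ρ') →
        Pr Q D η (GZ r b o ρ) ≤ K * Pr Q D η (GZ r b o ρ') := by
  obtain ⟨a, ha⟩ : ∃ a : ℤ, a = 12 * C.Λ := ⟨_, rfl⟩
  have hCΛ := C.hΛ
  have ha1 : 24 ≤ a := by omega
  obtain ⟨M, hM⟩ : ∃ M : ℕ, Λ * (8 * a ^ 2 : ℤ) ≤ M := exists_nat_ge _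
  obtain ⟨K1, s1, hK1, hs1, H1⟩ := law_arm C M
  obtain ⟨K2, s2, hK2, hs2, H2⟩ := law_B hB1 hB2 C M
  have hQ0 : 0 < Q := by have := C.hQ; linarith
  refine ⟨K1 + K2, ((8 * a ^ 2 * (max s1 s2 + 4) : ℤ) : ℝ), by positivity, ?_,
    fun r b o ρ ρ' D η h1 h2 h3 hg hη hD => ?_⟩
  · have : (8 : ℤ) ≤ 8 * a ^ 2 * (max s1 s2 + 4) := by
      have : 1 ≤ s1 := hs1
      have : s1 ≤ max s1 s2 := le_max_left _ _
      nlinarith
    exact_mod_cast this
  have h1' : 8 * a ^ 2 * (max s1 s2 + 4) ≤ ρ := by exact_mod_cast h1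
  have m1 := le_max_left s1 s2
  have m2 := le_max_right s1 s2
  have g1 := Int.mul_ediv_self_le (x := ρ) (k := a) (by omega)
  have g2 := Int.lt_mul_ediv_self_add (x := ρ) (k := a) (by omega)
  obtain ⟨m', hm'⟩ : ∃ m' : ℤ, m' = ρ / a := ⟨_, rfl⟩
  rw [← hm'] at g1 g2
  obtain ⟨s, hs⟩ : ∃ s : ℤ, s = m' / 2 := ⟨_, rfl⟩
  have g3 : 2 * s ≤ m' ∧ m' ≤ 2 * s + 1 := by omega
  have g4 := Int.mul_ediv_self_le (x := s) (k := a) (by omega)
  have g5 := Int.lt_mul_ediv_self_add (x := s) (k := a) (by omega)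
  obtain ⟨m, hm⟩ : ∃ m : ℤ, m = s / a := ⟨_, rfl⟩
  rw [← hm] at g4 g5
  have g6 : ρ < 2 * a ^ 2 * m + 2 * a ^ 2 := by nlinarith
  have g7 : max s1 s2 ≤ m := by
    by_contra hc
    push Not at hc
    nlinarith
  have hm1 : 1 ≤ m := hs1.trans (m1.trans g7)
  have g8 : ρ ≤ 8 * a ^ 2 * m := by nlinarith
  have hsm : 2 ≤ s := by nlinarith
  have g9 : ρ' ≤ M * m := by
    have e1 : (ρ' : ℝ) ≤ M * m := by
      have e2 : (ρ : ℝ) ≤ ((8 * a ^ 2 : ℤ) : ℝ) * m := by exact_mod_cast g8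
      have e3 : (0 : ℝ) ≤ m := by exact_mod_cast (by omega : (0 : ℤ) ≤ m)
      calc (ρ' : ℝ) ≤ Λ * ρ := h3
        _ ≤ Λ * (((8 * a ^ 2 : ℤ) : ℝ) * m) := mul_le_mul_of_nonneg_left e2 (by linarith)
        _ = Λ * ((8 * a ^ 2 : ℤ) : ℝ) * m := by ring
        _ ≤ M * m := mul_le_mul_of_nonneg_right hM e3
    exact_mod_cast e1
  have am : C.Λ * m * 12 ≤ s := by rw [ha] at g4; linarith
  have am' : C.Λ * m' * 12 ≤ ρ := by rw [ha] at g1; linarith
  have c1 : C.Λ * (3 * m) ≤ s - 1 := by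
    have : C.Λ * (3 * m) = 3 * (C.Λ * m) := by ring
    omega
  have hρ2 : 96 ≤ ρ := by nlinarith
  have c2 : C.Λ * (3 * m') ≤ ρ - 1 := by
    have : C.Λ * (3 * m') = 3 * (C.Λ * m') := by ring
    omega
  have hm'ρ : m' ≤ ρ := by nlinarith
  have hmρ : m ≤ s := by nlinarith
  have hsρ : s ≤ ρ := by omega
  have gd : ∀ t, 2 ≤ t → t ≤ ρ' → Gd r t := fun t t1 t2 =>
    ⟨t1, by have := hg.lo; omega, by have := hg.hi; omega⟩
  have hDm : ∀ t, t ≤ ρ' → DomJ r b D (ρ' + t) := fun t ht u hu hs => hD u (by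
    unfold Bq at hu ⊢
    rw [mem_product, mem_Ico, mem_Ico] at hu ⊢
    omega) hs
  obtain ⟨e, he⟩ : ∃ e : Bool, ((pc r b).1 + (pc r b).2) % 2 = pr e := by
    rcases Int.emod_two_eq_zero_or_one ((pc r b).1 + (pc r b).2) with h | h
    · exact ⟨true, by rw [h]; rfl⟩
    · exact ⟨false, by rw [h]; rfl⟩
  have A := H1 r b e m ρ ρ' D η (m1.trans g7) (by omega) h2 g9 (gd ρ (by omega) h2) hg hη
    (hDm m (by omega)) he
  have B := H2 r b e m s m' ρ ρ' D η (m2.trans g7) c1 (by omega) c2 h2 g9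
    (gd s hsm (by omega)) (gd ρ (by omega) h2) hg hη (hDm m' (by omega)) he
  have hP : ∀ X, 0 ≤ Pr Q D η X := fun X => Pr_nonneg hQ0 X
  by_cases ho : o = some e
  · have e1 : ∀ R, GZ r b o R = {ω | ovz r b e r.k0 R ω = ∅} := by
      intro R
      ext ω
      simp only [GZ, ho, Set.mem_ofPred_eq]
      constructor
      · exact fun h => h e (Or.inr rfl)
      · rintro h c (hc | hc)
        · simp at hc
        · rw [← Option.some_injective _ hc]
          exact h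
    rw [e1, e1]
    exact B.trans (mul_le_mul_of_nonneg_right (by linarith) (hP _))
  · have e1 : GZ r b o ρ ⊆ {ω | ovz r b (!e) r.k0 ρ ω = ∅} := by
      intro ω hω
      refine hω (!e) ?_
      rcases o with _ | c
      · exact Or.inl rfl
      · right
        rw [bool_ne (c := c) (e := e) fun h => ho (by rw [h])]
    have e2 : {ω | ∀ c, ovz r b c r.k0 ρ' ω = ∅} ⊆ GZ r b o ρ' := fun ω hω c _ => hω c
    calc _ ≤ _ := Pr_mono hQ0 e1
      _ ≤ _ := A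
      _ ≤ (K1 + K2) * Pr Q D η (GZ r b o ρ') :=
        mul_le_mul (by linarith) (Pr_mono hQ0 e2) (hP _) (by positivity)

/-! ### the factors of the faces -/

theorem jn_bx : (jn θ r b).bx R = bxJ r R := by
  unfold SP.bx bxJ jn
  by_cases ho : r.o = true <;> simp [ho]

/-- The numbers of the strands. -/
theorem TB_ov (w w' : ℝ) : TB r.I (faces r b 0 r.k0) (faces r b r.k0 r.L) w w' (jn θ r b).bx R ω =
    w ^ (ovz r b (decide (r.o = b)) r.k0 R ω).card *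
      w' ^ (ovz r b (!decide (r.o = b)) r.k0 R ω).card := by
  unfold TB ovz
  rw [jn_bx, if_pos rfl, if_neg (by simp)]

theorem alt_ov {m : ℕ} (hok : r.Ok θ 1 m) (hP : ¬ Plain r) (hR : 2 ≤ R) (hR' : R + 2 ≤ m)
    (hg : Good ω) (c : Bool) :
    |((ovz r b c r.k0 R ω).card : ℤ) - (ovz r b (!c) r.k0 R ω).card| ≤ 3 := by
  have hk := k0_row hok hP
  have a1 := jn_alt (r := r) (b := b) (ω := ω) (R := R) (k0 := r.k0)
    (bf_J (θ := θ) (r := r) (b := b)) hR (by omega) (by omega) hg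
  rw [jn_bx] at a1
  unfold ovz
  by_cases hc : c = decide (r.o = b)
  · rw [if_pos hc, if_neg (by rw [hc]; simp)]
    exact a1
  · rw [if_neg hc, if_pos (show (!c) = decide (r.o = b) by rw [bool_ne hc, Bool.not_not]),
      abs_sub_comm]
    exact a1

/-- A constant for the faces. -/
noncomputable def MF (θ : ℝ) : ℝ := max (MZ θ ^ 3) (if Real.sin (3 * θ) / Real.sin (2 * θ) = 0 then 1
  else (min 1 (Real.sin (3 * θ) / Real.sin (2 * θ)) ^ 3)⁻¹)

theorem one_le_MZ : 1 ≤ MZ θ := le_max_left _ _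

theorem one_le_MF : 1 ≤ MF θ := (one_le_pow₀ one_le_MZ).trans (le_max_left _ _)

/-- A face with weights zero and `v`. -/
theorem zface {v : ℝ} (hv' : v = 0 ∨ v = Real.sin (3 * θ) / Real.sin (2 * θ)) (h0 : 0 ≤ v) {m : ℕ}
    (hok : r.Ok θ 1 m) (hP : ¬ Plain r) (c : Bool) : ∃ o : Option Bool, ∀ R : ℤ, 2 ≤ R →
    R + 2 ≤ m → ∀ ω, Good ω →
    (0 : ℝ) ^ (ovz r b c r.k0 R ω).card * v ^ (ovz r b (!c) r.k0 R ω).card ≤
      MF θ * (GZ r b o R).indicator 1 ω ∧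
    (GZ r b o R).indicator 1 ω ≤
      MF θ * ((0 : ℝ) ^ (ovz r b c r.k0 R ω).card * v ^ (ovz r b (!c) r.k0 R ω).card) := by
  have hMF := one_le_MF (θ := θ)
  have hMZ := one_le_MZ (θ := θ)
  rcases eq_or_lt_of_le h0 with h | h
  · refine ⟨none, fun R hR hR' ω hg => ?_⟩
    rw [← h]
    by_cases hω : ω ∈ GZ r b none R
    · rw [Set.indicator_of_mem hω, hω c (Or.inl rfl), hω (!c) (Or.inl rfl), card_empty, pow_zero,
        mul_one, Pi.one_apply, mul_one]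
      exact ⟨hMF, hMF⟩
    · rw [Set.indicator_of_notMem hω]
      have hz : (0 : ℝ) ^ (ovz r b c r.k0 R ω).card * 0 ^ (ovz r b (!c) r.k0 R ω).card = 0 := by
        by_contra hne
        apply hω
        intro c' _
        have h1 : ∀ a : Finset Ed, (0 : ℝ) ^ a.card ≠ 0 → a = ∅ := fun a ha => by
          by_contra h2
          exact ha (zero_pow (fun h3 => h2 (card_eq_zero.1 h3)))
        have h2 := h1 _ (left_ne_zero_of_mul hne)
        have h3 := h1 _ (right_ne_zero_of_mul hne)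
        cases c <;> cases c' <;> simp_all
      rw [hz]
      simp
  · have hv := hv'.resolve_left h.ne'
    refine ⟨some c, fun R hR hR' ω hg => ?_⟩
    by_cases hω : ω ∈ GZ r b (some c) R
    · have h1 := hω c (Or.inr rfl)
      have h2 := alt_ov (b := b) hok hP hR hR' hg c
      rw [Set.indicator_of_mem hω, h1, card_empty, pow_zero, one_mul, Pi.one_apply, mul_one]
      rw [h1, card_empty] at h2
      have h3 : (ovz r b (!c) r.k0 R ω).card ≤ 3 := by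
        rw [abs_le] at h2
        omega
      have hvM : v ≤ MZ θ := by
        rw [hv]
        exact (le_max_right _ _).trans (le_max_right _ _)
      constructor
      · refine ((pow_le_pow_left₀ h0 hvM _).trans (pow_le_pow_right₀ hMZ h3)).trans ?_
        exact le_max_left _ _
      · have hm0 : 0 < min 1 v := lt_min one_pos h
        have h4 : (min 1 v) ^ 3 ≤ v ^ (ovz r b (!c) r.k0 R ω).card :=
          (pow_le_pow_of_le_one hm0.le (min_le_left _ _) h3).trans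
            (pow_le_pow_left₀ hm0.le (min_le_right _ _) _)
        have h5 : ((min 1 v) ^ 3)⁻¹ ≤ MF θ := by
          unfold MF
          rw [← hv, if_neg h.ne']
          exact le_max_right _ _
        calc (1 : ℝ) = ((min 1 v) ^ 3)⁻¹ * (min 1 v) ^ 3 := by
              rw [inv_mul_cancel₀ (by positivity)]
          _ ≤ MF θ * v ^ (ovz r b (!c) r.k0 R ω).card :=
              mul_le_mul h5 h4 (by positivity) (by linarith)
    · rw [Set.indicator_of_notMem hω]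
      have hz : (0 : ℝ) ^ (ovz r b c r.k0 R ω).card = 0 := by
        apply zero_pow
        intro h3
        apply hω
        rintro c' (h4 | h4)
        · simp at h4
        · rw [← Option.some_injective _ h4]
          exact card_eq_zero.1 h3
      rw [hz]
      simp

theorem faces_SZ (h0 : 0 < θ) (h1 : θ ≤ Real.pi / 3) {i : Fin 3} (hS : SZ θ r i) :
    ∃ b0, tj r b0 * r.j < 0 ∧ 0 < tj r (!b0) * r.j := by
  have hp := Real.pi_pos
  have hj : r.j ≠ 0 := by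
    intro h
    obtain ⟨-, ⟨hj, -⟩ | ⟨hj, -⟩⟩ := hS <;> rw [h, abs_zero] at hj <;> linarith
  rcases lt_or_gt_of_ne hj with h | h <;> rcases tj_cases r true with ⟨h2, h3⟩ | ⟨h2, h3⟩
  · exact ⟨true, by rw [h2]; linarith, by rw [h3]; linarith⟩
  · refine ⟨false, ?_, ?_⟩
    · rw [Bool.not_true] at h3
      rw [h3]
      linarith
    · rw [Bool.not_false, h2]
      linarith
  · refine ⟨false, ?_, ?_⟩
    · rw [Bool.not_true] at h3
      rw [h3]
      linarith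
    · rw [Bool.not_false, h2]
      linarith
  · exact ⟨true, by rw [h2]; linarith, by rw [h3]; linarith⟩

/-- **The factor of a junction of zero type is comparable with an indicator.** -/
theorem Tc_GZ (h0 : 0 < θ) (h1 : θ ≤ Real.pi / 3) {i : Fin 3} {m : ℕ} (hok : r.Ok θ 1 m)
    (hS : SZ θ r i) (hP : i = 2 → ¬ Plain r) : ∃ (b : Bool) (o : Option Bool), ∀ R : ℤ, 2 ≤ R →
    R + 2 ≤ m → ∀ ω, Good ω →
    Tc θ r.I r i R ω ≤ MF θ * MZ θ ^ 3 * (GZ r b o R).indicator 1 ω ∧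
      (GZ r b o R).indicator 1 ω ≤ MF θ * MZ θ ^ 3 * Tc θ r.I r i R ω := by
  obtain ⟨b, hb, hb'⟩ := faces_SZ h0 h1 hS
  have hP' : ¬ Plain r := hP hS.1
  have hi := hS.1
  subst hi
  have hk := k0_row hok hP'
  have hMF := one_le_MF (θ := θ)
  have hMZ := one_le_MZ (θ := θ)
  have hc1 := one_le_two_cos h0 h1
  have hM2 : 2 * Real.cos θ ≤ MZ θ := (le_max_left _ _).trans (le_max_right _ _)
  have hinv : (2 * Real.cos θ)⁻¹ ≤ MZ θ := (inv_le_one_of_one_le₀ hc1).trans hMZ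
  have hv0 : 0 ≤ Real.sin (3 * θ) / Real.sin (2 * θ) := div_nonneg
    (Real.sin_nonneg_of_nonneg_of_le_pi (by linarith) (by linarith)) (sin2_pos h0 h1).le
  -- the bounded face
  have bdd : ∀ R : ℤ, 2 ≤ R → R + 2 ≤ m → ∀ ω, Good ω →
      TB r.I (faces r (!b) 0 r.k0) (faces r (!b) r.k0 r.L) (jn θ r (!b)).w (jn θ r (!b)).w'
        (jn θ r (!b)).bx R ω ≤ MZ θ ^ 3 ∧
      1 ≤ MZ θ ^ 3 * TB r.I (faces r (!b) 0 r.k0) (faces r (!b) r.k0 r.L) (jn θ r (!b)).w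
        (jn θ r (!b)).w' (jn θ r (!b)).bx R ω := by
    intro R hR hR' ω hg
    obtain ⟨-, ⟨hj, hη⟩ | ⟨hj, hη⟩⟩ := hS
    · rcases jn_K1 (b := !b) h0 h1 hok.s hj hη with ⟨-, g1, g2⟩ | ⟨g0, -⟩
      · rw [g1, g2, TB_one, mul_one]
        exact ⟨one_le_pow₀ hMZ, one_le_pow₀ hMZ⟩
      · exact absurd hb' (not_lt.2 g0.le)
    · rcases jn_K3 (b := !b) h0 h1 hok.s hj hη with ⟨-, ⟨g1, g2⟩ | ⟨g1, g2⟩⟩ | ⟨g0, -⟩
      · rw [g1, g2]
        exact jn_bdd (by linarith) (by rw [mul_inv_cancel₀ (by linarith)]) hM2 hinv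
          (bf_J (θ := θ) (r := r) (b := !b)) hR (by omega) (by omega) hg
      · rw [g1, g2]
        exact jn_bdd (by positivity) (by rw [inv_mul_cancel₀ (by linarith)]) hinv hM2
          (bf_J (θ := θ) (r := r) (b := !b)) hR (by omega) (by omega) hg
      · exact absurd hb' (not_lt.2 g0.le)
  -- the zero face
  have zer : ∃ o : Option Bool, ∀ R : ℤ, 2 ≤ R → R + 2 ≤ m → ∀ ω, Good ω →
      TB r.I (faces r b 0 r.k0) (faces r b r.k0 r.L) (jn θ r b).w (jn θ r b).w'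
        (jn θ r b).bx R ω ≤ MF θ * (GZ r b o R).indicator 1 ω ∧
      (GZ r b o R).indicator 1 ω ≤ MF θ * TB r.I (faces r b 0 r.k0) (faces r b r.k0 r.L)
        (jn θ r b).w (jn θ r b).w' (jn θ r b).bx R ω := by
    obtain ⟨-, ⟨hj, hη⟩ | ⟨hj, hη⟩⟩ := hS
    · rcases jn_K1 (b := b) h0 h1 hok.s hj hη with ⟨g0, -⟩ | ⟨-, g1, g2⟩
      · exact absurd g0 (not_lt.2 hb.le)
      · obtain ⟨o, ho⟩ := zface (θ := θ) (b := b) (Or.inl rfl) le_rfl hok hP' (decide (r.o = b))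
        refine ⟨o, fun R hR hR' ω hg => ?_⟩
        rw [g1, g2, TB_ov]
        exact ho R hR hR' ω hg
    · rcases jn_K3 (b := b) h0 h1 hok.s hj hη with ⟨g0, -⟩ | ⟨-, ⟨g1, g2⟩ | ⟨g1, g2⟩⟩
      · exact absurd g0 (not_lt.2 hb.le)
      · obtain ⟨o, ho⟩ := zface (θ := θ) (b := b) (Or.inr rfl) hv0 hok hP' (decide (r.o = b))
        refine ⟨o, fun R hR hR' ω hg => ?_⟩
        rw [g1, g2, TB_ov]
        exact ho R hR hR' ω hg
      · obtain ⟨o, ho⟩ := zface (θ := θ) (b := b) (Or.inr rfl) hv0 hok hP' (!decide (r.o = b))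
        refine ⟨o, fun R hR hR' ω hg => ?_⟩
        have h2 := ho R hR hR' ω hg
        rw [Bool.not_not, mul_comm ((0 : ℝ) ^ _)] at h2
        rw [g1, g2, TB_ov]
        exact h2
  obtain ⟨o, ho⟩ := zer
  refine ⟨b, o, fun R hR hR' ω hg => ?_⟩
  obtain ⟨u1, u2⟩ := ho R hR hR' ω hg
  obtain ⟨v1, v2⟩ := bdd R hR hR' ω hg
  have n1 := jn_nn (r := r) (b := b) h0 h1
  have n2 := jn_nn (r := r) (b := !b) h0 h1
  have e1 : Tc θ r.I r 2 R ω =
      TB r.I (faces r b 0 r.k0) (faces r b r.k0 r.L) (jn θ r b).w (jn θ r b).w'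
        (jn θ r b).bx R ω *
      TB r.I (faces r (!b) 0 r.k0) (faces r (!b) r.k0 r.L) (jn θ r (!b)).w (jn θ r (!b)).w'
        (jn θ r (!b)).bx R ω := by
    rw [Tc_J hP']
    cases b
    · exact mul_comm _ _
    · rfl
  have p1 := TB_nn (I := r.I) (A := faces r b 0 r.k0) (A' := faces r b r.k0 r.L)
    (bx := (jn θ r b).bx) (R := R) (ω := ω) n1.1 n1.2
  have p2 := TB_nn (I := r.I) (A := faces r (!b) 0 r.k0) (A' := faces r (!b) r.k0 r.L)
    (bx := (jn θ r (!b)).bx) (R := R) (ω := ω) n2.1 n2.2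
  have p3 := ind_nonneg (GZ r b o R) ω
  rw [e1]
  constructor
  · calc _ ≤ (MF θ * (GZ r b o R).indicator 1 ω) * MZ θ ^ 3 :=
        mul_le_mul u1 v1 p2 (mul_nonneg (by linarith) p3)
      _ = _ := by ring
  · calc (GZ r b o R).indicator 1 ω = (GZ r b o R).indicator 1 ω * 1 := (mul_one _).symm
      _ ≤ _ := mul_le_mul u2 v2 zero_le_one (mul_nonneg (by linarith) p1)
      _ = _ := by ring

theorem ctr_two (r : Row) : ctr r 2 = r.sq r.k0 := rfl

/-- **`P1a` at the junctions of zero type.** -/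
theorem p1aS_Z (hB1 : B1) (hB2 : B2) (h0 : 0 < θ) (h1 : θ ≤ Real.pi / 3)
    (hR : RSW (2 * Real.cos θ)) : P1aS θ (SZ θ) := by
  intro Λ hΛ
  have hc1 := one_le_two_cos h0 h1
  obtain ⟨C⟩ := exists_KE h0 h1 hc1 hR
  obtain ⟨K, ρ₀, hK, hρ₀, H⟩ := law_GZ hB1 hB2 C hΛ
  have hMF := one_le_MF (θ := θ)
  have hMZ := one_le_MZ (θ := θ)
  refine ⟨MF θ * MZ θ ^ 3 * (K * (MF θ * MZ θ ^ 3)), ρ₀, by positivity,
    fun r m i ρ ρ' hS hok hP h3 h4 h5 h6 η h7 h8 => ?_⟩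
  obtain ⟨b, o, hbo⟩ := Tc_GZ h0 h1 hok hS hP
  have hP' : ¬ Plain r := hP hS.1
  have hi := hS.1
  subst hi
  have hk := k0_row hok hP'
  have hρ : (8 : ℝ) ≤ ρ := hρ₀.trans h3
  have hρ' : 8 ≤ ρ := by exact_mod_cast hρ
  have hQ0 : 0 < 2 * Real.cos θ := by linarith
  have hMM : 0 ≤ MF θ * MZ θ ^ 3 := by positivity
  have a1 : Ex (2 * Real.cos θ) (Bq (ctr r 2) (4 * ρ') \ r.I) η (Tc θ r.I r 2 ρ) ≤
      MF θ * MZ θ ^ 3 * Pr (2 * Real.cos θ) (Bq (ctr r 2) (4 * ρ') \ r.I) η (GZ r b o ρ) := by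
    unfold Pr
    rw [← Ex_mul_left]
    exact Ex_mono hQ0 fun S _ => (hbo ρ (by omega) (by omega) _ (f_good.1 _ _ _ h7)).1
  have a2 : Pr (2 * Real.cos θ) (Bq (ctr r 2) (4 * ρ') \ r.I) η (GZ r b o ρ') ≤
      MF θ * MZ θ ^ 3 *
        Ex (2 * Real.cos θ) (Bq (ctr r 2) (4 * ρ') \ r.I) η (Tc θ r.I r 2 ρ') := by
    unfold Pr
    rw [← Ex_mul_left]
    exact Ex_mono hQ0 fun S _ => (hbo ρ' (by omega) (by omega) _ (f_good.1 _ _ _ h7)).2
  have a3 := H r b o ρ ρ' (Bq (ctr r 2) (4 * ρ') \ r.I) η h3 h4 h5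
    ⟨by omega, by omega, by omega⟩ h7 (fun u hu hs => by
      rw [mem_sdiff]
      constructor
      · obtain ⟨p1, p2⟩ := pc_eq r b
        rw [ctr_two]
        unfold Bq at hu ⊢
        rw [mem_product, mem_Ico, mem_Ico, p1, p2] at hu
        rw [mem_product, mem_Ico, mem_Ico]
        unfold Row.sq
        by_cases ho : r.o = true <;> cases b <;>
          simp only [ho, if_true, if_false, Bool.false_eq_true] at hu ⊢ <;> omega
      · intro hI
        obtain ⟨k, -, rfl⟩ := mem_image.1 (show u ∈ (range r.L).image r.sq from hI)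
        unfold Sd Row.sq at hs
        by_cases ho : r.o = true <;> cases b <;> simp [ho] at hs)
  calc _ ≤ _ := a1
    _ ≤ MF θ * MZ θ ^ 3 * (K * (MF θ * MZ θ ^ 3 *
        Ex (2 * Real.cos θ) (Bq (ctr r 2) (4 * ρ') \ r.I) η (Tc θ r.I r 2 ρ'))) :=
      mul_le_mul_of_nonneg_left (a3.trans (mul_le_mul_of_nonneg_left a2 hK.le)) hMM
    _ = _ := by ring

end Vale.Agent.P167.H506.Q
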