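import Vale.Agent.P167.H506.Q.P3a
import Vale.Agent.P167.H398.Q.PDefs
import Vale.Agent.P167.H592.S.Tips

/-!
# P167, general `q`, block Q-START: `H398.Q.P3S`

The product of the normalisations of the rows is bounded by the expectation of the factors of the tips
and of the junctions in the frame.
-/

namespace Vale.Agent.P167.H506.Q

open Finset MeasureTheory Filter
open Vale.Agent.P167.FK Vale.Agent.P167.FKA
open Vale.Agent.P167.H519 (IsLim)
open Vale.Agent.P167.E6 (IsPolygon Encloses)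
open Vale.Agent.P167.H825 (enl Marks)
open Vale.Agent.P167.H825.Q (Row Bc)
open Vale.Agent.P167.H680.T (uI mem_uI frows)
open Vale.Agent.P167.H199 (Rsc Cw Cw_pos exists_Gap Gap)
open Vale.Agent.P167.H945.Q (Tc ctr Plain Sp TT TT_nonneg rad P1a exists_m ctr_mem rsc_of
  exists_sq sep_sq nm_of_Bq)
open Vale.Agent.P167.H398.Q (P3S Ttip Tjun)
open Vale.Agent.P167.Enl (BGap exists_BGap frows_ok ctr_own ctr_own2 ctr_ctr ctr_ctr' ctr_tip_far
  frow_far)

variable {θ β : ℝ} {P : Measure Cfg}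

/-- The radii in the frame. -/
def rS {ι : Type} (a b : ℤ) (q : ι × Fin 3) : ℤ := if q.2 = 2 then b else a

theorem FT_split {ι : Type} [Fintype ι] (r : ι → Row) (a b : ℤ) (ω : Cfg) :
    FT θ r (rS a b) ω = Ttip θ r a ω * Tjun θ r b ω := by
  unfold FT Ttip Tjun rS
  rw [Fintype.prod_prod_type, ← prod_mul_distrib]
  refine prod_congr rfl fun i _ => ?_
  rw [Fin.prod_univ_three, if_neg (show ¬ ((0 : Fin 3) = 2) by decide),
    if_neg (show ¬ ((1 : Fin 3) = 2) by decide), if_pos rfl]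

theorem frows_len {l : ℕ} {p : ZMod l → ℤ × ℤ} {Q : Marks} {bc : Bc} {n : ℕ} (hQ : Q.Ok)
    {g δ : ℝ} (hg : Gap Q l g) (hδ : 0 < δ) (hδg : 4 * δ ≤ g) (hn : 16 ≤ δ * n)
    (x : Fin l × Fin (Q.m + 1)) : (frows θ β p Q n ⌊δ * n⌋₊ bc x).L ≤ n := by
  have h := Enl.rb_of (p := p) hQ hg hδ hδg hn x.1.2 (j := x.2) (by omega)
  have h1 := h.en
  have hL : (frows θ β p Q n ⌊δ * n⌋₊ bc x).L =
      Enl.eW p n Q ⌊δ * n⌋₊ x.1 x.2 - Enl.sW p n Q ⌊δ * n⌋₊ x.1 x.2 := by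
    show (H825.Q.frow θ β p Q n ⌊δ * n⌋₊ bc x.1 x.2).L = _
    rw [H825.Q.frow_eq]
    exact H825.Q.srow_L _ _ _ _ _ _ _
  rw [hL]
  omega

/-- **`P3S`.** -/
theorem p3S (h0 : 0 < θ) (h1 : θ ≤ Real.pi / 3)
    (hβ : β = (θ - Real.pi) / 2 ∨ β = (Real.pi - 3 * θ) / 2) (hR : RSW (2 * Real.cos θ))
    (hP : IsLim (2 * Real.cos θ) P) (hgd : ∀ᵐ ω ∂P, Good ω) (ha : P1a θ) : P3S θ β P := by
  classical
  intro l _ p S₀ hp hD Q hQ bc hbc
  have hθ' : 3 * θ ≤ Real.pi := by linarith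
  obtain ⟨g1, hg1, hG⟩ := exists_Gap hQ l
  obtain ⟨g2, hg2, hB⟩ := exists_BGap hbc
  obtain ⟨g, hgdef⟩ : ∃ g, g = min g1 g2 := ⟨_, rfl⟩
  have hg : Gap Q l g := hG.mono (by rw [hgdef]; exact min_le_left _ _)
  have hbg : BGap l Q g bc := hB.mono (by rw [hgdef]; exact min_le_right _ _)
  have hg0 : 0 < g := by rw [hgdef]; exact lt_min hg1 hg2
  refine ⟨g / 100, by positivity, fun κ' hκ' hκ'g => ⟨min (g / 4) κ', by positivity,
    fun δ hδ hδ' => ?_⟩⟩
  have hδg : 4 * δ ≤ g := by linarith [min_le_left (g / 4) κ']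
  have hδκ : δ ≤ κ' := by linarith [min_le_right (g / 4) κ']
  -- constants
  obtain ⟨C1, hC1, hdown⟩ := row_down h0 h1 hR hP hgd hδ
  obtain ⟨Λ₁, hΛ₁⟩ : ∃ Λ₁ : ℝ, Λ₁ = max 4 (256 * κ' / δ) := ⟨_, rfl⟩
  obtain ⟨C2, ρ₀, hC2, H2⟩ := ha Λ₁ (by rw [hΛ₁]; exact le_trans (by norm_num) (le_max_left _ _))
  obtain ⟨Λ, c', hΛ, hc', hc'1, hRsc⟩ := rsc_of hR
  obtain ⟨κw, hκw⟩ : ∃ κw : ℤ, 64 / δ ≤ κw := ⟨⌈_⌉, Int.le_ceil _⟩
  have hκw0 : 0 ≤ κw := by
    have : (0 : ℝ) ≤ κw := le_trans (by positivity) hκw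
    exact_mod_cast this
  obtain ⟨c3, hc3⟩ : ∃ c3 : ℕ, c3 = Fintype.card (Fin l × Fin (Q.m + 1)) := ⟨_, rfl⟩
  obtain ⟨c4, hc4⟩ : ∃ c4 : ℕ, c4 = Fintype.card ((Fin l × Fin (Q.m + 1)) × Fin 3) := ⟨_, rfl⟩
  have hCw : 0 < Cw Λ κw c' c3 := Cw_pos hc' _
  have hC20 : 0 < max C2 1 := lt_of_lt_of_le one_pos (le_max_right _ _)
  refine ⟨C1 ^ c3 * (Cw Λ κw c' c3 * (max C2 1) ^ c4), by positivity, ?_⟩
  have hlim : Tendsto (fun n : ℕ => δ * (n : ℝ)) atTop atTop :=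
    tendsto_natCast_atTop_atTop.const_mul_atTop hδ
  filter_upwards [hdown, hlim.eventually_ge_atTop 1000,
    hlim.eventually_ge_atTop (64 * ((Λ : ℝ) + 1)), hlim.eventually_ge_atTop (64 * (ρ₀ + 1))]
    with n hn1 hn hnΛ hnρ
  intro σ hσ
  have hn16 : 16 ≤ δ * n := by linarith
  have hn0 : (0 : ℝ) ≤ n := Nat.cast_nonneg n
  have hgn : 4 * (δ * n) ≤ g * n := by nlinarith
  have hκn : δ * n ≤ κ' * n := mul_le_mul_of_nonneg_right hδκ hn0
  have hκgn : 100 * (κ' * n) ≤ g * n := by nlinarith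
  obtain ⟨r, hr⟩ : ∃ r, r = frows θ β p Q n ⌊δ * n⌋₊ bc := ⟨_, rfl⟩
  have hok : ∀ x, (r x).Ok θ δ n := fun x => by
    rw [hr]; exact frows_ok hp hD hQ hg hδ hδg hn16 hbg h0 hθ' hβ x
  have hlen : ∀ x, (r x).L ≤ n := fun x => by rw [hr]; exact frows_len hQ hg hδ hδg hn16 x
  have hfl : ((⌊δ * n⌋₊ : ℕ) : ℝ) ≤ δ * n := Nat.floor_le (by positivity)
  have hfl' : δ * n < (⌊δ * n⌋₊ : ℕ) + 1 := Nat.lt_floor_add_one _
  -- the radii
  obtain ⟨ρ, hρ⟩ : ∃ ρ : ℤ, ρ = ⌊δ * n / 32⌋ := ⟨_, rfl⟩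
  obtain ⟨ρt, hρt⟩ : ∃ ρt : ℤ, ρt = ⌊δ * n / 16⌋ := ⟨_, rfl⟩
  obtain ⟨ρj, hρj⟩ : ∃ ρj : ℤ, ρj = ⌊4 * κ' * n⌋ := ⟨_, rfl⟩
  have r1 : (ρ : ℝ) ≤ δ * n / 32 := by rw [hρ]; exact Int.floor_le _
  have r2 : δ * n / 32 - 1 < ρ := by rw [hρ]; exact Int.sub_one_lt_floor _
  have t1 : (ρt : ℝ) ≤ δ * n / 16 := by rw [hρt]; exact Int.floor_le _
  have t2 : δ * n / 16 - 1 < ρt := by rw [hρt]; exact Int.sub_one_lt_floor _
  have j1 : (ρj : ℝ) ≤ 4 * κ' * n := by rw [hρj]; exact Int.floor_le _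
  have j2 : 4 * κ' * n - 1 < ρj := by rw [hρj]; exact Int.sub_one_lt_floor _
  have hρpos : (1 : ℝ) ≤ ρ := by linarith
  have hρpos' : 1 ≤ ρ := by exact_mod_cast hρpos
  have hρt' : ρ ≤ ρt := by
    have : (ρ : ℝ) ≤ ρt := by linarith
    exact_mod_cast this
  have hρj' : ρ ≤ ρj := by
    have : (ρ : ℝ) ≤ ρj := by nlinarith
    exact_mod_cast this
  rw [← hr] at hσ ⊢
  rw [← hρt, ← hρj]
  simp only [← FT_split]
  -- the far rows
  have hfar : ∀ x y, x ≠ y → ∀ v ∈ (r x).I, ∀ w ∈ (r y).I, (⌊δ * n⌋₊ : ℤ) - 3 ≤ nm (v - w) := by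
    intro x y hxy v hv w hw
    rw [hr] at hv hw
    exact frow_far (θ := θ) (β := β) (bc := bc) hp hQ hg hδ hδg hn16 hxy hv hw
  have hfloor : (900 : ℤ) ≤ (⌊δ * n⌋₊ : ℤ) := by
    have : (900 : ℝ) ≤ (⌊δ * n⌋₊ : ℕ) := by linarith
    exact_mod_cast this
  have h6ρ : 6 * ρ < (⌊δ * n⌋₊ : ℤ) - 3 := by
    have : ((6 * ρ : ℤ) : ℝ) < (((⌊δ * n⌋₊ : ℤ) - 3 : ℤ) : ℝ) := by push_cast; linarith
    exact_mod_cast this
  have h1n : 1 ≤ δ * n := by linarith
  have hmem : ∀ x k, Sp (r x) k → ctr (r x) k ∈ (r x).I := fun x k hk => ctr_mem (hok x) h1n hk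
  have hk0 : ∀ x, ¬ Plain (r x) → (r x).k0 ≤ (r x).L := fun x hx => by
    have h2 := (k0_ok (hok x) hx).2
    have h3 : ((r x).k0 : ℝ) ≤ (r x).L := by linarith
    exact_mod_cast h3
  -- decoupling
  have hdec := decouple' h0 h1 hP hRsc hσ hκw0 (ρ := ρ) (κw := κw) (by
      have : (Λ : ℝ) < ρ := by linarith
      exact_mod_cast this.le) hρpos'
    (fun i j hij v hv w hw => lt_of_lt_of_le h6ρ (hfar i j hij v hv w hw)) (fun i w hw => by
      obtain ⟨k, hk, rfl⟩ := exists_sq hw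
      have h3 : nm ((r i).sq k - (r i).sq 0) = k := by
        rw [sep_sq]
        simp
      rw [h3]
      have h4 : (k : ℝ) ≤ n := by exact_mod_cast hk.le.trans (hlen i)
      have h5 : (n : ℝ) ≤ κw * ρ := by
        have h6 : δ * n / 64 ≤ (ρ : ℝ) := by linarith
        calc (n : ℝ) = 64 / δ * (δ * n / 64) := by field_simp
          _ ≤ κw * (δ * n / 64) := mul_le_mul_of_nonneg_right hκw (by positivity)
          _ ≤ κw * ρ := mul_le_mul_of_nonneg_left h6 (by exact_mod_cast hκw0)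
      have h6 : ((k : ℤ) : ℝ) ≤ ((κw * ρ : ℤ) : ℝ) := by push_cast; linarith
      exact_mod_cast h6) hmem hk0
  -- the zones
  have hZ : Zn r (rS (4 * ρt) (4 * ρj)) (rS ρt ρj) := by
    refine ⟨fun q hq v hv hu => ?_, fun i e he h => ?_, hk0, fun q q' hne h2 h3 v hv hv' => ?_⟩
    · unfold rS at hv
      split_ifs at hv with h
      · have hx : ¬ Plain (r q.1) := hq h
        rw [h] at hv
        rw [hr] at hx hv hu ⊢
        exact ctr_own2 hp hD hQ hg hδ hδg hn16 hbc hbg h0 hθ' hβ q.1 hx (by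
          push_cast; linarith) hv hu
      · rw [hr] at hq hv hu ⊢
        exact ctr_own hp hD hQ hg hδ hδg hn16 hbg h0 hθ' hβ q.1 hq (by
          have : ((4 * ρt + 3 : ℤ) : ℝ) < ((⌊δ * n⌋₊ : ℤ) : ℝ) := by push_cast; linarith
          exact_mod_cast this) hv hu
    · obtain ⟨j, hj⟩ := mem_uI.1 h
      by_cases hij : i = j
      · rw [hij]; exact hj
      · exfalso
        have a1 := hfar i j hij _ he _ hj
        rw [nm_hd_tl] at a1
        omega
    · have a1 := nm_of_Bq hv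
      have a2 := nm_of_Bq hv'
      have a3 := nm_tri (ctr (r q.1) q.2) v (ctr (r q'.1) q'.2)
      rw [nm_symm (ctr (r q.1) q.2) v] at a3
      have a4 : nm (ctr (r q.1) q.2 - ctr (r q'.1) q'.2) ≤
          rS (4 * ρt) (4 * ρj) q + rS ρt ρj q' := by linarith
      have a5 : (nm (ctr (r q.1) q.2 - ctr (r q'.1) q'.2) : ℝ) ≤
          ((rS (4 * ρt) (4 * ρj) q + rS ρt ρj q' : ℤ) : ℝ) := by exact_mod_cast a4
      unfold rS at a5
      by_cases k1 : q.2 = 2 <;> by_cases k2 : q'.2 = 2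
      · rw [if_pos k1, if_pos k2, k1, k2] at a5
        have hx : ¬ Plain (r q.1) := h2 k1
        have hy : ¬ Plain (r q'.1) := h3 k2
        have hxy : q.1 ≠ q'.1 := fun h => hne (Prod.ext h (k1.trans k2.symm))
        rw [hr] at hx hy a5
        have b1 := ctr_ctr hp hD hQ hg hδ hδg hn16 hbc hbg h0 hθ' hβ hx hy hxy
        push_cast at a5
        linarith
      · rw [if_pos k1, if_neg k2, k1] at a5
        have hx : ¬ Plain (r q.1) := h2 k1
        rw [hr] at hx a5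
        have b1 := ctr_tip_far hp hD hQ hg hδ hδg hn16 hbc hbg h0 hθ' hβ hx q'.1 k2
        push_cast at a5
        linarith
      · rw [if_neg k1, if_pos k2, k2] at a5
        have hx : ¬ Plain (r q'.1) := h3 k2
        rw [hr] at hx a5
        have b1 := ctr_tip_far hp hD hQ hg hδ hδg hn16 hbc hbg h0 hθ' hβ hx q.1 k1
        rw [nm_symm] at b1
        push_cast at a5
        linarith
      · rw [if_neg k1, if_neg k2] at a5
        have hor : q.1 ≠ q'.1 ∨ q.2 ≠ q'.2 := by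
          by_contra hno
          push Not at hno
          exact hne (Prod.ext hno.1 hno.2)
        rw [hr] at h2 h3 a5
        have b1 := ctr_ctr' hp hD hQ hg hδ hδg hn16 hbg h0 hθ' hβ hor h2 h3
        have b2 := (Int.cast_le (R := ℝ)).2 b1
        push_cast at a5 b2
        linarith
  -- comparison of the radii in the frame
  have hQ0 : (0 : ℝ) < 2 * Real.cos θ := by linarith [one_le_two_cos h0 h1]
  have hρΛ : ∀ t : ℝ, t ≤ max (δ * n / 16) (4 * κ' * n) → t ≤ Λ₁ * ρ := by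
    intro t ht
    have h10 : δ * n / 64 ≤ (ρ : ℝ) := by linarith
    rcases le_max_iff.1 ht with h | h
    · calc t ≤ 4 * (δ * n / 64) := by linarith
        _ ≤ 4 * ρ := by linarith
        _ ≤ Λ₁ * ρ := mul_le_mul_of_nonneg_right (by rw [hΛ₁]; exact le_max_left _ _) (by linarith)
    · calc t ≤ 256 * κ' / δ * (δ * n / 64) := by
            refine h.trans (le_of_eq ?_)
            field_simp
            ring
        _ ≤ 256 * κ' / δ * ρ := mul_le_mul_of_nonneg_left h10 (by positivity)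
        _ ≤ Λ₁ * ρ := mul_le_mul_of_nonneg_right (by rw [hΛ₁]; exact le_max_right _ _)
            (by linarith)
  have hall := FT_all h0 h1 hP hgd hσ (s := fun _ => ρ) (s1 := rS ρt ρj) hZ
    (fun q => by unfold rS; split_ifs; exacts [hρj', hρt']) (fun _ => le_rfl)
    (fun q => by unfold rS; split_ifs <;> omega) (fun q => by unfold rS; split_ifs <;> omega)
    (C := max C2 1) (le_max_right _ _) (fun q hq η hη hf => by
      obtain ⟨m, hm1, hm2, hm3, hm4, hm5⟩ := exists_m (hok q.1) (by linarith)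
      have hnn : 0 ≤ Ex (2 * Real.cos θ)
          (Bq (ctr (r q.1) q.2) (rS (4 * ρt) (4 * ρj) q) \ (r q.1).I) η
          (Tc θ (r q.1).I (r q.1) q.2 (rS ρt ρj q)) :=
        Ex_nonneg hQ0 fun S _ => H945.Q.Tc_nonneg h0 h1 _ _ _ _ _
      refine le_trans ?_ (mul_le_mul_of_nonneg_right (le_max_left C2 1) hnn)
      by_cases k1 : q.2 = 2
      · have e1 : rS (4 * ρt) (4 * ρj) q = 4 * ρj := by unfold rS; rw [if_pos k1]
        have e2 : rS ρt ρj q = ρj := by unfold rS; rw [if_pos k1]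
        rw [e1, e2]
        refine H2 (r q.1) m q.2 ρ ρj hm1 hq (by linarith) hρj'
          (hρΛ _ (j1.trans (le_max_right _ _))) ?_ η hη hf
        -- the margin of the junction
        have hx : ¬ Plain (r q.1) := hq k1
        have hrad : rad (r q.1) = ((min (r q.1).k0 ((r q.1).L - (r q.1).k0) / 8 : ℕ) : ℤ) := by
          unfold rad
          rw [if_neg hx]
        have hx' := hx
        rw [hr] at hx'
        have b1 := ctr_tip_far hp hD hQ hg hδ hδg hn16 hbc hbg h0 hθ' hβ hx' q.1 (k := 0)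
          (by decide)
        have b2 := ctr_tip_far hp hD hQ hg hδ hδg hn16 hbc hbg h0 hθ' hβ hx' q.1 (k := 1)
          (by decide)
        rw [← hr] at b1 b2
        have hL1 : 1 ≤ (r q.1).L := by
          have := (hok q.1).len
          have h2 : (1 : ℝ) ≤ (r q.1).L := by linarith
          exact_mod_cast h2
        have hkL := (k0_ok (hok q.1) hx).2
        have hkL' : (r q.1).k0 + 1 ≤ (r q.1).L := by
          have : ((r q.1).k0 : ℝ) + 1 ≤ (r q.1).L := by linarith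
          exact_mod_cast this
        have c1 : nm (ctr (r q.1) 2 - ctr (r q.1) 0) = (r q.1).k0 := by
          show nm ((r q.1).sq (r q.1).k0 - (r q.1).sq 0) = _
          rw [sep_sq]
          simp
        have c2 : nm (ctr (r q.1) 2 - ctr (r q.1) 1) = (r q.1).L - 1 - (r q.1).k0 := by
          show nm ((r q.1).sq (r q.1).k0 - (r q.1).sq ((r q.1).L - 1)) = _
          rw [sep_sq, abs_sub_comm, abs_of_nonneg (by omega)]
          omega
        rw [c1] at b1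
        rw [c2] at b2
        push_cast at b1 b2
        have d1 : ((8 * ρj + 8 : ℤ) : ℝ) ≤ ((min (r q.1).k0 ((r q.1).L - (r q.1).k0) : ℕ) : ℝ) := by
          have e3 : (((r q.1).L - (r q.1).k0 : ℕ) : ℝ) = (r q.1).L - (r q.1).k0 := by
            rw [Nat.cast_sub (by omega)]
          push_cast [e3]
          rw [le_min_iff]
          constructor
          · linarith
          · linarith
        have d2 : 8 * ρj + 8 ≤ ((min (r q.1).k0 ((r q.1).L - (r q.1).k0) : ℕ) : ℤ) := by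
          exact_mod_cast d1
        rw [hm5] at hrad
        omega
      · have e1 : rS (4 * ρt) (4 * ρj) q = 4 * ρt := by unfold rS; rw [if_neg k1]
        have e2 : rS ρt ρj q = ρt := by unfold rS; rw [if_neg k1]
        rw [e1, e2]
        refine H2 (r q.1) m q.2 ρ ρt hm1 hq (by linarith) hρt'
          (hρΛ _ (t1.trans (le_max_left _ _))) ?_ η hη hf
        have : ((8 * ρt : ℤ) : ℝ) ≤ ((m : ℤ) : ℝ) := by push_cast; linarith
        exact_mod_cast this)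
  -- assembly
  have hpf : 0 < ∫ ω, fz (uI r) σ ω ∂P := fz_pos (one_le_two_cos h0 h1) hP hgd _ _
  have hall' : ∫ ω, fz (uI r) σ ω * FT θ r (fun _ => ρ) ω ∂P ≤
      (max C2 1) ^ c4 * ∫ ω, fz (uI r) σ ω * FT θ r (rS ρt ρj) ω ∂P := by
    have h2 := hall
    unfold EF at h2
    rw [← mul_div_assoc, div_le_div_iff_of_pos_right hpf] at h2
    rw [hc4]
    exact h2
  have hI0 : ∀ x, 0 ≤ ∫ ω, fz (r x).I (r x).fr ω * TT θ (r x).I (r x) ρ ω ∂P := fun x =>
    integral_nonneg fun ω => mul_nonneg (fz_nonneg _ _ _) (TT_nonneg h0 h1 _ _ _ _)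
  have hI1 : ∀ x, 0 ≤ ∫ ω, fz (r x).I (r x).fr ω * TT θ (r x).I (r x) (rad (r x)) ω ∂P :=
    fun x => integral_nonneg fun ω => mul_nonneg (fz_nonneg _ _ _) (TT_nonneg h0 h1 _ _ _ _)
  have hstep : ∏ x, ∫ ω, fz (r x).I (r x).fr ω * TT θ (r x).I (r x) (rad (r x)) ω ∂P ≤
      C1 ^ c3 * ∏ x, ∫ ω, fz (r x).I (r x).fr ω * TT θ (r x).I (r x) ρ ω ∂P := by
    calc _ ≤ ∏ x, C1 * ∫ ω, fz (r x).I (r x).fr ω * TT θ (r x).I (r x) ρ ω ∂P := by
          refine prod_le_prod (fun x _ => hI1 x) fun x _ => ?_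
          rw [hρ]
          exact hn1 (r x) (hok x) (hlen x)
      _ = _ := by rw [prod_mul_distrib, prod_const, Finset.card_univ, hc3]
  rw [← hc3] at hdec
  have hC10 : 0 ≤ C1 := by linarith
  calc _ ≤ C1 ^ c3 * ∏ x, ∫ ω, fz (r x).I (r x).fr ω * TT θ (r x).I (r x) ρ ω ∂P := hstep
    _ ≤ C1 ^ c3 * (Cw Λ κw c' c3 * ∫ ω, fz (uI r) σ ω * FT θ r (fun _ => ρ) ω ∂P) :=
        mul_le_mul_of_nonneg_left hdec (by positivity)
    _ ≤ C1 ^ c3 * (Cw Λ κw c' c3 * ((max C2 1) ^ c4 *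
        ∫ ω, fz (uI r) σ ω * FT θ r (rS ρt ρj) ω ∂P)) := by gcongr
    _ = _ := by ring

end Vale.Agent.P167.H506.Q
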