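import Vale.Agent.P167.H506.Q.Hz4
import Vale.Agent.P167.H135.Z.Two
import Vale.Agent.P167.H506.Q.P3

/-!
# P167, general `q`, block Q-NORM: `P1a`, `P1b`, `P3S` from `RSW`
-/

namespace Vale.Agent.P167.H506.Q

open Vale.Agent.P167.FK
open Vale.Agent.P167.H945.Q (P1a P1b)

variable {θ : ℝ}

theorem b1 : B1 := fun _ _ _ _ _ _ hg h2 hs hp _ hov =>
  H135.Z.arm_two hg ⟨h2, by have := hg.lo; omega, by have := hg.hi; omega⟩ hs hp hov

theorem b2 : B2 := fun r b e s R x ω A hg h2 hs _ _ hA h1 h3 =>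
  H135.Z.ov_two hg ⟨h2, by have := hg.lo; omega, by have := hg.hi; omega⟩
    (fun v hv hI => by
      obtain ⟨k, -, rfl⟩ := Finset.mem_image.1
        (show v ∈ (Finset.range r.L).image r.sq from hI)
      have h4 := hA _ hv
      unfold H135.Z.Sd H825.Q.Row.sq at h4
      by_cases ho : r.o = true <;> cases b <;> simp [ho] at h4) h1 h3

/-- `P1a` at the junctions of zero type. -/
theorem p1aS_z (h0 : 0 < θ) (h1 : θ ≤ Real.pi / 3) (hR : RSW (2 * Real.cos θ)) :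
    P1aS θ (SZ θ) := p1aS_Z b1 b2 h0 h1 hR

/-- **`P1a`.** -/
theorem p1a (h0 : 0 < θ) (h1 : θ ≤ Real.pi / 3) (hR : RSW (2 * Real.cos θ)) : P1a θ :=
  p1a_of h0 h1 hR (p1aS_z h0 h1 hR)

/-- **`P1b`.** -/
theorem p1b (h0 : 0 < θ) (h1 : θ ≤ Real.pi / 3) (hR : RSW (2 * Real.cos θ)) : P1b θ :=
  p1b_of h0 h1 hR (p1aS_z h0 h1 hR)

/-- **`P3S`** from `RSW`. -/
theorem p3SF {β : ℝ} {P : MeasureTheory.Measure Cfg} (h0 : 0 < θ) (h1 : θ ≤ Real.pi / 3)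
    (hβ : β = (θ - Real.pi) / 2 ∨ β = (Real.pi - 3 * θ) / 2) (hR : RSW (2 * Real.cos θ))
    (hP : H519.IsLim (2 * Real.cos θ) P) (hgd : ∀ᵐ ω ∂P, Good ω) : H398.Q.P3S θ β P :=
  p3S h0 h1 hβ hR hP hgd (p1a h0 h1 hR)

end Vale.Agent.P167.H506.Q
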