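import Mathlib

/-!
# P167, general `q`, block Q-START: the two recursions for the comparison of radii

`rec_dec` (decreasing type) and `rec_grow` (growing type).
-/

namespace Vale.Agent.P167.H506.Q

open Filter Topology

/-- **Decreasing type.** -/
theorem rec_dec {c s B : ℝ} {p : ℕ} (hc : 0 < c) (hc1 : c ≤ 1)
    (hsp : (p : ℝ) * Real.log (1 / c) < s) (b0 : ℝ) :
    ∃ U : ℝ, 1 ≤ U ∧ ∀ (J : ℕ) (a : ℕ → ℝ), (∀ j ≤ J, 0 < a j) →
      (∀ j < p, j < J → a j ≤ b0 * a (j + 1)) →
      (∀ j, p ≤ j → j < J → ∀ L : ℕ, c ^ L * (a j - B * Real.exp (-(s * L)) * a (j - p)) ≤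
        a (j + 1)) → ∀ j < J, a j ≤ U * a (j + 1) := by
  have hlog : 0 ≤ Real.log (1 / c) := Real.log_nonneg (by rw [le_div_iff₀ hc]; linarith)
  have hs : 0 < s := lt_of_le_of_lt (by positivity) hsp
  -- choice of `L`
  have t1 : Tendsto (fun L : ℕ => |B| * Real.exp (-(s * L)) * (max b0 1) ^ p) atTop (𝓝 0) := by
    have h1 : Tendsto (fun L : ℕ => Real.exp (-(s * L))) atTop (𝓝 0) := by
      refine Real.tendsto_exp_neg_atTop_nhds_zero.comp ?_
      exact (tendsto_natCast_atTop_atTop).const_mul_atTop hs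
    have h2 := (h1.const_mul |B|).mul_const ((max b0 1) ^ p)
    simpa using h2
  have t2 : Tendsto (fun L : ℕ => |B| * Real.exp (-(s * L)) * (2 * (1 / c) ^ L) ^ p) atTop (𝓝 0) := by
    have h1 : Tendsto (fun L : ℕ => Real.exp (-((s - p * Real.log (1 / c)) * L))) atTop (𝓝 0) := by
      refine Real.tendsto_exp_neg_atTop_nhds_zero.comp ?_
      exact (tendsto_natCast_atTop_atTop).const_mul_atTop (by linarith)
    have h2 := h1.const_mul (|B| * 2 ^ p)
    rw [mul_zero] at h2
    refine h2.congr fun L => ?_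
    have e1 : (1 / c : ℝ) ^ L = Real.exp (L * Real.log (1 / c)) := by
      rw [Real.exp_nat_mul, Real.exp_log (by positivity)]
    have e2 : Real.exp (-((s - p * Real.log (1 / c)) * L)) =
        Real.exp (-(s * L)) * Real.exp (p * (L * Real.log (1 / c))) := by
      rw [← Real.exp_add]
      congr 1
      ring
    rw [e1, mul_pow, ← Real.exp_nat_mul, e2]
    ring
  obtain ⟨L, h1, h2⟩ := ((t1.eventually (ge_mem_nhds (show (0 : ℝ) < 1 / 2 by norm_num))).and
    (t2.eventually (ge_mem_nhds (show (0 : ℝ) < 1 / 2 by norm_num)))).exists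
  refine ⟨max (max b0 1) (2 * (1 / c) ^ L), (le_max_right _ _).trans (le_max_left _ _),
    fun J a ha hb hr => ?_⟩
  obtain ⟨U, hU⟩ : ∃ U, U = max (max b0 1) (2 * (1 / c) ^ L) := ⟨_, rfl⟩
  rw [← hU]
  have hU1 : 1 ≤ U := by rw [hU]; exact (le_max_right _ _).trans (le_max_left _ _)
  have hUb : b0 ≤ U := by rw [hU]; exact (le_max_left _ _).trans (le_max_left _ _)
  have hU2 : 2 * (1 / c) ^ L ≤ U := by rw [hU]; exact le_max_right _ _
  have hUp : |B| * Real.exp (-(s * L)) * U ^ p ≤ 1 / 2 := by
    rw [hU]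
    rcases max_choice (max b0 1) (2 * (1 / c) ^ L) with h | h <;> rw [h] <;> assumption
  intro j
  induction j using Nat.strong_induction_on with
  | _ j ih =>
    intro hj
    by_cases hjp : j < p
    · refine (hb j hjp hj).trans (mul_le_mul_of_nonneg_right hUb (ha _ hj).le)
    · push Not at hjp
      have key : ∀ i ≤ p, a (j - i) ≤ U ^ i * a j := by
        intro i
        induction i with
        | zero => intro _; simp
        | succ i ihi =>
          intro hi
          have h3 := ihi (by omega)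
          have h4 := ih (j - (i + 1)) (by omega) (by omega)
          have e : j - (i + 1) + 1 = j - i := by omega
          rw [e] at h4
          calc a (j - (i + 1)) ≤ U * a (j - i) := h4
            _ ≤ U * (U ^ i * a j) := mul_le_mul_of_nonneg_left h3 (by linarith)
            _ = _ := by ring
      have h3 := key p le_rfl
      have haj : 0 < a j := ha j hj.le
      have h4 : B * Real.exp (-(s * L)) * a (j - p) ≤ 1 / 2 * a j := by
        have h5 : 0 < a (j - p) := ha _ (by omega)
        calc B * Real.exp (-(s * L)) * a (j - p) ≤ |B| * Real.exp (-(s * L)) * a (j - p) := by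
              refine mul_le_mul_of_nonneg_right (mul_le_mul_of_nonneg_right (le_abs_self B)
                (Real.exp_pos _).le) h5.le
          _ ≤ |B| * Real.exp (-(s * L)) * (U ^ p * a j) := by
              refine mul_le_mul_of_nonneg_left h3 (by positivity)
          _ = |B| * Real.exp (-(s * L)) * U ^ p * a j := by ring
          _ ≤ 1 / 2 * a j := mul_le_mul_of_nonneg_right hUp haj.le
      have h5 := hr j hjp hj L
      have hcL : 0 < c ^ L := pow_pos hc L
      have h6 : c ^ L * (1 / 2 * a j) ≤ a (j + 1) :=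
        (mul_le_mul_of_nonneg_left (by linarith) hcL.le).trans h5
      calc a j = 2 * (1 / c) ^ L * (c ^ L * (1 / 2 * a j)) := by
            rw [one_div, inv_pow]
            field_simp
        _ ≤ 2 * (1 / c) ^ L * a (j + 1) := mul_le_mul_of_nonneg_left h6 (by positivity)
        _ ≤ U * a (j + 1) := mul_le_mul_of_nonneg_right hU2 (ha _ hj).le

/-- **Growing type.** -/
theorem rec_grow {M C0 b0 : ℝ} {q : ℕ} (hq : 0 < q) (hC0 : 0 < C0) (hM : 0 ≤ M) (J : ℕ)
    (a W : ℕ → ℝ) (ha : ∀ j ≤ J, 0 < a j) (hb : ∀ j < q, j ≤ J → W j ≤ b0 * a j)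
    (hgr : ∀ j, q ≤ j → j ≤ J → a (j - q) ≤ C0 * a j)
    (hr : ∀ j, q ≤ j → j ≤ J → W j ≤ (1 / C0 * W (j - q) + C0 * (M * a (j - q))) / 2) :
    ∀ j ≤ J, W j ≤ max b0 (M * C0 ^ 2) * a j := by
  obtain ⟨w, hw⟩ : ∃ w, w = max b0 (M * C0 ^ 2) := ⟨_, rfl⟩
  rw [← hw]
  have h1 : b0 ≤ w := by rw [hw]; exact le_max_left _ _
  have h2 : M * C0 ^ 2 ≤ w := by rw [hw]; exact le_max_right _ _
  intro j
  induction j using Nat.strong_induction_on with
  | _ j ih =>
    intro hj
    by_cases hjq : j < q
    · exact (hb j hjq hj).trans (mul_le_mul_of_nonneg_right h1 (ha j hj).le)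
    · push Not at hjq
      have h3 := ih (j - q) (by omega) (by omega)
      have h4 := hgr j hjq hj
      have h5 := hr j hjq hj
      have h6 : 0 < a (j - q) := ha _ (by omega)
      have hw0 : 0 ≤ w := le_trans (by positivity) h2
      calc W j ≤ (1 / C0 * W (j - q) + C0 * (M * a (j - q))) / 2 := h5
        _ ≤ (1 / C0 * (w * a (j - q)) + C0 * (M * a (j - q))) / 2 := by gcongr
        _ = (w + M * C0 ^ 2) / 2 * (1 / C0 * a (j - q)) := by field_simp
        _ ≤ w * (1 / C0 * a (j - q)) := by
            refine mul_le_mul_of_nonneg_right (by linarith) (by positivity)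
        _ ≤ w * (1 / C0 * (C0 * a j)) := by gcongr
        _ = w * a j := by field_simp

end Vale.Agent.P167.H506.Q
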