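import Vale.Agent.P167.H506.Q.EF2
import Vale.Agent.P167.H506.Q.Rec

/-!
# P167, general `q`, block Q-START: comparison of the radii of the tip factors

`T j`: the factor of the ball of the radius number `j`; `N j`: a number of large segments which
does not read the ball of the radius number `j - p`. `radii_dec`: decreasing type
(`c ^ N j * T j ≤ T (j + 1)`, `T j ≤ C0 * T i`). `radii_grow`: growing type.
-/

namespace Vale.Agent.P167.H506.Q

open Finset MeasureTheory Vale.Agent.P167.FK Vale.Agent.P167.FKA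
open Vale.Agent.P167.H519 (IsLim)
open Vale.Agent.P167.QX (QL dlr ql_Ex)

variable {Q : ℝ} {K : Finset (ℤ × ℤ)} {κ : Cfg} {P : Measure Cfg}

/-- Functions of finitely many squares. -/
def LF (F : Cfg → ℝ) : Prop := ∃ B : Finset (ℤ × ℤ), Loc B F

theorem LF.int [IsFiniteMeasure P] (hg : ∀ᵐ ω ∂P, Good ω) {F : Cfg → ℝ} (h : LF F) :
    Integrable (fun ω => fz K κ ω * F ω) P := by
  obtain ⟨B, hB⟩ := h
  obtain ⟨M, hM⟩ := loc_bdd hB
  exact fz_int hg (QL.of_loc hB) fun ω _ => hM ω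

theorem LF.comp {α : Type*} {N : Cfg → α} {B : Finset (ℤ × ℤ)}
    (h : ∀ ω ω' : Cfg, (∀ v ∈ B, ω v = ω' v) → N ω = N ω') (g : α → ℝ) : LF fun ω => g (N ω) :=
  ⟨B, fun ω ω' hh => by
    show g (N ω) = g (N ω')
    rw [h ω ω' hh]⟩

theorem LF.op {F G : Cfg → ℝ} (hF : LF F) (hG : LF G) (g : ℝ → ℝ → ℝ) :
    LF fun ω => g (F ω) (G ω) := by
  classical
  obtain ⟨B, hB⟩ := hF
  obtain ⟨B', hB'⟩ := hG
  refine ⟨B ∪ B', fun ω ω' h => ?_⟩
  show g (F ω) (G ω) = g (F ω') (G ω')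
  rw [hB ω ω' fun v hv => h v (mem_union_left _ hv), hB' ω ω' fun v hv => h v (mem_union_right _ hv)]

theorem LF.mul {F G : Cfg → ℝ} (hF : LF F) (hG : LF G) : LF fun ω => F ω * G ω :=
  hF.op hG fun a b => a * b

theorem LF.cmul {F : Cfg → ℝ} (hF : LF F) (c : ℝ) : LF fun ω => c * F ω :=
  hF.op hF fun a _ => c * a

theorem EF_le [IsFiniteMeasure P] (hg : ∀ᵐ ω ∂P, Good ω) {F G : Cfg → ℝ} (hF : LF F)
    (hG : LF G) (h : ∀ ω, Good ω → (∀ v ∈ K, ω v = κ v) → F ω ≤ G ω) :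
    EF P K κ F ≤ EF P K κ G := by
  obtain ⟨B, hB⟩ := hF
  obtain ⟨B', hB'⟩ := hG
  obtain ⟨M, hM⟩ := loc_bdd hB
  obtain ⟨M', hM'⟩ := loc_bdd hB'
  exact EF_mono hg (QL.of_loc hB) (QL.of_loc hB') (fun ω _ => hM ω) (fun ω _ => hM' ω) h

theorem EF_lin [IsFiniteMeasure P] (hg : ∀ᵐ ω ∂P, Good ω) {F G : Cfg → ℝ} (hF : LF F)
    (hG : LF G) (a b : ℝ) :
    EF P K κ (fun ω => a * F ω + b * G ω) = a * EF P K κ F + b * EF P K κ G := by
  unfold EF
  have e : ∀ ω, fz K κ ω * (a * F ω + b * G ω) = a * (fz K κ ω * F ω) + b * (fz K κ ω * G ω) := by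
    intro ω; ring
  simp only [e]
  rw [integral_add ((hF.int hg).const_mul a) ((hG.int hg).const_mul b), integral_const_mul,
    integral_const_mul]
  ring

/-! ### Abstract positive functionals -/

/-- Positive linear functionals on the functions of finitely many squares, `Ok`: the configurations
which matter. -/
structure PE (E : (Cfg → ℝ) → ℝ) (Ok : Cfg → Prop) : Prop where
  mono : ∀ {F G : Cfg → ℝ}, LF F → LF G → (∀ ω, Ok ω → F ω ≤ G ω) → E F ≤ E G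
  lin : ∀ {F G : Cfg → ℝ}, LF F → LF G → ∀ a b : ℝ,
    E (fun ω => a * F ω + b * G ω) = a * E F + b * E G

/-- Expectations given the frozen squares. -/
theorem EF_pe [IsFiniteMeasure P] (hg : ∀ᵐ ω ∂P, Good ω) (K : Finset (ℤ × ℤ)) (κ : Cfg) :
    PE (EF P K κ) (fun ω => Good ω ∧ ∀ v ∈ K, ω v = κ v) :=
  ⟨fun hF hG h => EF_le hg hF hG fun ω h1 h2 => h ω ⟨h1, h2⟩, fun hF hG a b => EF_lin hg hF hG a b⟩

/-- Expectations in finite domains with frozen squares outside. -/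
theorem Ex_pe (hQ0 : 0 < Q) {D : Finset (ℤ × ℤ)} {η : Cfg} (hη : Good η) :
    PE (Ex Q D η) (fun ω => Good ω ∧ ∀ v, v ∉ D → ω v = η v) :=
  ⟨fun _ _ h => Ex_mono hQ0 fun S _ => h _ ⟨f_good.1 D η S hη, fun v hv => cf_out hv⟩,
    fun {F G} _ _ a b => by
      rw [← Ex_mul_left, ← Ex_mul_left, ← Ex_add]⟩

variable {E : (Cfg → ℝ) → ℝ} {Ok : Cfg → Prop}

theorem PE.mul (hE : PE E Ok) {F : Cfg → ℝ} (hF : LF F) (a : ℝ) :
    E (fun ω => a * F ω) = a * E F := by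
  have h := hE.lin hF hF a 0
  simp only [zero_mul, add_zero] at h
  exact h

/-- One step of the decreasing type. -/
theorem PE.dec_step (hE : PE E Ok) {c s M C0 : ℝ} (hc : 0 < c)
    (hc1 : c ≤ 1) (hs : 0 ≤ s) (hC0 : 0 ≤ C0) {T T' Tp : Cfg → ℝ} {N : Cfg → ℕ}
    {B : Finset (ℤ × ℤ)} (hN : ∀ ω ω' : Cfg, (∀ v ∈ B, ω v = ω' v) → N ω = N ω')
    (hT : LF T) (hT' : LF T') (hTp : LF Tp) (hT0 : ∀ ω, Ok ω → 0 ≤ T ω)
    (hTp0 : ∀ ω, Ok ω → 0 ≤ Tp ω)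
    (h1 : ∀ ω, Ok ω → T ω ≤ C0 * Tp ω)
    (h2 : ∀ ω, Ok ω → c ^ N ω * T ω ≤ T' ω)
    (h3 : E (fun ω => Tp ω * Real.exp (s * N ω)) ≤ M * E Tp) (L : ℕ) :
    c ^ L * (E T - C0 * M * Real.exp (-(s * L)) * E Tp) ≤ E T' := by
  have hEx : LF fun ω => Tp ω * Real.exp (s * N ω) :=
    hTp.mul (LF.comp (N := N) hN fun n : ℕ => Real.exp (s * n))
  have hcL : 0 < c ^ L := pow_pos hc L
  have key : E (fun ω => c ^ L * T ω + -(c ^ L * C0 * Real.exp (-(s * L))) *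
      (Tp ω * Real.exp (s * N ω))) ≤ E T' := by
    refine hE.mono (hT.op hEx fun a b => c ^ L * a + -(c ^ L * C0 * Real.exp (-(s * L))) * b) hT'
      fun ω hω => ?_
    have a1 := h1 ω hω
    have a2 := h2 ω hω
    have a3 := hT0 ω hω
    have a4 := hTp0 ω hω
    have e1 : Real.exp (-(s * L)) * Real.exp (s * N ω) = Real.exp (s * (N ω - L)) := by
      rw [← Real.exp_add]
      congr 1
      ring
    have e2 : c ^ L * T ω + -(c ^ L * C0 * Real.exp (-(s * L))) * (Tp ω * Real.exp (s * N ω)) =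
        c ^ L * (T ω - C0 * Tp ω * Real.exp (s * (N ω - L))) := by
      rw [← e1]; ring
    rw [e2]
    rcases le_or_gt (N ω) L with hNL | hNL
    · have a5 : c ^ L ≤ c ^ N ω := pow_le_pow_of_le_one hc.le hc1 hNL
      calc c ^ L * (T ω - C0 * Tp ω * Real.exp (s * (N ω - L))) ≤ c ^ L * T ω := by
            refine mul_le_mul_of_nonneg_left ?_ hcL.le
            have : 0 ≤ C0 * Tp ω * Real.exp (s * (N ω - L)) := by positivity
            linarith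
        _ ≤ c ^ N ω * T ω := mul_le_mul_of_nonneg_right a5 a3
        _ ≤ T' ω := a2
    · have a5 : (1 : ℝ) ≤ Real.exp (s * (N ω - L)) := by
        rw [Real.one_le_exp_iff]
        have : (L : ℝ) < N ω := by exact_mod_cast hNL
        exact mul_nonneg hs (by linarith)
      have a6 : C0 * Tp ω ≤ C0 * Tp ω * Real.exp (s * (N ω - L)) :=
        le_mul_of_one_le_right (by positivity) a5
      have a7 : c ^ L * (T ω - C0 * Tp ω * Real.exp (s * (N ω - L))) ≤ 0 :=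
        mul_nonpos_of_nonneg_of_nonpos hcL.le (by linarith)
      have a8 : 0 ≤ c ^ N ω * T ω := mul_nonneg (pow_nonneg hc.le _) a3
      linarith
  rw [hE.lin hT hEx] at key
  have h4 : 0 ≤ c ^ L * C0 * Real.exp (-(s * L)) := by positivity
  have h5 := mul_le_mul_of_nonneg_left h3 h4
  have e3 : c ^ L * (E T - C0 * M * Real.exp (-(s * L)) * E Tp) =
      c ^ L * E T - c ^ L * C0 * Real.exp (-(s * L)) * (M * E Tp) := by ring
  rw [e3]
  linarith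

/-- One step of the growing type. -/
theorem PE.grow_step (hE : PE E Ok) {l s M t : ℝ}
    (hls : l ^ 2 ≤ Real.exp s) (ht : 0 < t) {T Tp : Cfg → ℝ} {N Np : Cfg → ℕ}
    {B : Finset (ℤ × ℤ)} (hN : ∀ ω ω' : Cfg, (∀ v ∈ B, ω v = ω' v) → N ω = N ω')
    (hNp : ∀ ω ω' : Cfg, (∀ v ∈ B, ω v = ω' v) → Np ω = Np ω')
    (hT : LF T) (hTp : LF Tp) (hTp0 : ∀ ω, Ok ω → 0 ≤ Tp ω)
    (h1 : ∀ ω, Ok ω → T ω ≤ l ^ Np ω * Tp ω)
    (h3 : E (fun ω => Tp ω * Real.exp (2 * s * N ω)) ≤ M * E Tp) :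
    E (fun ω => T ω * Real.exp (s * N ω)) ≤
      (t * E (fun ω => Tp ω * Real.exp (s * Np ω)) + 1 / t * (M * E Tp)) / 2 := by
  have hEx : LF fun ω => Tp ω * Real.exp (2 * s * N ω) :=
    hTp.mul (LF.comp (N := N) hN fun n : ℕ => Real.exp (2 * s * n))
  have hEx' : LF fun ω => T ω * Real.exp (s * N ω) :=
    hT.mul (LF.comp (N := N) hN fun n : ℕ => Real.exp (s * n))
  have hEp : LF fun ω => Tp ω * Real.exp (s * Np ω) :=
    hTp.mul (LF.comp (N := Np) hNp fun n : ℕ => Real.exp (s * n))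
  have key : E (fun ω => T ω * Real.exp (s * N ω)) ≤
      E (fun ω => t / 2 * (Tp ω * Real.exp (s * Np ω)) +
        1 / (2 * t) * (Tp ω * Real.exp (2 * s * N ω))) := by
    refine hE.mono hEx' (hEp.op hEx fun a b => t / 2 * a + 1 / (2 * t) * b) fun ω hω => ?_
    have a1 := h1 ω hω
    have a4 := hTp0 ω hω
    have e0 : (l ^ Np ω) ^ 2 ≤ Real.exp (s * Np ω) := by
      rw [← pow_mul, mul_comm, pow_mul, mul_comm s, Real.exp_nat_mul]
      exact pow_le_pow_left₀ (by positivity) hls _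
    have e1 : Real.exp (2 * s * N ω) = Real.exp (s * N ω) ^ 2 := by
      rw [← Real.exp_nat_mul]
      congr 1
      push_cast
      ring
    rw [e1]
    obtain ⟨x, hx⟩ : ∃ x, x = l ^ Np ω := ⟨_, rfl⟩
    obtain ⟨y, hy⟩ : ∃ y, y = Real.exp (s * N ω) := ⟨_, rfl⟩
    rw [← hx] at a1 e0
    rw [← hy]
    have hy0 : 0 < y := by rw [hy]; exact Real.exp_pos _
    calc T ω * y ≤ x * Tp ω * y := mul_le_mul_of_nonneg_right a1 hy0.le
      _ = Tp ω * (x * y) := by ring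
      _ ≤ Tp ω * (t / 2 * x ^ 2 + 1 / (2 * t) * y ^ 2) := by
          refine mul_le_mul_of_nonneg_left ?_ a4
          have h5 : 0 ≤ (t * x - y) ^ 2 / (2 * t) := by positivity
          have h6 : (t * x - y) ^ 2 / (2 * t) = t / 2 * x ^ 2 + 1 / (2 * t) * y ^ 2 - x * y := by
            field_simp
            ring
          linarith
      _ ≤ Tp ω * (t / 2 * Real.exp (s * Np ω) + 1 / (2 * t) * y ^ 2) := by gcongr
      _ = _ := by ring
  rw [hE.lin hEp hEx] at key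
  refine key.trans ?_
  have e : (t * E (fun ω => Tp ω * Real.exp (s * Np ω)) + 1 / t * (M * E Tp)) / 2 =
      t / 2 * E (fun ω => Tp ω * Real.exp (s * Np ω)) + 1 / (2 * t) * (M * E Tp) := by
    field_simp
  rw [e]
  have := mul_le_mul_of_nonneg_left h3 (show 0 ≤ 1 / (2 * t) by positivity)
  linarith

/-- **Comparison of the radii, decreasing type.** -/
theorem PE.radii_dec {c s M C0 : ℝ} {p : ℕ} (hc : 0 < c) (hc1 : c ≤ 1)
    (hsp : (p : ℝ) * Real.log (1 / c) < s) (hC0 : 0 ≤ C0) (b0 : ℝ) :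
    ∃ U : ℝ, 1 ≤ U ∧ ∀ (E : (Cfg → ℝ) → ℝ) (Ok : Cfg → Prop), PE E Ok →
      ∀ (J : ℕ) (T : ℕ → Cfg → ℝ) (N : ℕ → Cfg → ℕ) (B : ℕ → Finset (ℤ × ℤ)),
      (∀ j ≤ J, LF (T j)) → (∀ j ≤ J, ∀ ω, Ok ω → 0 ≤ T j ω) → (∀ j ≤ J, 0 < E (T j)) →
      (∀ j, p ≤ j → j < J → ∀ ω ω' : Cfg, (∀ v ∈ B j, ω v = ω' v) → N j ω = N j ω') →
      (∀ j < p, j < J → E (T j) ≤ b0 * E (T (j + 1))) →
      (∀ j, p ≤ j → j < J → ∀ ω, Ok ω → T j ω ≤ C0 * T (j - p) ω) →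
      (∀ j, p ≤ j → j < J → ∀ ω, Ok ω → c ^ N j ω * T j ω ≤ T (j + 1) ω) →
      (∀ j, p ≤ j → j < J → E (fun ω => T (j - p) ω * Real.exp (s * N j ω)) ≤
        M * E (T (j - p))) →
      ∀ j < J, E (T j) ≤ U * E (T (j + 1)) := by
  have hlog : 0 ≤ Real.log (1 / c) := Real.log_nonneg (by rw [le_div_iff₀ hc]; linarith)
  have hs : 0 < s := lt_of_le_of_lt (by positivity) hsp
  obtain ⟨U, hU1, hU⟩ := rec_dec (B := C0 * M) hc hc1 hsp b0
  refine ⟨U, hU1, fun E Ok hE J T N B hT hT0 hTE hN hb h1 h2 h3 => ?_⟩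
  exact hU J (fun j => E (T j)) hTE hb fun j hj hjJ L =>
    hE.dec_step hc hc1 hs.le hC0 (hN j hj hjJ) (hT j hjJ.le) (hT _ hjJ) (hT _ (by omega))
      (hT0 j hjJ.le) (hT0 _ (by omega)) (h1 j hj hjJ) (h2 j hj hjJ) (h3 j hj hjJ) L

/-- **Moments of the number of the large strands, growing type.** -/
theorem PE.radii_grow (hE : PE E Ok) {l s M C0 b0 : ℝ} {q : ℕ}
    (hq : 0 < q) (hls : l ^ 2 ≤ Real.exp s) (hC0 : 0 < C0) (hM : 0 ≤ M)
    (J : ℕ) (T : ℕ → Cfg → ℝ) (N : ℕ → Cfg → ℕ) (B : ℕ → Finset (ℤ × ℤ))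
    (hT : ∀ j ≤ J, LF (T j)) (hT0 : ∀ j ≤ J, ∀ ω, Ok ω → 0 ≤ T j ω) (hTE : ∀ j ≤ J, 0 < E (T j))
    (hN : ∀ j ≤ J, ∀ ω ω' : Cfg, (∀ v ∈ B j, ω v = ω' v) → N j ω = N j ω')
    (hb : ∀ j < q, j ≤ J → E (fun ω => T j ω * Real.exp (s * N j ω)) ≤ b0 * E (T j))
    (h0 : ∀ j, q ≤ j → j ≤ J → ∀ ω, Ok ω → T (j - q) ω ≤ C0 * T j ω)
    (h1 : ∀ j, q ≤ j → j ≤ J → ∀ ω, Ok ω → T j ω ≤ l ^ N (j - q) ω * T (j - q) ω)
    (h3 : ∀ j, q ≤ j → j ≤ J → E (fun ω => T (j - q) ω * Real.exp (2 * s * N j ω)) ≤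
      M * E (T (j - q))) :
    ∀ j ≤ J, E (fun ω => T j ω * Real.exp (s * N j ω)) ≤ max b0 (M * C0 ^ 2) * E (T j) := by
  classical
  refine rec_grow hq hC0 hM J (fun j => E (T j))
    (fun j => E (fun ω => T j ω * Real.exp (s * N j ω))) hTE hb (fun j hj hjJ => ?_)
    fun j hj hjJ => ?_
  · show E (T (j - q)) ≤ C0 * E (T j)
    rw [← hE.mul (hT _ hjJ)]
    exact hE.mono (hT _ (by omega)) ((hT _ hjJ).cmul C0) (h0 j hj hjJ)
  · have h4 := hE.grow_step (t := 1 / C0) (B := B j ∪ B (j - q)) hls (by positivity)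
      (fun ω ω' h => hN j hjJ ω ω' fun v hv => h v (mem_union_left _ hv))
      (fun ω ω' h => hN (j - q) (by omega) ω ω' fun v hv => h v (mem_union_right _ hv))
      (hT j hjJ) (hT (j - q) (by omega)) (hT0 (j - q) (by omega)) (h1 j hj hjJ) (h3 j hj hjJ)
    rw [one_div_one_div] at h4
    exact h4

end Vale.Agent.P167.H506.Q
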