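import Vale.Agent.P167.H398.Q.Mac
import Vale.Agent.P167.H506.Q.Rad

/-!
# P167, general `q`, blocks Q-START and Q-NORM: radii of local factors next to one frozen row

`num_one`: `macro_F` for one ball. `rad_dec`, `mom_dec`: comparison of the radii and moments of the number
of large segments, decreasing type. `mom_grow`: growing type.
-/

namespace Vale.Agent.P167.H506.Q

open Finset MeasureTheory Vale.Agent.P167.FK Vale.Agent.P167.FKA
open Vale.Agent.P167.H166 (bxx mem_bxx)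
open Vale.Agent.P167.H562.QM (MajA OneC Nr)
open Vale.Agent.P167.H398.Q (macro_F)

variable {Q : ℝ} {x : ℤ × ℤ} {I : Finset (ℤ × ℤ)} {η κ : Cfg}

theorem nm_sub_le' (a b c : ℤ × ℤ) : nm (a - c) ≤ nm (a - b) + nm (b - c) := H45.nm_sub_le a b c

theorem nm_of_bq {v : ℤ × ℤ} {R : ℤ} (h : v ∈ Bq x R) : nm (v - x) ≤ R := by
  rw [mem_bq] at h
  simp only [nm, Prod.fst_sub, Prod.snd_sub, max_le_iff, abs_le]
  omega

theorem bq_of_nm {v : ℤ × ℤ} {R : ℤ} (h : nm (v - x) < R) : v ∈ Bq x R := by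
  rw [mem_bq]
  simp only [nm, Prod.fst_sub, Prod.snd_sub, max_lt_iff, abs_lt] at h
  omega

theorem nr_bq {Z : ℤ} {d : ℝ} {v : ℤ × ℤ} (h : Nr (Bq x Z) d v) : (nm (v - x) : ℝ) ≤ d + Z := by
  obtain ⟨u, hu, hd⟩ := h
  have h1 : (nm (v - x) : ℝ) ≤ nm (v - u) + nm (u - x) := by exact_mod_cast nm_sub_le' v u x
  have h2 : (nm (u - x) : ℝ) ≤ Z := by exact_mod_cast nm_of_bq hu
  linarith

/-- **Large segments around a point, with a factor of a small ball.** -/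
theorem num_one (hQ : 1 ≤ Q) (h : RSW Q) : ∃ e1 : ℝ, 0 < e1 ∧
    ∀ κ0 R0 s : ℝ, 0 < κ0 → 0 ≤ R0 → ∃ C ρ0 : ℝ, 0 < C ∧ 0 < ρ0 ∧ ∀ ρ : ℤ, ρ0 ≤ ρ →
      ∀ (x : ℤ × ℤ) (Z : ℤ), (Z : ℝ) ≤ R0 * ρ → ∃ N : Cfg → ℕ,
      (∀ (W : ℤ), κ0 * ρ + Z < W → ∀ ω ω' : Cfg, (∀ v ∈ Bq x W, ω v = ω' v) → N ω = N ω') ∧
      (∀ ω, MajA (Bq x Z) (κ0 * ρ) ω (N ω)) ∧
      ∀ (W : ℤ) (I : Finset (ℤ × ℤ)) (η : Cfg), κ0 * ρ + Z < W → Good η →
        (∀ (y : ℤ × ℤ) (a : ℤ), 1 ≤ a → bxx y a ⊆ Bq x W → OneC y a (Bq x W \ I) η) →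
        ∀ (b : ℤ) (G : Cfg → ℝ), (b : ℝ) ≤ e1 * κ0 / (1 + |s|) * ρ → (∀ ω, 0 ≤ G ω) →
          Loc (Bq x b ∪ I) G →
          Ex Q (Bq x W \ I) η (fun ω => G ω * Real.exp (s * (N ω : ℝ))) ≤
            C * Ex Q (Bq x W \ I) η G := by
  obtain ⟨e1, he1, H⟩ := macro_F hQ h 1
  refine ⟨e1, he1, fun κ0 R0 s hκ0 hR0 => ?_⟩
  obtain ⟨C, ρ0, hC, hρ0, H⟩ := H κ0 R0 s hκ0 hR0
  refine ⟨C, ρ0, hC, hρ0, fun ρ hρ x Z hZ => ?_⟩
  obtain ⟨N, h1, h2, h3⟩ := H ρ hρ x (Bq x Z) (fun v hv => by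
    have : (nm (v - x) : ℝ) ≤ Z := by exact_mod_cast nm_of_bq hv
    linarith) (fun _ => x)
  refine ⟨N, fun W hW ω ω' hh => ?_, h2, fun W I η hW hη hone b G hb hG0 hG => ?_⟩
  · refine h1 ω ω' fun v hv _ => hh v (bq_of_nm ?_)
    have := nr_bq hv
    have h5 : (nm (v - x) : ℝ) < W := by linarith
    exact_mod_cast h5
  · refine h3 (Bq x W \ I) η hη (fun y a ha _ hy => hone y a ha fun v hv => bq_of_nm ?_) G hG0 ?_
    · have := nr_bq (hy v hv).1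
      have h5 : (nm (v - x) : ℝ) < W := by linarith
      exact_mod_cast h5
    · intro ω ω' hh
      refine hG ω ω' fun v hv => hh v ?_
      rintro ⟨k1, -, k2⟩
      rcases mem_union.1 hv with h5 | h5
      · have h6 : (nm (v - x) : ℝ) ≤ b := by exact_mod_cast nm_of_bq h5
        have := k2 0
        linarith
      · exact (mem_sdiff.1 k1).2 h5

/-! ### small scales -/

/-- The number of the segments which visit a box is at most the number of the edges. -/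
theorem maj_small (Z : ℤ) (d : ℝ) (ω : Cfg) : MajA (Bq x Z) d ω (4 * (2 * Z.toNat) ^ 2) := by
  classical
  intro 𝓕 hs hd hv
  -- every segment contains an edge with head in the box
  have hch : ∀ γ : Finset Ed, ∃ e : Ed, γ ∈ 𝓕 → e ∈ γ ∧ hdv e ∈ Bq x Z := by
    intro γ
    by_cases h : γ ∈ 𝓕
    · obtain ⟨e, h1, h2⟩ := (hv γ h).1
      exact ⟨e, fun _ => ⟨h1, h2⟩⟩
    · exact ⟨Sum.inl 0, fun h' => absurd h' h⟩
  choose e he using hch
  have hinj : Set.InjOn e 𝓕 := by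
    intro γ hγ γ' hγ' h
    by_contra hne
    have h1 := (he γ hγ).1
    rw [h] at h1
    exact Finset.disjoint_left.1 (hd γ hγ γ' hγ' hne) h1 (he γ' hγ').1
  have hfin : (𝓕.image e).card = 𝓕.card := Finset.card_image_of_injOn hinj
  rw [← hfin]
  obtain ⟨U, hU⟩ : ∃ U : Finset Ed, U = (Bq x Z).biUnion (fun v =>
    {Sum.inl v, Sum.inl (v.1 - 1, v.2), Sum.inr v, Sum.inr (v.1, v.2 - 1)}) := ⟨_, rfl⟩
  have hsub : 𝓕.image e ⊆ U := by
    intro a ha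
    obtain ⟨γ, hγ, rfl⟩ := mem_image.1 ha
    rw [hU, mem_biUnion]
    refine ⟨hdv (e γ), (he γ hγ).2, ?_⟩
    generalize e γ = a
    rcases a with ⟨i, j⟩ | ⟨i, j⟩ <;> simp only [hdv] <;> split_ifs <;> simp
  refine (card_le_card hsub).trans ?_
  rw [hU]
  refine (card_biUnion_le_card_mul _ _ 4 fun v _ => card_le_four).trans ?_
  rw [mul_comm]
  refine Nat.mul_le_mul_left 4 ?_
  unfold Bq
  rw [card_product, Int.card_Ico, Int.card_Ico, pow_two]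
  refine Nat.mul_le_mul ?_ ?_ <;> omega

end Vale.Agent.P167.H506.Q
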