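import Vale.Agent.P167.H506.Q.Loc1

/-!
# P167, general `q`, blocks Q-START and Q-NORM: radii of local factors, decreasing type
-/

namespace Vale.Agent.P167.H506.Q

open Finset MeasureTheory Vale.Agent.P167.FK Vale.Agent.P167.FKA
open Vale.Agent.P167.H166 (bxx mem_bxx)
open Vale.Agent.P167.H562.QM (MajA OneC Nr)

variable {Q : ℝ} {x : ℤ × ℤ} {I : Finset (ℤ × ℤ)} {η κ : Cfg}

/-! ### scales -/

/-- The scales below `R`. -/
def rj (R : ℤ) (J j : ℕ) : ℤ := R / 4 ^ (J - j)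

theorem rj_top (R : ℤ) (J : ℕ) : rj R J J = R := by simp [rj]

theorem rj_step (R : ℤ) {J j : ℕ} (h : j < J) : rj R J j = rj R J (j + 1) / 4 := by
  unfold rj
  rw [Int.ediv_ediv_of_nonneg (by positivity)]
  congr 1
  rw [← pow_succ]
  congr 1
  omega

theorem rj_pow (R : ℤ) {J j i : ℕ} (h : i ≤ j) (hj : j ≤ J) : rj R J (j - i) = rj R J j / 4 ^ i := by
  unfold rj
  rw [Int.ediv_ediv_of_nonneg (by positivity)]
  congr 1
  rw [← pow_add]
  congr 1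
  omega

theorem rj_le (R : ℤ) {J : ℕ} (hR : 0 ≤ R) {j j' : ℕ} (h : j ≤ j') (hj : j' ≤ J) :
    rj R J j ≤ rj R J j' := by
  have h1 := rj_pow R (J := J) (j := j') (i := j' - j) (by omega) hj
  have e : j' - (j' - j) = j := by omega
  rw [e] at h1
  rw [h1]
  have h0 : 0 ≤ rj R J j' := Int.ediv_nonneg hR (by positivity)
  exact Int.ediv_le_self _ h0

theorem rj_up (R : ℤ) {J j : ℕ} (hj : j ≤ J) : rj R J j + 1 ≤ 4 ^ j * (rj R J 0 + 1) := by
  induction j with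
  | zero => simp
  | succ j ih =>
    have h1 := ih (by omega)
    have h2 := rj_step R (J := J) (j := j) (by omega)
    have h3 : rj R J (j + 1) ≤ 4 * rj R J j + 3 := by omega
    calc rj R J (j + 1) + 1 ≤ 4 * (rj R J j + 1) := by linarith
      _ ≤ 4 * (4 ^ j * (rj R J 0 + 1)) := by linarith
      _ = _ := by ring

theorem exists_J {K0 : ℤ} (hK : 1 ≤ K0) (n : ℕ) : ∀ R : ℤ, R ≤ n → K0 ≤ R →
    ∃ J : ℕ, K0 ≤ rj R J 0 ∧ rj R J 0 ≤ 4 * K0 + 3 := by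
  induction n with
  | zero =>
    intro R h1 h2
    push_cast at h1
    omega
  | succ n ih =>
    intro R h1 h2
    push_cast at h1
    by_cases h : R ≤ 4 * K0 + 3
    · exact ⟨0, by simpa [rj] using h2, by simpa [rj] using h⟩
    · push Not at h
      obtain ⟨J, h3, h4⟩ := ih (R / 4) (by omega) (by omega)
      refine ⟨J + 1, ?_⟩
      have e : rj R (J + 1) 0 = rj (R / 4) J 0 := by
        unfold rj
        simp only [Nat.sub_zero]
        rw [Int.ediv_ediv_of_nonneg (by norm_num), pow_succ, mul_comm]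
      rw [e]
      exact ⟨h3, h4⟩

/-! ### decreasing type -/

/-- Radial families of local factors, decreasing type. -/
structure RadDec (x : ℤ × ℤ) (I : Finset (ℤ × ℤ)) (κ : Cfg) (c C0 : ℝ) (R : ℤ)
    (T : ℤ → Cfg → ℝ) : Prop where
  loc : ∀ r, 8 ≤ r → r ≤ R → Loc (Bq x (r + 2) ∪ I) (T r)
  nn : ∀ r, 8 ≤ r → r ≤ R → ∀ ω, 0 ≤ T r ω
  pos : ∀ r, 8 ≤ r → r ≤ R → ∀ ω, Good ω → (∀ v ∈ I, ω v = κ v) → 0 < T r ω
  anti : ∀ r r', 8 ≤ r → r ≤ r' → r' ≤ R → ∀ ω, Good ω → (∀ v ∈ I, ω v = κ v) →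
    T r' ω ≤ C0 * T r ω
  step : ∀ r r', 8 ≤ r → r ≤ r' → r' ≤ R → ∀ ω, Good ω → (∀ v ∈ I, ω v = κ v) → ∀ N : ℕ,
    MajA (Bq x (2 * r')) ((r : ℝ) / 4) ω N → c ^ N * T r ω ≤ T r' ω

theorem Ex_pos (hQ0 : 0 < Q) {D : Finset (ℤ × ℤ)} (hη : Good η) {F : Cfg → ℝ}
    (h : ∀ ω, Good ω → (∀ v, v ∉ D → ω v = η v) → 0 < F ω) : 0 < Ex Q D η F := by
  unfold Ex
  refine div_pos ?_ (FKA.Zq_pos hQ0 D η)
  refine Finset.sum_pos (fun S _ => mul_pos (pow_pos hQ0 _)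
    (h _ (f_good.1 D η S hη) fun v hv => cf_out hv)) ⟨∅, Finset.empty_mem_powerset D⟩

/-- Parameters of the recursion. -/
theorem exists_ps {c e : ℝ} (hc : 0 < c) (hc1 : c ≤ 1) (he : 0 < e) : ∃ (p : ℕ) (s : ℝ), 0 ≤ s ∧
    (p : ℝ) * Real.log (1 / c) < s ∧ 2 * (1 + |s|) ≤ e * 4 ^ p := by
  obtain ⟨l, hl⟩ : ∃ l, l = Real.log (1 / c) := ⟨_, rfl⟩
  have hl0 : 0 ≤ l := by rw [hl]; exact Real.log_nonneg (by rw [le_div_iff₀ hc]; linarith)
  -- `4 ^ p ≥ p ^ 2`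
  have h4 : ∀ p : ℕ, (p : ℝ) ^ 2 ≤ 4 ^ p := by
    intro p
    have h1 : (p : ℝ) ≤ 2 ^ p := by exact_mod_cast Nat.lt_two_pow_self.le
    calc (p : ℝ) ^ 2 ≤ (2 ^ p) ^ 2 := pow_le_pow_left₀ (by positivity) h1 2
      _ = 4 ^ p := by rw [← pow_mul, mul_comm, pow_mul]; norm_num
  obtain ⟨p, hp⟩ := exists_nat_ge (2 * (2 + l) / e + 1)
  refine ⟨p, p * l + 1, by positivity, by rw [← hl]; linarith, ?_⟩
  have h0 : (0 : ℝ) ≤ p * l + 1 := by positivity
  rw [abs_of_nonneg h0]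
  have hp1 : (1 : ℝ) ≤ p := by
    have : 0 ≤ 2 * (2 + l) / e := by positivity
    linarith
  have h2 : 2 * (2 + l) ≤ e * p := by
    have h3 : 2 * (2 + l) / e ≤ p := by linarith
    rw [div_le_iff₀ he] at h3
    linarith
  calc 2 * (1 + (p * l + 1)) ≤ 2 * ((2 + l) * p) := by nlinarith
    _ = 2 * (2 + l) * p := by ring
    _ ≤ e * p * p := by gcongr
    _ = e * (p : ℝ) ^ 2 := by ring
    _ ≤ e * 4 ^ p := mul_le_mul_of_nonneg_left (h4 p) he.le

/-- **Comparison of the radii, decreasing type**, all boundary conditions. -/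
theorem rad_dec (hQ : 1 ≤ Q) (hR : RSW Q) {c C0 : ℝ} (hc : 0 < c) (hc1 : c ≤ 1) (hC0 : 0 ≤ C0)
    (Λ : ℝ) : ∃ C ρ0 : ℝ, 0 < C ∧ 0 < ρ0 ∧ ∀ (x : ℤ × ℤ) (I : Finset (ℤ × ℤ)) (κ : Cfg)
      (T : ℤ → Cfg → ℝ) (ρ R : ℤ), RadDec x I κ c C0 R T → ρ0 ≤ ρ → ρ ≤ R → (R : ℝ) ≤ Λ * ρ →
      ∀ η : Cfg, Good η → (∀ v ∈ I, η v = κ v) →
      (∀ (y : ℤ × ℤ) (a : ℤ), 1 ≤ a → bxx y a ⊆ Bq x (4 * R) → OneC y a (Bq x (4 * R) \ I) η) →
      Ex Q (Bq x (4 * R) \ I) η (T ρ) ≤ C * Ex Q (Bq x (4 * R) \ I) η (T R) := by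
  classical
  have hQ0 : 0 < Q := by linarith
  obtain ⟨e1, he1, H⟩ := num_one hQ hR
  obtain ⟨p, s, hs0, hsp, hps⟩ := exists_ps hc hc1 (e := e1 * (1 / 4)) (by positivity)
  obtain ⟨CM, ρM, hCM, hρM, H⟩ := H (1 / 4) 14 s (by norm_num) (by norm_num)
  obtain ⟨e, he⟩ : ∃ e, e = e1 * (1 / 4) / (1 + |s|) := ⟨_, rfl⟩
  have hs1 : 0 < 1 + |s| := by positivity
  have he0 : 0 < e := by rw [he]; positivity
  -- the base scale
  obtain ⟨K0, hK0⟩ : ∃ K0 : ℤ, K0 = max 8 (max ⌈ρM⌉ ⌈4 / e⌉) := ⟨_, rfl⟩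
  have hK8 : 8 ≤ K0 := by rw [hK0]; exact le_max_left _ _
  have hKM : ρM ≤ K0 := by
    have : ⌈ρM⌉ ≤ K0 := by rw [hK0]; exact (le_max_left _ _).trans (le_max_right _ _)
    exact (Int.le_ceil _).trans (by exact_mod_cast this)
  have hKe : 4 / e ≤ K0 := by
    have : ⌈4 / e⌉ ≤ K0 := by rw [hK0]; exact (le_max_right _ _).trans (le_max_right _ _)
    exact (Int.le_ceil _).trans (by exact_mod_cast this)
  -- the bound at the small scales
  obtain ⟨Z0, hZ0⟩ : ∃ Z0 : ℕ, Z0 = 4 * (2 * (2 * (4 ^ (p + 1) * (4 * K0 + 4))).toNat) ^ 2 := ⟨_, rfl⟩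
  obtain ⟨U, hU1, hU⟩ := PE.radii_dec (M := CM) hc hc1 hsp hC0 ((1 / c) ^ Z0)
  obtain ⟨k, hk⟩ : ∃ k : ℕ, Λ ≤ 4 ^ k := by
    obtain ⟨k, hk⟩ := pow_unbounded_of_one_lt Λ (show (1 : ℝ) < 4 by norm_num)
    exact ⟨k, hk.le⟩
  refine ⟨(C0 + 1) * U ^ k, 4 * K0 + 4, by positivity, by
    have : (8 : ℝ) ≤ K0 := by exact_mod_cast hK8
    linarith, fun x I κ T ρ R hT hρ hρR hRΛ η hη hκ hone => ?_⟩
  have hρ' : 4 * K0 + 4 ≤ ρ := by exact_mod_cast hρ
  obtain ⟨J, hJ1, hJ2⟩ := exists_J (K0 := K0) (by omega) R.toNat R (by omega) (by omega)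
  have hR0 : 0 ≤ R := by omega
  have rlo : ∀ j ≤ J, K0 ≤ rj R J j := fun j hj => hJ1.trans (rj_le R hR0 (Nat.zero_le j) hj)
  have rhi : ∀ j ≤ J, rj R J j ≤ R := fun j hj => by
    have := rj_le R hR0 hj le_rfl
    rwa [rj_top] at this
  obtain ⟨A, hA⟩ : ∃ A, A = Bq x (4 * R) \ I := ⟨_, rfl⟩
  have hpe := Ex_pe (Q := Q) (D := A) hQ0 hη
  have hok : ∀ ω, (Good ω ∧ ∀ v, v ∉ A → ω v = η v) → Good ω ∧ ∀ v ∈ I, ω v = κ v := by
    rintro ω ⟨h1, h2⟩
    refine ⟨h1, fun v hv => ?_⟩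
    rw [h2 v (by rw [hA]; exact fun h => (mem_sdiff.1 h).2 hv), hκ v hv]
  have hstepj : ∀ j < J, 4 * rj R J j ≤ rj R J (j + 1) ∧ rj R J (j + 1) ≤ 4 * rj R J j + 3 := by
    intro j hj
    have := rj_step R hj
    omega
  -- the numbers
  have hnum : ∀ j : ℕ, ∃ N : Cfg → ℕ, j < J →
      (∀ ω ω' : Cfg, (∀ v ∈ Bq x (4 * R), ω v = ω' v) → N ω = N ω') ∧
      (∀ ω, MajA (Bq x (2 * rj R J (j + 1))) ((rj R J j : ℝ) / 4) ω (N ω)) ∧
      ∀ (b : ℤ) (G : Cfg → ℝ), (b : ℝ) ≤ e * rj R J j → (∀ ω, 0 ≤ G ω) → Loc (Bq x b ∪ I) G →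
        Ex Q A η (fun ω => G ω * Real.exp (s * (N ω : ℝ))) ≤ CM * Ex Q A η G := by
    intro j
    by_cases hj : j < J
    · have h1 : ρM ≤ (rj R J j : ℝ) := hKM.trans (by exact_mod_cast rlo j hj.le)
      have h2 := (hstepj j hj).2
      have h3 := rlo j hj.le
      have h4 := rhi (j + 1) hj
      have h5 := (hstepj j hj).1
      obtain ⟨N, n1, n2, n3⟩ := H (rj R J j) h1 x (2 * rj R J (j + 1)) (by
        have : 2 * rj R J (j + 1) ≤ 14 * rj R J j := by omega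
        exact_mod_cast this)
      have hW : 1 / 4 * (rj R J j : ℝ) + ((2 * rj R J (j + 1) : ℤ) : ℝ) < ((4 * R : ℤ) : ℝ) := by
        have h6 : (rj R J j : ℝ) ≤ R := by exact_mod_cast (by omega : rj R J j ≤ R)
        have h7 : (rj R J (j + 1) : ℝ) ≤ R := by exact_mod_cast h4
        have h8 : (1 : ℝ) ≤ R := by exact_mod_cast (by omega : (1 : ℤ) ≤ R)
        push_cast
        linarith
      refine ⟨N, fun _ => ⟨n1 (4 * R) hW, fun ω => ?_, fun b G hb hG0 hG => ?_⟩⟩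
      · have h9 := n2 ω
        have e9 : (1 / 4 : ℝ) * (rj R J j : ℝ) = (rj R J j : ℝ) / 4 := by ring
        rw [e9] at h9
        exact h9
      · rw [hA]
        exact n3 (4 * R) I η hW hη hone b G (by rw [← he]; exact hb) hG0 hG
    · exact ⟨fun _ => 0, fun h => absurd h hj⟩
  choose N hN using hnum
  -- the recursion
  have main := hU (Ex Q A η) _ hpe J (fun j => T (rj R J j)) N (fun _ => Bq x (4 * R))
    (fun j hj => ⟨_, hT.loc _ (by have := rlo j hj; omega) (rhi j hj)⟩)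
    (fun j hj ω _ => hT.nn _ (by have := rlo j hj; omega) (rhi j hj) ω)
    (fun j hj => Ex_pos hQ0 hη fun ω h1 h2 => by
      have h3 := hok ω ⟨h1, h2⟩
      exact hT.pos _ (by have := rlo j hj; omega) (rhi j hj) ω h3.1 h3.2)
    (fun j _ hj ω ω' hh => (hN j hj).1 ω ω' hh)
    (fun j hjp hj => by
      -- small scales
      rw [← hpe.mul ⟨_, hT.loc _ (by have := rlo (j + 1) hj; omega) (rhi (j + 1) hj)⟩]
      refine hpe.mono ⟨_, hT.loc _ (by have := rlo j hj.le; omega) (rhi j hj.le)⟩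
        (LF.cmul ⟨_, hT.loc _ (by have := rlo (j + 1) hj; omega) (rhi (j + 1) hj)⟩ _) fun ω hω => ?_
      have h3 := hok ω hω
      have h4 := hT.step (rj R J j) (rj R J (j + 1)) (by have := rlo j hj.le; omega)
        (rj_le R hR0 (Nat.le_succ j) hj) (rhi (j + 1) hj) ω h3.1 h3.2 _
        (maj_small (2 * rj R J (j + 1)) _ ω)
      have h5 := hT.nn (rj R J j) (by have := rlo j hj.le; omega) (rhi j hj.le) ω
      have h6 : 4 * (2 * (2 * rj R J (j + 1)).toNat) ^ 2 ≤ Z0 := by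
        rw [hZ0]
        refine Nat.mul_le_mul_left 4 (Nat.pow_le_pow_left (Nat.mul_le_mul_left 2 ?_) 2)
        refine Int.toNat_le_toNat ?_
        have h7 := rj_up R (J := J) (j := j + 1) hj
        have h8 : (4 : ℤ) ^ (j + 1) ≤ 4 ^ (p + 1) := pow_le_pow_right₀ (by norm_num) (by omega)
        have h9 : (4 : ℤ) ^ (j + 1) * (rj R J 0 + 1) ≤ 4 ^ (p + 1) * (4 * K0 + 4) :=
          mul_le_mul h8 (by linarith) (by omega) (by positivity)
        linarith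
      have h7 : c ^ Z0 ≤ c ^ (4 * (2 * (2 * rj R J (j + 1)).toNat) ^ 2) :=
        pow_le_pow_of_le_one hc.le hc1 h6
      have h8 : c ^ Z0 * T (rj R J j) ω ≤ T (rj R J (j + 1)) ω :=
        (mul_le_mul_of_nonneg_right h7 h5).trans h4
      calc T (rj R J j) ω = (1 / c) ^ Z0 * (c ^ Z0 * T (rj R J j) ω) := by
            rw [← mul_assoc, ← mul_pow, one_div, inv_mul_cancel₀ hc.ne', one_pow, one_mul]
        _ ≤ (1 / c) ^ Z0 * T (rj R J (j + 1)) ω := mul_le_mul_of_nonneg_left h8 (by positivity))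
    (fun j hj hjJ ω hω => by
      have h3 := hok ω hω
      exact hT.anti _ _ (by have := rlo (j - p) (by omega); omega)
        (rj_le R hR0 (by omega) hjJ.le) (rhi j hjJ.le) ω h3.1 h3.2)
    (fun j hj hjJ ω hω => by
      have h3 := hok ω hω
      exact hT.step _ _ (by have := rlo j hjJ.le; omega) (rj_le R hR0 (Nat.le_succ j) hjJ)
        (rhi (j + 1) hjJ) ω h3.1 h3.2 _ ((hN j hjJ).2.1 ω))
    (fun j hj hjJ => by
      refine (hN j hjJ).2.2 (rj R J (j - p) + 2) _ ?_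
        (hT.nn _ (by have := rlo (j - p) (by omega); omega) (rhi (j - p) (by omega)))
        (hT.loc _ (by have := rlo (j - p) (by omega); omega) (rhi (j - p) (by omega)))
      have h1 := rj_pow R hj hjJ.le
      have h2 : (rj R J (j - p) : ℝ) ≤ rj R J j / 4 ^ p := by
        rw [h1, le_div_iff₀ (by positivity)]
        exact_mod_cast Int.ediv_mul_le (rj R J j) (by positivity)
      have h3 : (1 : ℝ) / 4 ^ p ≤ e / 2 := by
        rw [he, div_le_iff₀ (by positivity)]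
        have : e1 * (1 / 4) / (1 + |s|) / 2 * 4 ^ p = e1 * (1 / 4) * 4 ^ p / (2 * (1 + |s|)) := by
          field_simp
        rw [this, le_div_iff₀ (by positivity)]
        linarith
      have h4 : (0 : ℝ) ≤ rj R J j := by exact_mod_cast (by have := rlo j hjJ.le; omega : 0 ≤ rj R J j)
      have h5 : 4 / e ≤ rj R J j := hKe.trans (by exact_mod_cast rlo j hjJ.le)
      have h6 : 2 ≤ e / 2 * rj R J j := by
        rw [div_le_iff₀ he0] at h5
        linarith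
      have h7 : (rj R J j : ℝ) / 4 ^ p ≤ e / 2 * rj R J j := by
        calc (rj R J j : ℝ) / 4 ^ p = 1 / 4 ^ p * rj R J j := by ring
          _ ≤ _ := mul_le_mul_of_nonneg_right h3 h4
      push_cast
      linarith)
  -- from `ρ` to `R`
  rw [← hA]
  have hchain : ∀ i ≤ J, Ex Q A η (T (rj R J (J - i))) ≤ U ^ i * Ex Q A η (T R) := by
    intro i
    induction i with
    | zero => intro _; simp [rj_top]
    | succ i ih =>
      intro hi
      have h1 := ih (by omega)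
      have h2 := main (J - (i + 1)) (by omega)
      have e : J - (i + 1) + 1 = J - i := by omega
      simp only [e] at h2
      calc _ ≤ U * Ex Q A η (T (rj R J (J - i))) := h2
        _ ≤ U * (U ^ i * Ex Q A η (T R)) := mul_le_mul_of_nonneg_left h1 (by linarith)
        _ = _ := by ring
  have hER : 0 ≤ Ex Q A η (T R) := Ex_nonneg hQ0 fun _ _ => hT.nn R (by omega) le_rfl _
  -- the scale below `ρ`
  obtain ⟨i, hiJ, hik, hir⟩ : ∃ i ≤ J, i ≤ k ∧ rj R J (J - i) ≤ ρ := by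
    by_cases hkJ : k ≤ J
    · refine ⟨k, hkJ, le_rfl, ?_⟩
      have h1 := rj_pow R (J := J) (j := J) (i := k) hkJ le_rfl
      rw [rj_top] at h1
      rw [h1]
      have h2 : (R : ℝ) ≤ 4 ^ k * ρ := hRΛ.trans (mul_le_mul_of_nonneg_right hk (by
        exact_mod_cast (by omega : 0 ≤ ρ)))
      have h3 : R ≤ ρ * 4 ^ k := by
        have : (R : ℝ) ≤ ρ * 4 ^ k := by linarith
        exact_mod_cast this
      exact Int.ediv_le_of_le_mul (by positivity) h3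
    · refine ⟨J, le_rfl, by omega, ?_⟩
      rw [Nat.sub_self]
      omega
  have h1 : Ex Q A η (T ρ) ≤ C0 * Ex Q A η (T (rj R J (J - i))) := by
    rw [← hpe.mul ⟨_, hT.loc _ (by have := rlo (J - i) (by omega); omega) (rhi (J - i) (by omega))⟩]
    refine hpe.mono ⟨_, hT.loc ρ (by omega) hρR⟩
      (LF.cmul ⟨_, hT.loc _ (by have := rlo (J - i) (by omega); omega) (rhi (J - i) (by omega))⟩ _)
      fun ω hω => ?_
    have h3 := hok ω hω
    exact hT.anti _ _ (by have := rlo (J - i) (by omega); omega) hir hρR ω h3.1 h3.2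
  have h2 := hchain i hiJ
  have h3 : U ^ i ≤ U ^ k := pow_le_pow_right₀ hU1 hik
  calc _ ≤ C0 * Ex Q A η (T (rj R J (J - i))) := h1
    _ ≤ C0 * (U ^ i * Ex Q A η (T R)) := mul_le_mul_of_nonneg_left h2 hC0
    _ ≤ (C0 + 1) * (U ^ k * Ex Q A η (T R)) := by
        have h4 : U ^ i * Ex Q A η (T R) ≤ U ^ k * Ex Q A η (T R) :=
          mul_le_mul_of_nonneg_right h3 hER
        have h5 : 0 ≤ U ^ k * Ex Q A η (T R) := mul_nonneg (by positivity) hER
        nlinarith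
    _ = _ := by ring

end Vale.Agent.P167.H506.Q
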