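import Vale.Agent.P167.H506.Q.Loc2

/-!
# P167, general `q`, blocks Q-START and Q-NORM: moments of the number of large segments with a local
factor
-/

namespace Vale.Agent.P167.H506.Q

open Finset MeasureTheory Vale.Agent.P167.FK Vale.Agent.P167.FKA
open Vale.Agent.P167.H166 (bxx mem_bxx)
open Vale.Agent.P167.H562.QM (MajA OneC Nr)

variable {Q : ℝ} {x : ℤ × ℤ} {I : Finset (ℤ × ℤ)} {η κ : Cfg}

theorem maj_mono {A : Finset (ℤ × ℤ)} {d d' : ℝ} (hd : d ≤ d') {ω : Cfg} {N : ℕ}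
    (h : MajA A d ω N) : MajA A d' ω N := by
  intro 𝓕 h1 h2 h3
  refine h 𝓕 h1 h2 fun γ hγ => ?_
  obtain ⟨k1, e1, he1, e2, he2, k2⟩ := h3 γ hγ
  exact ⟨k1, e1, he1, e2, he2, hd.trans k2⟩

/-- **Moments with a factor of decreasing type.** -/
theorem mom_dec (hQ : 1 ≤ Q) (hR : RSW Q) {c C0 : ℝ} (hc : 0 < c) (hc1 : c ≤ 1) (hC0 : 0 ≤ C0)
    {ε : ℝ} (hε : 0 < ε) (s : ℝ) : ∃ C ρ0 : ℝ, 0 < C ∧ 0 < ρ0 ∧ ∀ (x : ℤ × ℤ) (R : ℤ), ρ0 ≤ R →
      ∃ N : Cfg → ℕ, (∀ ω ω' : Cfg, (∀ v ∈ Bq x (4 * R), ω v = ω' v) → N ω = N ω') ∧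
      (∀ ω, MajA (Bq x (2 * R)) (ε * R) ω (N ω)) ∧
      ∀ (I : Finset (ℤ × ℤ)) (κ : Cfg) (T : ℤ → Cfg → ℝ), RadDec x I κ c C0 R T →
      ∀ η : Cfg, Good η → (∀ v ∈ I, η v = κ v) →
      (∀ (y : ℤ × ℤ) (a : ℤ), 1 ≤ a → bxx y a ⊆ Bq x (4 * R) → OneC y a (Bq x (4 * R) \ I) η) →
      Ex Q (Bq x (4 * R) \ I) η (fun ω => T R ω * Real.exp (s * (N ω : ℝ))) ≤
        C * Ex Q (Bq x (4 * R) \ I) η (T R) := by
  have hQ0 : 0 < Q := by linarith
  obtain ⟨e1, he1, H⟩ := num_one hQ hR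
  obtain ⟨κ0, hκ0⟩ : ∃ κ0 : ℝ, κ0 = min ε 1 := ⟨_, rfl⟩
  have hκ00 : 0 < κ0 := by rw [hκ0]; exact lt_min hε one_pos
  have hκε : κ0 ≤ ε := by rw [hκ0]; exact min_le_left _ _
  have hκ1 : κ0 ≤ 1 := by rw [hκ0]; exact min_le_right _ _
  obtain ⟨CM, ρM, hCM, hρM, H⟩ := H κ0 2 s hκ00 (by norm_num)
  obtain ⟨e, he⟩ : ∃ e, e = min 1 (e1 * κ0 / (1 + |s|)) := ⟨_, rfl⟩
  have hs1 : 0 < 1 + |s| := by positivity
  have he0 : 0 < e := by rw [he]; exact lt_min one_pos (by positivity)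
  have he1' : e ≤ 1 := by rw [he]; exact min_le_left _ _
  have he2 : e ≤ e1 * κ0 / (1 + |s|) := by rw [he]; exact min_le_right _ _
  obtain ⟨C, ρ1, hC, hρ1, HR⟩ := rad_dec hQ hR hc hc1 hC0 (2 / e)
  refine ⟨C0 * (CM * C) + 1, max ρM (2 * (ρ1 + 16) / e), by positivity,
    lt_of_lt_of_le hρM (le_max_left _ _), fun x R hRρ => ?_⟩
  have hR1 : ρM ≤ R := (le_max_left _ _).trans hRρ
  have hR2 : 2 * (ρ1 + 16) / e ≤ R := (le_max_right _ _).trans hRρ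
  rw [div_le_iff₀ he0] at hR2
  have hRp : (0 : ℝ) < R := lt_of_lt_of_le hρM hR1
  have hW : κ0 * (R : ℝ) + ((2 * R : ℤ) : ℝ) < ((4 * R : ℤ) : ℝ) := by
    push_cast
    nlinarith
  obtain ⟨N, n1, n2, n3⟩ := H R hR1 x (2 * R) (by push_cast; linarith)
  refine ⟨N, n1 (4 * R) hW, fun ω => maj_mono (mul_le_mul_of_nonneg_right hκε hRp.le) (n2 ω),
    fun I κ T hT η hη hκ hone => ?_⟩
  obtain ⟨ρ, hρ⟩ : ∃ ρ : ℤ, ρ = ⌊e * (R : ℝ)⌋ - 2 := ⟨_, rfl⟩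
  have hf1 : ((⌊e * (R : ℝ)⌋ : ℤ) : ℝ) ≤ e * R := Int.floor_le _
  have hf2 : e * (R : ℝ) < ((⌊e * (R : ℝ)⌋ : ℤ) : ℝ) + 1 := Int.lt_floor_add_one _
  have hρr : (ρ : ℝ) = ((⌊e * (R : ℝ)⌋ : ℤ) : ℝ) - 2 := by rw [hρ]; push_cast; ring
  have hρ8 : (8 : ℝ) ≤ ρ := by linarith
  have hρ8' : 8 ≤ ρ := by exact_mod_cast hρ8
  have hρR : ρ ≤ R := by
    have : (ρ : ℝ) ≤ R := by nlinarith
    exact_mod_cast this
  have hpe := Ex_pe (Q := Q) (D := Bq x (4 * R) \ I) hQ0 hη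
  have hok : ∀ ω, (Good ω ∧ ∀ v, v ∉ Bq x (4 * R) \ I → ω v = η v) →
      Good ω ∧ ∀ v ∈ I, ω v = κ v := by
    rintro ω ⟨h1, h2⟩
    refine ⟨h1, fun v hv => ?_⟩
    rw [h2 v (fun h => (mem_sdiff.1 h).2 hv), hκ v hv]
  have hNl : LF fun ω => Real.exp (s * (N ω : ℝ)) :=
    LF.comp (N := N) (n1 (4 * R) hW) fun n : ℕ => Real.exp (s * n)
  have l1 : LF (T R) := ⟨_, hT.loc R (by omega) le_rfl⟩
  have l2 : LF (T ρ) := ⟨_, hT.loc ρ hρ8' hρR⟩
  have h1 : Ex Q (Bq x (4 * R) \ I) η (fun ω => T R ω * Real.exp (s * (N ω : ℝ))) ≤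
      C0 * Ex Q (Bq x (4 * R) \ I) η (fun ω => T ρ ω * Real.exp (s * (N ω : ℝ))) := by
    rw [← hpe.mul (l2.mul hNl)]
    refine hpe.mono (l1.mul hNl) ((l2.mul hNl).cmul C0) fun ω hω => ?_
    have h3 := hok ω hω
    rw [← mul_assoc]
    exact mul_le_mul_of_nonneg_right (hT.anti ρ R hρ8' hρR le_rfl ω h3.1 h3.2) (Real.exp_pos _).le
  have h2 := n3 (4 * R) I η hW hη hone (ρ + 2) (T ρ) (by
    push_cast
    have h5 : e * (R : ℝ) ≤ e1 * κ0 / (1 + |s|) * R := mul_le_mul_of_nonneg_right he2 hRp.le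
    linarith) (hT.nn ρ hρ8' hρR) (hT.loc ρ hρ8' hρR)
  have h3 := HR x I κ T ρ R hT (by linarith) hρR (by
    rw [div_mul_eq_mul_div, le_div_iff₀ he0]
    nlinarith) η hη hκ hone
  have h4 : 0 ≤ Ex Q (Bq x (4 * R) \ I) η (T R) :=
    Ex_nonneg hQ0 fun _ _ => hT.nn R (by omega) le_rfl _
  calc _ ≤ C0 * Ex Q (Bq x (4 * R) \ I) η (fun ω => T ρ ω * Real.exp (s * (N ω : ℝ))) := h1
    _ ≤ C0 * (CM * Ex Q (Bq x (4 * R) \ I) η (T ρ)) := mul_le_mul_of_nonneg_left h2 hC0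
    _ ≤ C0 * (CM * (C * Ex Q (Bq x (4 * R) \ I) η (T R))) := by gcongr
    _ = C0 * (CM * C) * Ex Q (Bq x (4 * R) \ I) η (T R) := by ring
    _ ≤ _ := by nlinarith

/-! ### growing type -/

/-- Radial families of local factors, growing type. -/
structure RadGrow (x : ℤ × ℤ) (I : Finset (ℤ × ℤ)) (κ : Cfg) (l : ℝ) (R : ℤ)
    (T : ℤ → Cfg → ℝ) : Prop where
  loc : ∀ r, 8 ≤ r → r ≤ R → Loc (Bq x (r + 2) ∪ I) (T r)
  nn : ∀ r, 8 ≤ r → r ≤ R → ∀ ω, 0 ≤ T r ω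
  one : ∀ r, 8 ≤ r → r ≤ R → ∀ ω, Good ω → (∀ v ∈ I, ω v = κ v) → 1 ≤ T r ω
  bd : ∀ r, 8 ≤ r → r ≤ R → ∀ ω, Good ω → (∀ v ∈ I, ω v = κ v) →
    T r ω ≤ l ^ (4 * (2 * (2 * r).toNat) ^ 2)
  mono : ∀ r r', 8 ≤ r → r ≤ r' → r' ≤ R → ∀ ω, Good ω → (∀ v ∈ I, ω v = κ v) → T r ω ≤ T r' ω
  step : ∀ r r', 8 ≤ r → r ≤ r' → r' ≤ R → ∀ ω, Good ω → (∀ v ∈ I, ω v = κ v) → ∀ N : ℕ,
    MajA (Bq x (2 * r')) ((r : ℝ) / 4) ω N → T r' ω ≤ l ^ N * T r ω

theorem rj_up' (R : ℤ) {J j i : ℕ} (hj : j + i ≤ J) :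
    rj R J (j + i) + 1 ≤ 4 ^ i * (rj R J j + 1) := by
  induction i with
  | zero => simp
  | succ i ih =>
    have h1 := ih (by omega)
    have h2 := rj_step R (J := J) (j := j + i) (by omega)
    have h3 : rj R J (j + i + 1) ≤ 4 * rj R J (j + i) + 3 := by omega
    calc rj R J (j + (i + 1)) + 1 = rj R J (j + i + 1) + 1 := by rw [← add_assoc]
      _ ≤ 4 * (rj R J (j + i) + 1) := by linarith
      _ ≤ 4 * (4 ^ i * (rj R J j + 1)) := by linarith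
      _ = _ := by ring

/-- **Moments with a factor of growing type.** -/
theorem mom_grow (hQ : 1 ≤ Q) (hR : RSW Q) {l : ℝ} (hl : 1 ≤ l) {ε : ℝ} (hε : 0 < ε) (s : ℝ) :
    ∃ C ρ0 : ℝ, 0 < C ∧ 0 < ρ0 ∧ ∀ (x : ℤ × ℤ) (R : ℤ), ρ0 ≤ R →
      ∃ N : Cfg → ℕ, (∀ ω ω' : Cfg, (∀ v ∈ Bq x (4 * R), ω v = ω' v) → N ω = N ω') ∧
      (∀ ω, MajA (Bq x (2 * R)) (ε * R) ω (N ω)) ∧
      ∀ (I : Finset (ℤ × ℤ)) (κ : Cfg) (T : ℤ → Cfg → ℝ), RadGrow x I κ l R T →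
      ∀ η : Cfg, Good η → (∀ v ∈ I, η v = κ v) →
      (∀ (y : ℤ × ℤ) (a : ℤ), 1 ≤ a → bxx y a ⊆ Bq x (4 * R) → OneC y a (Bq x (4 * R) \ I) η) →
      Ex Q (Bq x (4 * R) \ I) η (fun ω => T R ω * Real.exp (s * (N ω : ℝ))) ≤
        C * Ex Q (Bq x (4 * R) \ I) η (T R) := by
  classical
  have hQ0 : 0 < Q := by linarith
  obtain ⟨e1, he1, H⟩ := num_one hQ hR
  obtain ⟨κ0, hκ0⟩ : ∃ κ0 : ℝ, κ0 = min ε (1 / 4) := ⟨_, rfl⟩
  have hκ00 : 0 < κ0 := by rw [hκ0]; exact lt_min hε (by norm_num)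
  have hκε : κ0 ≤ ε := by rw [hκ0]; exact min_le_left _ _
  have hκ1 : κ0 ≤ 1 / 4 := by rw [hκ0]; exact min_le_right _ _
  -- the exponent
  obtain ⟨s', hs'⟩ : ∃ s', s' = max |s| (2 * Real.log l) := ⟨_, rfl⟩
  have hs'0 : 0 ≤ s' := by rw [hs']; exact (abs_nonneg s).trans (le_max_left _ _)
  have hss' : s ≤ s' := by rw [hs']; exact (le_abs_self s).trans (le_max_left _ _)
  have hl0 : 0 < l := by linarith
  have hls : l ^ 2 ≤ Real.exp s' := by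
    have h1 : l ^ 2 = Real.exp (2 * Real.log l) := by
      rw [two_mul, Real.exp_add, Real.exp_log hl0, pow_two]
    rw [h1, hs']
    exact Real.exp_le_exp.2 (le_max_right _ _)
  obtain ⟨e, he⟩ : ∃ e, e = e1 * κ0 / (1 + |2 * s'|) := ⟨_, rfl⟩
  have he0 : 0 < e := by rw [he]; positivity
  obtain ⟨q, hq0, hq⟩ : ∃ q : ℕ, 0 < q ∧ (1 : ℝ) / 4 ^ q ≤ e / 2 := by
    obtain ⟨q, hq⟩ := pow_unbounded_of_one_lt (2 / e) (show (1 : ℝ) < 4 by norm_num)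
    refine ⟨q + 1, by omega, ?_⟩
    have h1 : (4 : ℝ) ^ q ≤ 4 ^ (q + 1) := pow_le_pow_right₀ (by norm_num) (by omega)
    rw [div_le_div_iff₀ (by positivity) (by norm_num)]
    rw [div_lt_iff₀ he0] at hq
    nlinarith
  obtain ⟨CM, ρM, hCM, hρM, H⟩ := H κ0 (4 ^ (q + 1)) (2 * s') hκ00 (by positivity)
  rw [← he] at H
  -- the base scale
  obtain ⟨K0, hK0⟩ : ∃ K0 : ℤ, K0 = max 8 (max ⌈ρM⌉ ⌈4 / e⌉) := ⟨_, rfl⟩
  have hK8 : 8 ≤ K0 := by rw [hK0]; exact le_max_left _ _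
  have hKM : ρM ≤ K0 := by
    have : ⌈ρM⌉ ≤ K0 := by rw [hK0]; exact (le_max_left _ _).trans (le_max_right _ _)
    exact (Int.le_ceil _).trans (by exact_mod_cast this)
  have hKe : 4 / e ≤ K0 := by
    have : ⌈4 / e⌉ ≤ K0 := by rw [hK0]; exact (le_max_right _ _).trans (le_max_right _ _)
    exact (Int.le_ceil _).trans (by exact_mod_cast this)
  obtain ⟨Z0, hZ0⟩ : ∃ Z0 : ℕ, Z0 = 4 * (2 * (2 * (4 ^ q * (4 * K0 + 4))).toNat) ^ 2 := ⟨_, rfl⟩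
  refine ⟨max (l ^ Z0 * CM) (CM * 1 ^ 2), K0, lt_of_lt_of_le (by positivity) (le_max_right _ _), by
    have : (8 : ℝ) ≤ K0 := by exact_mod_cast hK8
    linarith, fun x R hRK => ?_⟩
  have hRK' : K0 ≤ R := by exact_mod_cast hRK
  have hRp : (0 : ℝ) < R := by exact_mod_cast (by omega : 0 < R)
  have hW : κ0 * (R : ℝ) + ((2 * R : ℤ) : ℝ) < ((4 * R : ℤ) : ℝ) := by
    push_cast
    nlinarith
  have h4q : (4 : ℝ) ≤ 4 ^ (q + 1) := by
    calc (4 : ℝ) = 4 ^ 1 := by norm_num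
      _ ≤ 4 ^ (q + 1) := pow_le_pow_right₀ (by norm_num) (by omega)
  obtain ⟨N, n1, n2, n3⟩ := H R (hKM.trans hRK) x (2 * R) (by push_cast; nlinarith)
  refine ⟨N, n1 (4 * R) hW, fun ω => maj_mono (mul_le_mul_of_nonneg_right hκε hRp.le) (n2 ω),
    fun I κ T hT η hη hκ hone => ?_⟩
  obtain ⟨J, hJ1, hJ2⟩ := exists_J (K0 := K0) (by omega) R.toNat R (by omega) hRK'
  have hR0 : 0 ≤ R := by omega
  have rlo : ∀ j ≤ J, K0 ≤ rj R J j := fun j hj => hJ1.trans (rj_le R hR0 (Nat.zero_le j) hj)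
  have rhi : ∀ j ≤ J, rj R J j ≤ R := fun j hj => by
    have := rj_le R hR0 hj le_rfl
    rwa [rj_top] at this
  obtain ⟨A, hA⟩ : ∃ A, A = Bq x (4 * R) \ I := ⟨_, rfl⟩
  rw [← hA]
  have hpe := Ex_pe (Q := Q) (D := A) hQ0 hη
  have hok : ∀ ω, (Good ω ∧ ∀ v, v ∉ A → ω v = η v) → Good ω ∧ ∀ v ∈ I, ω v = κ v := by
    rintro ω ⟨h1, h2⟩
    refine ⟨h1, fun v hv => ?_⟩
    rw [h2 v (by rw [hA]; exact fun h => (mem_sdiff.1 h).2 hv), hκ v hv]
  -- the numbers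
  have hnum : ∀ j : ℕ, ∃ M : Cfg → ℕ, (j = J → M = N) ∧ (j ≤ J →
      (∀ ω ω' : Cfg, (∀ v ∈ Bq x (4 * R), ω v = ω' v) → M ω = M ω') ∧
      (∀ ω, MajA (Bq x (2 * rj R J (min (j + q) J))) (κ0 * (rj R J j : ℝ)) ω (M ω)) ∧
      ∀ (b : ℤ) (G : Cfg → ℝ), (b : ℝ) ≤ e * rj R J j → (∀ ω, 0 ≤ G ω) → Loc (Bq x b ∪ I) G →
        Ex Q A η (fun ω => G ω * Real.exp (2 * s' * (M ω : ℝ))) ≤ CM * Ex Q A η G) := by
    intro j
    rcases lt_trichotomy j J with hj | rfl | hj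
    · have h1 : ρM ≤ (rj R J j : ℝ) := hKM.trans (by exact_mod_cast rlo j hj.le)
      have h3 := rlo j hj.le
      have h4 := rhi (min (j + q) J) (min_le_right _ _)
      have h6 : rj R J (min (j + q) J) + 1 ≤ 4 ^ q * (rj R J j + 1) := by
        by_cases hqJ : j + q ≤ J
        · rw [min_eq_left hqJ]
          exact rj_up' R hqJ
        · rw [min_eq_right (by omega)]
          have h7 := rj_up' R (J := J) (j := j) (i := J - j) (by omega)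
          rw [show j + (J - j) = J by omega] at h7
          refine h7.trans (mul_le_mul_of_nonneg_right ?_ (by omega))
          exact pow_le_pow_right₀ (by norm_num) (by omega)
      have h7 : 2 * rj R J (min (j + q) J) ≤ 4 ^ (q + 1) * rj R J j := by
        have h8 : (0 : ℤ) < 4 ^ q := by positivity
        rw [pow_succ]
        nlinarith
      obtain ⟨M, m1, m2, m3⟩ := H (rj R J j) h1 x (2 * rj R J (min (j + q) J)) (by exact_mod_cast h7)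
      have hW' : κ0 * (rj R J j : ℝ) + ((2 * rj R J (min (j + q) J) : ℤ) : ℝ) <
          ((4 * R : ℤ) : ℝ) := by
        have h8 : (rj R J j : ℝ) ≤ R := by exact_mod_cast rhi j hj.le
        have h9 : (rj R J (min (j + q) J) : ℝ) ≤ R := by exact_mod_cast h4
        have h10 : (0 : ℝ) ≤ rj R J j := by exact_mod_cast (by omega : 0 ≤ rj R J j)
        push_cast
        nlinarith
      refine ⟨M, fun h => absurd h hj.ne, fun _ => ⟨m1 (4 * R) hW', m2, fun b G hb hG0 hG => ?_⟩⟩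
      rw [hA]
      exact m3 (4 * R) I η hW' hη hone b G hb hG0 hG
    · refine ⟨N, fun _ => rfl, fun _ => ⟨n1 (4 * R) hW, fun ω => ?_, fun b G hb hG0 hG => ?_⟩⟩
      · rw [min_eq_right (by omega), rj_top]
        exact n2 ω
      · rw [hA]
        rw [rj_top] at hb
        exact n3 (4 * R) I η hW hη hone b G hb hG0 hG
    · exact ⟨fun _ => 0, fun h => absurd h hj.ne', fun h => absurd h (by omega)⟩
  choose M hMJ hM using hnum
  have hMl : ∀ (t : ℝ) (j : ℕ), j ≤ J → LF fun ω => Real.exp (t * (M j ω : ℝ)) := fun t j hj =>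
    LF.comp (N := M j) (hM j hj).1 fun n : ℕ => Real.exp (t * n)
  have main := PE.radii_grow (M := CM) (C0 := 1) (b0 := l ^ Z0 * CM) hpe hq0 hls one_pos hCM.le J
    (fun j => T (rj R J j)) M (fun _ => Bq x (4 * R))
    (fun j hj => ⟨_, hT.loc _ (by have := rlo j hj; omega) (rhi j hj)⟩)
    (fun j hj ω _ => hT.nn _ (by have := rlo j hj; omega) (rhi j hj) ω)
    (fun j hj => Ex_pos hQ0 hη fun ω h1 h2 => by
      have h3 := hok ω ⟨h1, h2⟩
      have := hT.one _ (by have := rlo j hj; omega) (rhi j hj) ω h3.1 h3.2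
      linarith)
    (fun j hj ω ω' hh => (hM j hj).1 ω ω' hh)
    (fun j hjq hj => by
      -- small scales
      have h8 : 8 ≤ rj R J j := by have := rlo j hj; omega
      have e0 : Loc (Bq x 0 ∪ I) (fun _ : Cfg => (1 : ℝ)) := fun _ _ _ => rfl
      have h1 := (hM j hj).2.2 0 (fun _ => 1) (by
        have : (0 : ℝ) ≤ rj R J j := by exact_mod_cast (by omega : 0 ≤ rj R J j)
        push_cast
        positivity) (fun _ => zero_le_one) e0
      rw [Ex_const hQ0, mul_one] at h1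
      simp only [one_mul] at h1
      have h2 : Ex Q A η (fun ω => T (rj R J j) ω * Real.exp (s' * (M j ω : ℝ))) ≤
          l ^ Z0 * Ex Q A η (fun ω => Real.exp (2 * s' * (M j ω : ℝ))) := by
        rw [← hpe.mul (hMl (2 * s') j hj)]
        refine hpe.mono (LF.mul ⟨_, hT.loc _ h8 (rhi j hj)⟩ (hMl s' j hj))
          ((hMl (2 * s') j hj).cmul _) fun ω hω => ?_
        have h3 := hok ω hω
        have h4 := hT.bd _ h8 (rhi j hj) ω h3.1 h3.2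
        have h5 : 4 * (2 * (2 * rj R J j).toNat) ^ 2 ≤ Z0 := by
          rw [hZ0]
          refine Nat.mul_le_mul_left 4 (Nat.pow_le_pow_left (Nat.mul_le_mul_left 2 ?_) 2)
          refine Int.toNat_le_toNat ?_
          have h7 := rj_up R (J := J) (j := j) hj
          have h8 : (4 : ℤ) ^ j ≤ 4 ^ q := pow_le_pow_right₀ (by norm_num) hjq.le
          have h9 : (4 : ℤ) ^ j * (rj R J 0 + 1) ≤ 4 ^ q * (4 * K0 + 4) :=
            mul_le_mul h8 (by linarith) (by omega) (by positivity)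
          linarith
        have h6 : T (rj R J j) ω ≤ l ^ Z0 := h4.trans (pow_le_pow_right₀ hl h5)
        have h7 : Real.exp (s' * (M j ω : ℝ)) ≤ Real.exp (2 * s' * (M j ω : ℝ)) := by
          refine Real.exp_le_exp.2 ?_
          have : 0 ≤ s' * (M j ω : ℝ) := by positivity
          linarith
        exact mul_le_mul h6 h7 (Real.exp_pos _).le (by positivity)
      have h3 : 1 ≤ Ex Q A η (T (rj R J j)) := by
        rw [← Ex_const (D := A) (η := η) hQ0 1]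
        refine hpe.mono ⟨Bq x 0 ∪ I, e0⟩ ⟨_, hT.loc _ h8 (rhi j hj)⟩ fun ω hω => ?_
        have h3 := hok ω hω
        exact hT.one _ h8 (rhi j hj) ω h3.1 h3.2
      calc _ ≤ l ^ Z0 * Ex Q A η (fun ω => Real.exp (2 * s' * (M j ω : ℝ))) := h2
        _ ≤ l ^ Z0 * CM := mul_le_mul_of_nonneg_left h1 (by positivity)
        _ = l ^ Z0 * CM * 1 := by ring
        _ ≤ _ := mul_le_mul_of_nonneg_left h3 (by positivity))
    (fun j hj hjJ ω hω => by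
      have h3 := hok ω hω
      rw [one_mul]
      exact hT.mono _ _ (by have := rlo (j - q) (by omega); omega) (rj_le R hR0 (by omega) hjJ)
        (rhi j hjJ) ω h3.1 h3.2)
    (fun j hj hjJ ω hω => by
      have h3 := hok ω hω
      have h4 := (hM (j - q) (by omega)).2.1 ω
      rw [show min (j - q + q) J = j by omega] at h4
      refine hT.step _ _ (by have := rlo (j - q) (by omega); omega) (rj_le R hR0 (by omega) hjJ)
        (rhi j hjJ) ω h3.1 h3.2 _ (maj_mono ?_ h4)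
      have h5 : (0 : ℝ) ≤ rj R J (j - q) := by
        exact_mod_cast (by have := rlo (j - q) (by omega); omega : 0 ≤ rj R J (j - q))
      nlinarith)
    (fun j hj hjJ => by
      refine (hM j hjJ).2.2 (rj R J (j - q) + 2) _ ?_
        (hT.nn _ (by have := rlo (j - q) (by omega); omega) (rhi (j - q) (by omega)))
        (hT.loc _ (by have := rlo (j - q) (by omega); omega) (rhi (j - q) (by omega)))
      have h1 := rj_pow R hj hjJ
      have h2 : (rj R J (j - q) : ℝ) ≤ rj R J j / 4 ^ q := by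
        rw [h1, le_div_iff₀ (by positivity)]
        exact_mod_cast Int.ediv_mul_le (rj R J j) (by positivity)
      have h4 : (0 : ℝ) ≤ rj R J j := by exact_mod_cast (by have := rlo j hjJ; omega : 0 ≤ rj R J j)
      have h5 : 4 / e ≤ rj R J j := hKe.trans (by exact_mod_cast rlo j hjJ)
      have h6 : 2 ≤ e / 2 * rj R J j := by
        rw [div_le_iff₀ he0] at h5
        linarith
      have h7 : (rj R J j : ℝ) / 4 ^ q ≤ e / 2 * rj R J j := by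
        calc (rj R J j : ℝ) / 4 ^ q = 1 / 4 ^ q * rj R J j := by ring
          _ ≤ _ := mul_le_mul_of_nonneg_right hq h4
      push_cast
      linarith)
    J le_rfl
  rw [rj_top, hMJ J rfl] at main
  refine le_trans (hpe.mono (LF.mul ⟨_, hT.loc R (by omega) le_rfl⟩ ?_)
    (LF.mul ⟨_, hT.loc R (by omega) le_rfl⟩ ?_) fun ω hω => ?_) main
  · exact LF.comp (N := N) (n1 (4 * R) hW) fun n : ℕ => Real.exp (s * n)
  · exact LF.comp (N := N) (n1 (4 * R) hW) fun n : ℕ => Real.exp (s' * n)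
  · refine mul_le_mul_of_nonneg_left (Real.exp_le_exp.2 ?_) (hT.nn R (by omega) le_rfl ω)
    exact mul_le_mul_of_nonneg_right hss' (Nat.cast_nonneg _)

end Vale.Agent.P167.H506.Q
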