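import Vale.Agent.P167.H506.Q.Hole
import Vale.Agent.P167.H199.QRatW

/-!
# P167, general `q`, block Q-START (S6): lower bounds

* `RM.le_lim`, `RM.ge_lim`: ratio form of the mixing for the infinite-volume measure with frozen
  squares, `G ≥ 0`.
* `prod_lim`: products of local functions in disjoint boxes.
* `frame_ge`: the probability that all walls are frozen (with local weights) is at least a constant
  times the product over the walls.
* `jensen`: lower bound of `∫ w c ^ N`.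
-/

namespace Vale.Agent.P167.H506.Q

open Finset MeasureTheory Vale.Agent.P167.FK Vale.Agent.P167.FKA
open Vale.Agent.P167.H519 (IsLim)
open Vale.Agent.P167.QX (QL dlr ql_Ex)

variable {Q : ℝ} {A V K : Finset (ℤ × ℤ)} {κ : Cfg} {a : ℝ} {P : Measure Cfg}

/-! ### Ratio form -/

/-- DLR property for the frozen squares and a factor which does not depend on `A`. -/
theorem dlr_fz (hQ0 : 0 < Q) (hAK : Disjoint A K) (hP : IsLim Q P) (hg : ∀ᵐ ω ∂P, Good ω)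
    {T G : Cfg → ℝ} (hTq : QL T) {MT : ℝ} (hMT : ∀ ω, Good ω → |T ω| ≤ MT) (hGq : QL G) {M : ℝ}
    (hM : ∀ ω, Good ω → |G ω| ≤ M) (hG : Ind A G) :
    ∫ ω, fz K κ ω * (G ω * T ω) ∂P = ∫ ω, fz K κ ω * (G ω * Ex Q A ω T) ∂P := by
  have hM0 : 0 ≤ M := (abs_nonneg _).trans (hM _ f_good.2.1)
  have hMT0 : 0 ≤ MT := (abs_nonneg _).trans (hMT _ f_good.2.1)
  have hfzq : QL (fz K κ) := QL.of_loc (fz_loc K κ)
  have hfzi : Ind A (fz K κ) := (fz_loc K κ).ind hAK.symm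
  have q1 : QL (fun ω => fz K κ ω * (G ω * T ω)) := hfzq.mul (hGq.mul hTq)
  have b1 : ∀ ω, Good ω → |fz K κ ω * (G ω * T ω)| ≤ 1 * (M * MT) := by
    intro ω hω
    rw [abs_mul, abs_mul, abs_of_nonneg (fz_nonneg _ _ _)]
    have := fz_le_one K κ ω
    have := hM ω hω
    have := hMT ω hω
    gcongr
  rw [dlr hP hQ0 hg q1 b1 A]
  refine integral_congr_ae ?_
  filter_upwards [hg] with ω _
  have e1 : Ex Q A ω (fun ω => fz K κ ω * (G ω * T ω)) =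
      Ex Q A ω (fun ω' => fz K κ ω * G ω * T ω') := by
    refine Ex_congr fun S _ => ?_
    rw [hfzi (cf A ω S) ω fun v hv => cf_out hv, hG (cf A ω S) ω fun v hv => cf_out hv]
    ring
  rw [e1, Ex_mul_left]
  ring

/-- The conditional expectations given the frozen squares and the outside of `A`. -/
theorem RM.cond (hQ : 1 ≤ Q) (h : RM Q K κ A V a) (hAK : Disjoint A K) (hP : IsLim Q P)
    (hg : ∀ᵐ ω ∂P, Good ω) {T : Cfg → ℝ} (hT0 : ∀ ω, 0 ≤ T ω) (hT : Loc (V ∪ K) T) {ω : Cfg}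
    (hω : Good ω) (hk : ∀ v ∈ K, ω v = κ v) :
    (∫ ω, fz K κ ω ∂P) * Ex Q A ω T ≤ a * ∫ ω, fz K κ ω * T ω ∂P ∧
      ∫ ω, fz K κ ω * T ω ∂P ≤ a * ((∫ ω, fz K κ ω ∂P) * Ex Q A ω T) := by
  have hPp : IsProbabilityMeasure P := hP.1
  have hQ0 : 0 < Q := by linarith
  obtain ⟨MT, hMT⟩ := loc_bdd hT
  have hMT0 : 0 ≤ MT := (abs_nonneg _).trans (hMT κ)
  have hfzq : QL (fz K κ) := QL.of_loc (fz_loc K κ)
  have hfM : ∀ ω, |fz K κ ω| ≤ 1 := fun ω => by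
    rw [abs_of_nonneg (fz_nonneg _ _ _)]
    exact fz_le_one _ _ _
  have hE0 : ∀ ω, 0 ≤ Ex Q A ω T := fun ω => Ex_nonneg hQ0 fun _ _ => hT0 _
  have hEM : ∀ ω, |Ex Q A ω T| ≤ MT := by
    intro ω
    rw [abs_of_nonneg (hE0 ω), ← Ex_const (D := A) (η := ω) hQ0 MT]
    exact Ex_mono hQ0 fun S _ => (le_abs_self _).trans (hMT _)
  have hEq : QL (fun ω => Ex Q A ω T) := ql_Ex A (QL.of_loc hT)
  have d := dlr_fz (κ := κ) hQ0 hAK hP hg (QL.of_loc hT) (fun ω _ => hMT ω) (QL.const 1)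
    (M := 1) (fun ω _ => by simp) fun _ _ _ => rfl
  simp only [one_mul] at d
  rw [d]
  have i1 : Integrable (fz K κ) P := hfzq.int hg fun ω _ => hfM ω
  have i2 : Integrable (fun ω => fz K κ ω * Ex Q A ω T) P :=
    (hfzq.mul hEq).int hg (M := 1 * MT) fun ω _ => by
      rw [abs_mul]
      have := hfM ω
      have := hEM ω
      gcongr
  constructor
  · rw [← integral_mul_const, ← integral_const_mul]
    refine integral_mono_ae (i1.mul_const _) (i2.const_mul a) ?_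
    filter_upwards [hg] with ω' hω'
    by_cases hk' : ∀ v ∈ K, ω' v = κ v
    · show fz K κ ω' * Ex Q A ω T ≤ a * (fz K κ ω' * Ex Q A ω' T)
      rw [fz_one hk', one_mul, one_mul]
      exact h.loc hAK hT0 hT hω hω' hk hk'
    · show fz K κ ω' * Ex Q A ω T ≤ a * (fz K κ ω' * Ex Q A ω' T)
      rw [fz_zero hk', zero_mul, zero_mul, mul_zero]
  · have e : a * ((∫ ω, fz K κ ω ∂P) * Ex Q A ω T) =
        ∫ ω', fz K κ ω' * (a * Ex Q A ω T) ∂P := by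
      rw [integral_mul_const]
      ring
    rw [e]
    refine integral_mono_ae i2 (i1.mul_const _) ?_
    filter_upwards [hg] with ω' hω'
    by_cases hk' : ∀ v ∈ K, ω' v = κ v
    · show fz K κ ω' * Ex Q A ω' T ≤ fz K κ ω' * (a * Ex Q A ω T)
      rw [fz_one hk', one_mul, one_mul]
      exact h.loc hAK hT0 hT hω' hω hk' hk
    · show fz K κ ω' * Ex Q A ω' T ≤ fz K κ ω' * (a * Ex Q A ω T)
      rw [fz_zero hk', zero_mul, zero_mul]

/-- Ratio form, both inequalities, `G ≥ 0`. -/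
theorem RM.ratio_lim (hQ : 1 ≤ Q) (h : RM Q K κ A V a) (hAK : Disjoint A K) (hP : IsLim Q P)
    (hg : ∀ᵐ ω ∂P, Good ω) {T G : Cfg → ℝ} (hT0 : ∀ ω, 0 ≤ T ω) (hT : Loc (V ∪ K) T)
    (hG0 : ∀ ω, 0 ≤ G ω) (hGq : QL G) {M : ℝ} (hM : ∀ ω, Good ω → |G ω| ≤ M) (hG : Ind A G) :
    (∫ ω, fz K κ ω * (G ω * T ω) ∂P) * (∫ ω, fz K κ ω ∂P) ≤
        a * ((∫ ω, fz K κ ω * G ω ∂P) * (∫ ω, fz K κ ω * T ω ∂P)) ∧
      (∫ ω, fz K κ ω * G ω ∂P) * (∫ ω, fz K κ ω * T ω ∂P) ≤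
        a * ((∫ ω, fz K κ ω * (G ω * T ω) ∂P) * (∫ ω, fz K κ ω ∂P)) := by
  have hPp : IsProbabilityMeasure P := hP.1
  have hQ0 : 0 < Q := by linarith
  obtain ⟨MT, hMT⟩ := loc_bdd hT
  have hMT0 : 0 ≤ MT := (abs_nonneg _).trans (hMT κ)
  have hM0 : 0 ≤ M := (abs_nonneg _).trans (hM _ f_good.2.1)
  have hfzq : QL (fz K κ) := QL.of_loc (fz_loc K κ)
  have hE0 : ∀ ω, 0 ≤ Ex Q A ω T := fun ω => Ex_nonneg hQ0 fun _ _ => hT0 _
  have hEM : ∀ ω, |Ex Q A ω T| ≤ MT := by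
    intro ω
    rw [abs_of_nonneg (hE0 ω), ← Ex_const (D := A) (η := ω) hQ0 MT]
    exact Ex_mono hQ0 fun S _ => (le_abs_self _).trans (hMT _)
  have hEq : QL (fun ω => Ex Q A ω T) := ql_Ex A (QL.of_loc hT)
  rw [dlr_fz (κ := κ) hQ0 hAK hP hg (QL.of_loc hT) (fun ω _ => hMT ω) hGq hM hG]
  have hfM : ∀ ω, |fz K κ ω| ≤ 1 := fun ω => by
    rw [abs_of_nonneg (fz_nonneg _ _ _)]
    exact fz_le_one _ _ _
  have i4 : Integrable (fun ω => fz K κ ω * (G ω * Ex Q A ω T)) P :=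
    (hfzq.mul (hGq.mul hEq)).int hg (M := 1 * (M * MT)) fun ω hω => by
      rw [abs_mul, abs_mul]
      have := hfM ω
      have := hM ω hω
      have := hEM ω
      gcongr
  have i5 : Integrable (fun ω => fz K κ ω * G ω) P :=
    (hfzq.mul hGq).int hg (M := 1 * M) fun ω hω => by
      rw [abs_mul]
      have := hfM ω
      have := hM ω hω
      gcongr
  constructor
  · rw [← integral_mul_const]
    have e : a * ((∫ ω, fz K κ ω * G ω ∂P) * (∫ ω, fz K κ ω * T ω ∂P)) =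
        ∫ ω, fz K κ ω * G ω * (a * ∫ ω, fz K κ ω * T ω ∂P) ∂P := by
      rw [integral_mul_const]
      ring
    rw [e]
    refine integral_mono_ae (i4.mul_const _) (i5.mul_const _) ?_
    filter_upwards [hg] with ω hω
    show fz K κ ω * (G ω * Ex Q A ω T) * (∫ ω, fz K κ ω ∂P) ≤
      fz K κ ω * G ω * (a * ∫ ω, fz K κ ω * T ω ∂P)
    by_cases hk : ∀ v ∈ K, ω v = κ v
    · rw [fz_one hk, one_mul, one_mul]
      have := (h.cond hQ hAK hP hg hT0 hT hω hk).1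
      calc G ω * Ex Q A ω T * (∫ ω, fz K κ ω ∂P) = G ω * ((∫ ω, fz K κ ω ∂P) * Ex Q A ω T) := by
            ring
        _ ≤ _ := mul_le_mul_of_nonneg_left this (hG0 ω)
    · rw [fz_zero hk]
      simp
  · have e : a * ((∫ ω, fz K κ ω * (G ω * Ex Q A ω T) ∂P) * (∫ ω, fz K κ ω ∂P)) =
        ∫ ω, a * (fz K κ ω * (G ω * Ex Q A ω T) * (∫ ω, fz K κ ω ∂P)) ∂P := by
      rw [integral_const_mul, integral_mul_const]
    have e' : (∫ ω, fz K κ ω * G ω ∂P) * (∫ ω, fz K κ ω * T ω ∂P) =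
        ∫ ω, fz K κ ω * G ω * (∫ ω, fz K κ ω * T ω ∂P) ∂P := by
      rw [integral_mul_const]
    rw [e, e']
    refine integral_mono_ae (i5.mul_const _) (((i4.mul_const _)).const_mul _) ?_
    filter_upwards [hg] with ω hω
    show fz K κ ω * G ω * (∫ ω, fz K κ ω * T ω ∂P) ≤
      a * (fz K κ ω * (G ω * Ex Q A ω T) * (∫ ω, fz K κ ω ∂P))
    by_cases hk : ∀ v ∈ K, ω v = κ v
    · rw [fz_one hk, one_mul, one_mul]
      have := (h.cond hQ hAK hP hg hT0 hT hω hk).2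
      calc G ω * (∫ ω, fz K κ ω * T ω ∂P) ≤ G ω * (a * ((∫ ω, fz K κ ω ∂P) * Ex Q A ω T)) :=
            mul_le_mul_of_nonneg_left this (hG0 ω)
        _ = _ := by ring
    · rw [fz_zero hk]
      simp

/-! ### All walls frozen -/

theorem fz_biUnion {ι : Type*} [DecidableEq ι] (J : Finset ι) (W : ι → Finset (ℤ × ℤ)) (κ ω : Cfg) :
    fz (J.biUnion W) κ ω = ∏ j ∈ J, fz (W j) κ ω := by
  by_cases h : ∀ v ∈ J.biUnion W, ω v = κ v
  · rw [fz_one h]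
    symm
    refine prod_eq_one fun j hj => fz_one fun v hv => h v (Finset.mem_biUnion.2 ⟨j, hj, hv⟩)
  · rw [fz_zero h]
    symm
    push Not at h
    obtain ⟨v, hv, hne⟩ := h
    obtain ⟨j, hj, hvj⟩ := Finset.mem_biUnion.1 hv
    exact prod_eq_zero hj (fz_zero fun h' => hne (h' v hvj))

/-- **All walls are frozen, with local weights**: comparable to the product over the walls. -/
theorem frame_ge (hP : IsLim Q P) (hQ : 1 ≤ Q) {Λ κ' s : ℤ} {c : ℝ} (hR : H199.Rsc Q Λ c)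
    (hκ : 0 ≤ κ') (hs : Λ ≤ s) {ι : Type*} [DecidableEq ι] (J : Finset ι)
    {W : ι → Finset (ℤ × ℤ)} {x : ι → ℤ × ℤ} (hW : ∀ i ∈ J, ∀ w ∈ W i, nm (w - x i) ≤ κ' * s)
    (hsep : ∀ i ∈ J, ∀ j ∈ J, i ≠ j → ∀ v ∈ W i, ∀ w ∈ W j, 6 * s < nm (v - w))
    {F : ι → Cfg → ℝ} (hF0 : ∀ i ∈ J, ∀ ω, 0 ≤ F i ω)
    (hF : ∀ i ∈ J, Loc (H199.nbh (W i) s) (F i)) (κ : Cfg) :
    ∏ i ∈ J, ∫ ω, fz (W i) κ ω * F i ω ∂P ≤
        H199.Cw Λ κ' c J.card * ∫ ω, fz (J.biUnion W) κ ω * ∏ i ∈ J, F i ω ∂P ∧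
      ∫ ω, fz (J.biUnion W) κ ω * ∏ i ∈ J, F i ω ∂P ≤
        H199.Cw Λ κ' c J.card * ∏ i ∈ J, ∫ ω, fz (W i) κ ω * F i ω ∂P := by
  have hΛ : 2 ≤ Λ := hR.1
  have key := H199.walls_lim hP hQ hR hκ hs J hW hsep (F := fun i ω => fz (W i) κ ω * F i ω)
    (fun i hi ω => mul_nonneg (fz_nonneg _ _ _) (hF0 i hi ω)) (fun i hi ω ω' h => by
      have e1 : fz (W i) κ ω = fz (W i) κ ω' :=
        fz_congr fun v hv => h v (H199.subset_nbh (by omega) hv)
      show fz (W i) κ ω * F i ω = fz (W i) κ ω' * F i ω'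
      rw [e1, hF i hi ω ω' h])
  have e : ∀ ω, fz (J.biUnion W) κ ω * ∏ i ∈ J, F i ω = ∏ i ∈ J, (fz (W i) κ ω * F i ω) := by
    intro ω
    rw [fz_biUnion, prod_mul_distrib]
  simp only [e]
  exact key

/-! ### Jensen -/

theorem rpow_tangent {c m x : ℝ} (hc : 0 < c) :
    c ^ m + (x - m) * (c ^ m * Real.log c) ≤ c ^ x := by
  have h1 := Real.add_one_le_exp ((x - m) * Real.log c)
  have h2 : c ^ x = c ^ m * Real.exp ((x - m) * Real.log c) := by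
    rw [Real.rpow_def_of_pos hc, Real.rpow_def_of_pos hc, ← Real.exp_add]
    congr 1
    ring
  have h3 : 0 < c ^ m := Real.rpow_pos_of_pos hc m
  rw [h2]
  nlinarith

/-- **Jensen**: a lower bound for `∫ w c ^ N` from an upper bound for `∫ w N`. -/
theorem jensen {w N : Cfg → ℝ} (hw : ∀ ω, 0 ≤ w ω) (iw : Integrable w P)
    (iN : Integrable (fun ω => w ω * N ω) P) {c : ℝ} (hc : 0 < c) (hc1 : c ≤ 1)
    (ic : Integrable (fun ω => w ω * c ^ N ω) P) {m : ℝ}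
    (h : ∫ ω, w ω * N ω ∂P ≤ m * ∫ ω, w ω ∂P) :
    c ^ m * ∫ ω, w ω ∂P ≤ ∫ ω, w ω * c ^ N ω ∂P := by
  have h1 : ∫ ω, (w ω * (c ^ m + (N ω - m) * (c ^ m * Real.log c))) ∂P ≤
      ∫ ω, w ω * c ^ N ω ∂P := by
    refine integral_mono ?_ ic fun ω => mul_le_mul_of_nonneg_left (rpow_tangent hc) (hw ω)
    have e : (fun ω => w ω * (c ^ m + (N ω - m) * (c ^ m * Real.log c))) =
        fun ω => w ω * (c ^ m - m * (c ^ m * Real.log c)) +
          w ω * N ω * (c ^ m * Real.log c) := by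
      funext ω
      ring
    rw [e]
    exact (iw.mul_const _).add (iN.mul_const _)
  refine le_trans ?_ h1
  have e : (fun ω => w ω * (c ^ m + (N ω - m) * (c ^ m * Real.log c))) =
      fun ω => w ω * (c ^ m - m * (c ^ m * Real.log c)) +
        w ω * N ω * (c ^ m * Real.log c) := by
    funext ω
    ring
  rw [e, integral_add (iw.mul_const _) (iN.mul_const _), integral_mul_const, integral_mul_const]
  have h2 : Real.log c ≤ 0 := Real.log_nonpos hc.le hc1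
  have h3 : 0 < c ^ m := Real.rpow_pos_of_pos hc m
  have h4 : c ^ m * Real.log c ≤ 0 := mul_nonpos_of_nonneg_of_nonpos h3.le h2
  nlinarith [mul_le_mul_of_nonpos_right h h4]

/-- **Lower bound for weights of the form `T c ^ N` on an event of large probability.** -/
theorem lower {T N G : Cfg → ℝ} (hT : ∀ ω, 0 ≤ T ω) (hN : ∀ ω, 0 ≤ N ω) (hG0 : ∀ ω, 0 ≤ G ω)
    (hG1 : ∀ ω, G ω ≤ 1) (iN : Integrable (fun ω => T ω * N ω) P)
    (iG : Integrable (fun ω => T ω * G ω) P) (iGN : Integrable (fun ω => T ω * G ω * N ω) P)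
    {c : ℝ} (hc : 0 < c) (hc1 : c ≤ 1) (ic : Integrable (fun ω => T ω * G ω * c ^ N ω) P)
    {m : ℝ} (hm : 0 ≤ m) (h : ∫ ω, T ω * N ω ∂P ≤ m * ∫ ω, T ω ∂P)
    (hg : 1 / 2 * ∫ ω, T ω ∂P ≤ ∫ ω, T ω * G ω ∂P) :
    1 / 2 * c ^ (2 * m) * ∫ ω, T ω ∂P ≤ ∫ ω, T ω * G ω * c ^ N ω ∂P := by
  have h1 : ∫ ω, T ω * G ω * N ω ∂P ≤ 2 * m * ∫ ω, T ω * G ω ∂P := by
    calc ∫ ω, T ω * G ω * N ω ∂P ≤ ∫ ω, T ω * N ω ∂P := by
          refine integral_mono iGN iN fun ω => ?_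
          show T ω * G ω * N ω ≤ T ω * N ω
          refine mul_le_mul_of_nonneg_right ?_ (hN ω)
          have := mul_le_mul_of_nonneg_left (hG1 ω) (hT ω)
          linarith
      _ ≤ m * ∫ ω, T ω ∂P := h
      _ = 2 * m * (1 / 2 * ∫ ω, T ω ∂P) := by ring
      _ ≤ _ := mul_le_mul_of_nonneg_left hg (by positivity)
  have h2 := jensen (w := fun ω => T ω * G ω) (fun ω => mul_nonneg (hT ω) (hG0 ω)) iG iGN hc hc1 ic
    h1
  refine le_trans ?_ h2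
  have h3 : 0 < c ^ (2 * m) := Real.rpow_pos_of_pos hc _
  nlinarith [mul_le_mul_of_nonneg_left hg h3.le]

end Vale.Agent.P167.H506.Q
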