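import Vale.Agent.P167.H506.Q.Sp6
import Vale.Agent.P167.H398.Q.ODefs

/-!
# P167, general `q`: `H398.Q.P1c`
-/

namespace Vale.Agent.P167.H506.Q

/-- **`H398.Q.P1c`**. -/
theorem p1cS {θ : ℝ} (h0 : 0 < θ) (h1 : θ ≤ Real.pi / 3) (hR : FK.RSW (2 * Real.cos θ)) :
    H398.Q.P1c θ := p1c h0 h1 hR

end Vale.Agent.P167.H506.Q
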