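import Vale.Agent.P167.H506.Q.S2F
import Vale.Agent.P167.H398.Q.Fin
import Vale.Agent.P167.H945.S.SFin

/-!
# P167, general `q`: block 2A from `L1S`, `L2S`, `P2S`
-/

namespace Vale.Agent.P167.H506.Q

open MeasureTheory Vale.Agent.P167.FK
open Vale.Agent.P167.H519 (IsLim)
open Vale.Agent.P167.H825.Q (S2aQq)
open Vale.Agent.P167.H945.Q (Zp)
open Vale.Agent.P167.H680.T (STARTR)
open Vale.Agent.P167.H398.Q (L1S L2S P2S H2S H6S H7S startr_fin)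

variable {θ β : ℝ} {P : Measure Cfg}

/-- **`H2S`**, unconditional. -/
theorem h2sU (h0 : 0 < θ) (h1 : θ ≤ Real.pi / 3)
    (hβ : β = (θ - Real.pi) / 2 ∨ β = (Real.pi - 3 * θ) / 2) (hP : IsLim (2 * Real.cos θ) P) :
    H2S θ β P :=
  H945.S.h2s h0 h1 hβ (K8.k_rsw θ h0.le h1) (p1bU h0 h1) hP (H199.good_aeQ h0.le h1 hP h0)

/-- **START from `L1S`, `L2S`, `P2S`.** -/
theorem startr_3 (h0 : 0 < θ) (h1 : θ ≤ Real.pi / 3)
    (hβ : β = (θ - Real.pi) / 2 ∨ β = (Real.pi - 3 * θ) / 2) (hP : IsLim (2 * Real.cos θ) P)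
    (hL1 : L1S θ β) (hL2 : L2S θ β) (hP2 : P2S θ β P) : STARTR θ β P (Zp θ P) :=
  startr_fin h0 h1 hβ hP hL1 hL2 hP2 (h2sU h0 h1 hβ hP) (p3SU h0 h1 hβ hP)

/-- **The output of block 2A from `L1S`, `L2S`, `P2S`.** -/
theorem s2aQq_3 (h0 : 0 < θ) (h1 : θ ≤ Real.pi / 3)
    (hβ : β = (θ - Real.pi) / 2 ∨ β = (Real.pi - 3 * θ) / 2) (hP : IsLim (2 * Real.cos θ) P)
    (hL1 : L1S θ β) (hL2 : L2S θ β) (hP2 : P2S θ β P) : S2aQq θ β :=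
  s2aQq_of_start h0 h1 hβ hP (startr_3 h0 h1 hβ hP hL1 hL2 hP2)

end Vale.Agent.P167.H506.Q
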