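import Vale.Agent.P167.H506.Q.S2G
import Vale.Agent.P167.H662.L.Lay7
import Vale.Agent.P167.H662.D2.E
import Vale.Agent.P167.H680.S.L2F
import Vale.Agent.P167.QX.S8
import Vale.Agent.P167.H704.S.Fin

/-!
# P167, general `q`: the output of block 2A, without any hypothesis
-/

namespace Vale.Agent.P167.H506.Q

open MeasureTheory Vale.Agent.P167.FK
open Vale.Agent.P167.H519 (IsLim)
open Vale.Agent.P167.H825.Q (S2aQq)
open Vale.Agent.P167.H945.Q (Zp)
open Vale.Agent.P167.H680.T (STARTR)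

variable {θ β : ℝ} {P : Measure Cfg}

/-- **START.** -/
theorem startr (h0 : 0 < θ) (h1 : θ ≤ Real.pi / 3)
    (hβ : β = (θ - Real.pi) / 2 ∨ β = (Real.pi - 3 * θ) / 2) (hP : IsLim (2 * Real.cos θ) P) :
    STARTR θ β P (Zp θ P) :=
  startr_3 h0 h1 hβ hP (QX.l1S h0 h1 hβ)
    (H680.S.l2s_d h0 h1 hβ (H662.D2.frameD h0 h1 hβ)) (H704.S.p2s h0 h1 hβ hP)

/-- **The output of block 2A.** -/
theorem s2aQq (h0 : 0 < θ) (h1 : θ ≤ Real.pi / 3)
    (hβ : β = (θ - Real.pi) / 2 ∨ β = (Real.pi - 3 * θ) / 2) : S2aQq θ β := by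
  have hc1 : 1 ≤ 2 * Real.cos θ := by
    have := Real.cos_le_cos_of_nonneg_of_le_pi h0.le (by linarith [Real.pi_pos]) h1
    rw [Real.cos_pi_div_three] at this
    linarith
  obtain ⟨P, hP⟩ := H662.L.exists_isLim hc1 (K8.k_rsw θ h0.le h1)
  exact s2aQq_of_start h0 h1 hβ hP (startr h0 h1 hβ hP)

end Vale.Agent.P167.H506.Q
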