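import Vale.Agent.P167.H871.Q.AltT
import Vale.Agent.P167.H506.Q.Loc3

/-!
# P167, general `q`, block Q-NORM: the strands over a special point, radii and diameters
-/

namespace Vale.Agent.P167.H506.Q

open Finset MeasureTheory Vale.Agent.P167.FK Vale.Agent.P167.FKA
open Vale.Agent.P167.BR (be)
open Vale.Agent.P167.XDL (bS mem_bS)
open Vale.Agent.P167.H166 (bxx mem_bxx)
open Vale.Agent.P167.H562.QM (MajA OneC Nr)
open Vale.Agent.P167.H199 (strand ret Returns mem_strand ret_min ret_le self_mem_strand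
  strand_unique)
open Vale.Agent.P167.H825.Q (Row)
open Vale.Agent.P167.H945.Q (face faces lrs)
open Vale.Agent.P167.H871.Q (Rays Stays rays_row faces_bS row_pot rqr w0 w1 isC_w1 idx_face
  idx_face' mem_lrs alt_tip alt_jn rqr_polygon rqr_encloses)

variable {r : Row} {b : Bool} {ω : Cfg} {B B' Z : Finset (ℤ × ℤ)} {e x : Ed}
  {I : Finset (ℤ × ℤ)} {A A' : Finset Ed}

/-! ### segments -/

theorem strand_seg {S : Finset Ed} (h : Returns (nx ω) S e) :
    H945.IsSeg ω (strand (nx ω) S e) := by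
  refine ⟨e, ret (nx ω) S e - 1, fun a => ?_⟩
  have h1 := h.spec.1
  rw [mem_strand]
  constructor
  · rintro ⟨k, hk, h2⟩
    exact ⟨k, by omega, h2⟩
  · rintro ⟨k, hk, h2⟩
    exact ⟨k, by omega, h2⟩

theorem lrs_mono (h : B ⊆ B') : lrs I A A' B ω ⊆ lrs I A A' B' ω := by
  intro e he
  rw [mem_lrs] at he ⊢
  obtain ⟨h1, h2, h3, h4, h5, h6⟩ := he
  exact ⟨h1, h2, h3, h4, h5, fun x hx => h (h6 x hx)⟩

/-- The strands in both directions. -/
noncomputable def ov (I : Finset (ℤ × ℤ)) (A A' : Finset Ed) (B : Finset (ℤ × ℤ)) (ω : Cfg) :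
    Finset Ed := lrs I A A' B ω ∪ lrs I A' A B ω

theorem ov_card (hA : Disjoint A A') : (ov I A A' B ω).card =
    (lrs I A A' B ω).card + (lrs I A' A B ω).card := by
  unfold ov
  refine card_union_of_disjoint (disjoint_left.2 fun e h1 h2 => ?_)
  exact disjoint_left.1 hA (mem_lrs.1 h1).1 (mem_lrs.1 h2).1

theorem mem_ov (he : e ∈ ov I A A' B ω) : e ∈ bS I ∧ hdv e ∉ I ∧ Returns (nx ω) (bS I) e ∧
    ∀ x ∈ strand (nx ω) (bS I) e, hdv x ∈ B := by
  rcases mem_union.1 he with h | h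
  · obtain ⟨-, h2, h3, h4, -, h6⟩ := mem_lrs.1 h
    exact ⟨h2, h3, h4, h6⟩
  · obtain ⟨-, h2, h3, h4, -, h6⟩ := mem_lrs.1 h
    exact ⟨h2, h3, h4, h6⟩

theorem strand_inj {S : Finset Ed} {e e' : Ed} (he : e ∈ S) (he' : e' ∈ S)
    (hr : Returns (nx ω) S e) (h : strand (nx ω) S e = strand (nx ω) S e') : e = e' :=
  strand_unique (s_nx ω).1 he he' (self_mem_strand hr) (h ▸ self_mem_strand hr)

/-- A family of strands of large diameter. -/
theorem card_le_maj {S : Finset Ed} {F : Finset Ed} {d : ℝ} {N : ℕ} (hN : MajA Z d ω N)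
    (hF : ∀ e ∈ F, e ∈ S ∧ Returns (nx ω) S e ∧ (∃ x ∈ strand (nx ω) S e, hdv x ∈ Z) ∧
      ∃ e1 ∈ strand (nx ω) S e, ∃ e2 ∈ strand (nx ω) S e, d ≤ (nm (hdv e1 - hdv e2) : ℝ)) :
    F.card ≤ N := by
  classical
  have hinj : Set.InjOn (fun e => strand (nx ω) S e) F := by
    intro e he e' he' h
    exact strand_inj (hF e he).1 (hF e' he').1 (hF e he).2.1 h
  rw [← card_image_of_injOn hinj]
  refine hN _ ?_ ?_ ?_
  · intro γ hγ
    obtain ⟨e, he, rfl⟩ := mem_image.1 hγ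
    exact strand_seg (hF e he).2.1
  · intro γ hγ γ' hγ' hne
    obtain ⟨e, he, rfl⟩ := mem_image.1 hγ
    obtain ⟨e', he', rfl⟩ := mem_image.1 hγ'
    refine disjoint_left.2 fun x h1 h2 => hne ?_
    rw [strand_unique (s_nx ω).1 (hF e he).1 (hF e' he').1 h1 h2]
  · intro γ hγ
    obtain ⟨e, he, rfl⟩ := mem_image.1 hγ
    exact (hF e he).2.2

/-- **The number of the new strands.** -/
theorem ov_new {d : ℝ} {N : ℕ} (hZ : B' ⊆ Z) (hN : MajA Z d ω N)
    (hd : ∀ e ∈ ov I A A' B' ω, (∃ x ∈ strand (nx ω) (bS I) e, hdv x ∉ B) →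
      ∃ e1 ∈ strand (nx ω) (bS I) e, ∃ e2 ∈ strand (nx ω) (bS I) e,
        d ≤ (nm (hdv e1 - hdv e2) : ℝ)) :
    (ov I A A' B' ω).card ≤ (ov I A A' B ω).card + N := by
  classical
  have h1 : (ov I A A' B' ω) ⊆ (ov I A A' B ω) ∪ (ov I A A' B' ω \ ov I A A' B ω) := by
    intro e he
    rw [mem_union, mem_sdiff]
    by_cases h : e ∈ ov I A A' B ω
    · exact Or.inl h
    · exact Or.inr ⟨he, h⟩
  refine (card_le_card h1).trans ((card_union_le _ _).trans (Nat.add_le_add_left ?_ _))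
  refine card_le_maj hN (S := bS I) fun e he => ?_
  obtain ⟨h2, h3⟩ := mem_sdiff.1 he
  obtain ⟨h4, h5, h6, h7⟩ := mem_ov h2
  refine ⟨h4, h6, ⟨e, self_mem_strand h6, hZ (h7 e (self_mem_strand h6))⟩, hd e h2 ?_⟩
  by_contra hno
  push Not at hno
  apply h3
  unfold ov at h2 ⊢
  rw [mem_union] at h2 ⊢
  rcases h2 with h | h
  · left
    rw [mem_lrs] at h ⊢
    exact ⟨h.1, h.2.1, h.2.2.1, h.2.2.2.1, h.2.2.2.2.1, hno⟩
  · right
    rw [mem_lrs] at h ⊢
    exact ⟨h.1, h.2.1, h.2.2.1, h.2.2.2.1, h.2.2.2.2.1, hno⟩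

/-- The number of all strands. -/
theorem ov_small {x : ℤ × ℤ} {R : ℤ} (h : B ⊆ Bq x R) :
    (ov I A A' B ω).card ≤ 4 * (2 * R.toNat) ^ 2 := by
  refine card_le_maj (maj_small (x := x) R 0 ω) (S := bS I) fun e he => ?_
  obtain ⟨h4, h5, h6, h7⟩ := mem_ov he
  exact ⟨h4, h6, ⟨e, self_mem_strand h6, h (h7 e (self_mem_strand h6))⟩,
    e, self_mem_strand h6, e, self_mem_strand h6, by
      have := H45.nm_nonneg (hdv e - hdv e)
      exact_mod_cast this⟩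

/-! ### diameters -/

theorem nm_hd_tl (e : Ed) : nm (hdv e - tlv e) = 1 := by
  rcases e with ⟨i, j⟩ | ⟨i, j⟩ <;> simp only [hdv, tlv] <;> split_ifs <;> simp [nm]

theorem lrs_tl (hA : A ⊆ bS I) (he : e ∈ lrs I A A' B ω) : tlv e ∈ I := by
  obtain ⟨h1, -, h3, -⟩ := mem_lrs.1 he
  have := hA h1
  rw [mem_bS] at this
  rcases this with h | h
  · exact absurd h.1 h3
  · exact h.2

/-- The line of the row. -/
theorem line_row {v : ℤ × ℤ} (h : v ∈ r.I) : if r.o then v.2 = r.x.2 else v.1 = r.x.1 := by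
  unfold Row.I at h
  obtain ⟨k, -, rfl⟩ := mem_image.1 h
  unfold Row.sq
  split_ifs <;> rfl

/-- **A strand over an end which stays far from the end does not exist.** -/
theorem tip_reach (hL : 1 ≤ r.L) {D : ℤ} (hD : 1 ≤ D)
    (he : e ∈ ov r.I (faces r b 0 r.L) (faces r (!b) 0 r.L) B ω)
    (h0 : D < nm (w0 r b - hdv e)) (h1 : D < nm (w1 r b - hdv e)) :
    ∃ x ∈ strand (nx ω) (bS r.I) e, D < nm (hdv x - hdv e) := by
  by_contra hno
  push Not at hno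
  have htl : tlv e ∈ r.I := by
    rcases mem_union.1 he with h | h
    · exact lrs_tl (faces_bS hL le_rfl) h
    · exact lrs_tl (faces_bS hL le_rfl) h
  obtain ⟨-, hout, hr, -⟩ := mem_ov he
  obtain ⟨Q, hQ⟩ : ∃ Q : Finset (ℤ × ℤ), Q = Ico ((hdv e).1 - D) ((hdv e).1 + D + 1) ×ˢ
    Ico ((hdv e).2 - D) ((hdv e).2 + D + 1) := ⟨_, rfl⟩
  have hmem : ∀ v : ℤ × ℤ, v ∈ Q ↔ nm (v - hdv e) ≤ D := by
    intro v
    rw [hQ, mem_product, mem_Ico, mem_Ico]
    simp only [nm, Prod.fst_sub, Prod.snd_sub, max_le_iff, abs_le]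
    omega
  have hl := line_row htl
  have h2 := nm_hd_tl e
  simp only [nm, Prod.fst_sub, Prod.snd_sub] at h2
  have h3 : |(hdv e).1 - (tlv e).1| ≤ 1 := by rw [← h2]; exact le_max_left _ _
  have h4 : |(hdv e).2 - (tlv e).2| ≤ 1 := by rw [← h2]; exact le_max_right _ _
  rw [abs_le] at h3 h4
  have hR : Rays r.I (Q : Set (ℤ × ℤ)) := by
    rw [hQ]
    apply rays_row
    split_ifs at hl ⊢ <;> omega
  have hs : Stays r.I (Q : Set (ℤ × ℤ)) ω e := by
    intro k hk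
    rw [mem_coe, hmem]
    exact hno _ (mem_strand.2 ⟨k, hk, rfl⟩)
  have hw0 : w0 r b ∉ (Q : Set (ℤ × ℤ)) := by
    rw [mem_coe, hmem]
    omega
  have hw1 : w1 r b ∉ (Q : Set (ℤ × ℤ)) := by
    rw [mem_coe, hmem]
    omega
  obtain ⟨i, j, φ, σ, F, -, -, hv, hoff, -⟩ := row_pot (b := b) hL hR hw0 hout htl hr hs
  have h5 := hv r.L (by omega)
  rw [hoff _ hw1 _ (isC_w1 hL)] at h5
  rcases mem_union.1 he with h | h
  · obtain ⟨g1, -, -, -, g2, -⟩ := mem_lrs.1 h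
    rw [F.e1] at g1
    rw [F.e2] at g2
    obtain ⟨k1, -, -⟩ := idx_face hL F.hi g1 le_rfl
    obtain ⟨k2, -⟩ := idx_face' hL F.hj g2
    rw [if_pos k1, if_neg (by omega)] at h5
    omega
  · obtain ⟨g1, -, -, -, g2, -⟩ := mem_lrs.1 h
    rw [F.e1] at g1
    rw [F.e2] at g2
    obtain ⟨k1, -, -⟩ := idx_face hL F.hj g2 le_rfl
    obtain ⟨k2, -⟩ := idx_face' hL F.hi g1
    rw [if_neg (by omega), if_pos k1] at h5
    omega

end Vale.Agent.P167.H506.Q
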