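import Vale.Agent.P167.H506.Q.Sp1

/-!
# P167, general `q`, block Q-NORM: the strands over a special point, radial families
-/

namespace Vale.Agent.P167.H506.Q

open Finset MeasureTheory Vale.Agent.P167.FK Vale.Agent.P167.FKA
open Vale.Agent.P167.BR (be)
open Vale.Agent.P167.XDL (bS mem_bS)
open Vale.Agent.P167.H166 (bxx mem_bxx)
open Vale.Agent.P167.H562.QM (MajA OneC Nr)
open Vale.Agent.P167.H199 (strand ret Returns mem_strand ret_min ret_le self_mem_strand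
  strand_unique)
open Vale.Agent.P167.H825.Q (Row)
open Vale.Agent.P167.H945.Q (face faces lrs)
open Vale.Agent.P167.H871.Q (Rays Stays rays_row faces_bS row_pot rqr w0 w1 sqm isC_w1 idx_face
  idx_face' mem_lrs alt_tip alt_jn rqr_polygon rqr_encloses)

variable {r : Row} {b : Bool} {ω : Cfg} {e x : Ed} {c : ℤ × ℤ} {bx : ℤ → Finset (ℤ × ℤ)}
  {R R' : ℤ}

/-- A family of boxes around `c`. -/
structure BF (c : ℤ × ℤ) (bx : ℤ → Finset (ℤ × ℤ)) : Prop where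
  sub : ∀ R, Bq c (R - 1) ⊆ bx R
  sup : ∀ R, bx R ⊆ Bq c (R + 1)
  mono : ∀ R R', R ≤ R' → bx R ⊆ bx R'
  ico : ∀ R, ∃ a1 b1 a2 b2 : ℤ, bx R = Ico a1 b1 ×ˢ Ico a2 b2

/-- The centre at the end `w1`. -/
def tc (r : Row) (b : Bool) : ℤ × ℤ := if r.o = b then r.sq 0 else r.sq (r.L - 1)

theorem nm_tri (a b c : ℤ × ℤ) : nm (a - c) ≤ nm (a - b) + nm (b - c) := H45.nm_sub_le a b c

theorem nm_symm (a b : ℤ × ℤ) : nm (a - b) = nm (b - a) := by
  simp only [nm, Prod.fst_sub, Prod.snd_sub]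
  rw [abs_sub_comm a.1, abs_sub_comm a.2]

theorem nm_w1 (hL : 1 ≤ r.L) : nm (w1 r b - tc r b) = 1 := by
  unfold w1 tc sqm Row.sq nm
  cases hb : b <;> by_cases h : r.o = true <;> simp [h] <;> (push_cast [hL]; simp)

theorem nm_w0 (hL : 1 ≤ r.L) : nm (w0 r b - tc r b) = r.L := by
  unfold w0 tc sqm Row.sq nm
  have h1 : |(-1 : ℤ) - ((r.L - 1 : ℕ) : ℤ)| = r.L := by
    rw [abs_of_nonpos (by omega)]
    omega
  cases hb : b <;> by_cases h : r.o = true <;> simp [h] <;> exact h1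

theorem not_bx (hb : BF c bx) {v : ℤ × ℤ} (h : v ∉ bx R) : R - 1 ≤ nm (v - c) := by
  by_contra hlt
  push Not at hlt
  exact h (hb.sub R (bq_of_nm hlt))

theorem nm_bx (hb : BF c bx) {v : ℤ × ℤ} (h : v ∈ bx R) : nm (v - c) ≤ R + 1 :=
  nm_of_bq (hb.sup R h)

theorem quarter {D : ℤ} (h : D = R / 4) {n : ℤ} (hn : D < n) : (R : ℝ) / 4 ≤ (n : ℝ) := by
  have h1 : R ≤ 4 * n := by omega
  have h2 : (R : ℝ) ≤ 4 * n := by exact_mod_cast h1
  linarith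

/-- **The diameter of the new strands over an end.** -/
theorem tip_diam (hL : 1 ≤ r.L) (hb : BF (tc r b) bx) (hR : 8 ≤ R) (hRR : R ≤ R')
    (hRL : 8 * R' ≤ r.L) (he : e ∈ ov r.I (faces r b 0 r.L) (faces r (!b) 0 r.L) (bx R') ω)
    (hx : ∃ x ∈ strand (nx ω) (bS r.I) e, hdv x ∉ bx R) :
    ∃ e1 ∈ strand (nx ω) (bS r.I) e, ∃ e2 ∈ strand (nx ω) (bS r.I) e,
      (R : ℝ) / 4 ≤ (nm (hdv e1 - hdv e2) : ℝ) := by
  obtain ⟨D, hD⟩ : ∃ D : ℤ, D = R / 4 := ⟨_, rfl⟩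
  obtain ⟨-, -, hr, hs⟩ := mem_ov he
  have h1 := nm_bx hb (hs e (self_mem_strand hr))
  have h2 := nm_w0 (r := r) (b := b) hL
  have h3 := nm_tri (w0 r b) (hdv e) (tc r b)
  by_cases h4 : D < nm (w1 r b - hdv e)
  · obtain ⟨y, hy, h5⟩ := tip_reach hL (D := D) (by omega) he (by omega) h4
    exact ⟨y, hy, e, self_mem_strand hr, quarter hD h5⟩
  · obtain ⟨x, hx, h5⟩ := hx
    refine ⟨x, hx, e, self_mem_strand hr, quarter hD ?_⟩
    have h6 := not_bx hb h5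
    have h7 := nm_tri (hdv x) (hdv e) (tc r b)
    have h8 := nm_tri (hdv e) (w1 r b) (tc r b)
    have h9 := nm_w1 (r := r) (b := b) hL
    have h10 := nm_symm (hdv e) (w1 r b)
    omega

/-- The coordinate along the row. -/
def al (r : Row) (v : ℤ × ℤ) : ℤ := if r.o then v.1 - r.x.1 else v.2 - r.x.2

theorem al_nm (v w : ℤ × ℤ) : |al r v - al r w| ≤ nm (v - w) := by
  unfold al nm
  split_ifs
  · rw [sub_sub_sub_cancel_right]; exact le_max_left _ _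
  · rw [sub_sub_sub_cancel_right]; exact le_max_right _ _

theorem al_face {k : ℕ} : al r (hdv (face r b k)) = k ∧ al r (tlv (face r b k)) = k := by
  unfold al face Row.sq
  cases ho : r.o <;> cases b <;> simp [hdv, tlv] <;> split_ifs <;> simp

theorem al_sq {k : ℕ} : al r (r.sq k) = k := by
  unfold al Row.sq
  split_ifs <;> simp

theorem nm_face {k : ℕ} {v : ℤ × ℤ} (h : v = hdv (face r b k) ∨ v = tlv (face r b k)) (l : ℕ) :
    nm (v - r.sq l) ≤ max |(k : ℤ) - l| 1 := by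
  rcases h with rfl | rfl
  all_goals
    unfold face Row.sq nm
    cases ho : r.o <;> cases b <;> simp [hdv, tlv] <;> split_ifs <;> simp <;> exact le_total _ _

theorem mem_faces {lo hi : ℕ} : e ∈ faces r b lo hi ↔ ∃ k, lo ≤ k ∧ k < hi ∧ face r b k = e := by
  unfold faces
  rw [mem_image]
  constructor
  · rintro ⟨k, h1, h2⟩
    rw [mem_Ico] at h1
    exact ⟨k, h1.1, h1.2, h2⟩
  · rintro ⟨k, h1, h2, h3⟩
    exact ⟨k, by rw [mem_Ico]; omega, h3⟩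

/-- **The diameter of the new strands over a point of a face.** -/
theorem jn_diam {k0 : ℕ} (hb : BF (r.sq k0) bx) (hR : 8 ≤ R)
    (he : e ∈ ov r.I (faces r b 0 k0) (faces r b k0 r.L) (bx R') ω)
    (hx : ∃ x ∈ strand (nx ω) (bS r.I) e, hdv x ∉ bx R) :
    ∃ e1 ∈ strand (nx ω) (bS r.I) e, ∃ e2 ∈ strand (nx ω) (bS r.I) e,
      (R : ℝ) / 4 ≤ (nm (hdv e1 - hdv e2) : ℝ) := by
  obtain ⟨D, hD⟩ : ∃ D : ℤ, D = R / 4 := ⟨_, rfl⟩
  obtain ⟨-, -, hr, -⟩ := mem_ov he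
  -- the last square
  obtain ⟨m, hm⟩ : ∃ m, ret (nx ω) (bS r.I) e = m + 1 :=
    ⟨_, (Nat.sub_add_cancel hr.spec.1).symm⟩
  have hz : (nx ω)^[m] e ∈ strand (nx ω) (bS r.I) e := mem_strand.2 ⟨m, by omega, rfl⟩
  have hzt : tlv ((nx ω)^[ret (nx ω) (bS r.I) e] e) = hdv ((nx ω)^[m] e) := by
    rw [hm, Function.iterate_succ_apply', tlv_nx]
  obtain ⟨k, l, h1, h2, h3, h4, h5⟩ : ∃ k l : ℕ, al r (hdv e) = k ∧
      al r (hdv ((nx ω)^[m] e)) = l ∧ nm (hdv e - r.sq k0) ≤ max |(k : ℤ) - k0| 1 ∧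
      ((k < k0 ∧ k0 ≤ l) ∨ (l < k0 ∧ k0 ≤ k)) ∧ True := by
    rcases mem_union.1 he with h | h
    · obtain ⟨g1, -, -, -, g2, -⟩ := mem_lrs.1 h
      obtain ⟨k, a1, a2, a3⟩ := mem_faces.1 g1
      obtain ⟨l, b1, b2, b3⟩ := mem_faces.1 g2
      refine ⟨k, l, by rw [← a3]; exact al_face.1, ?_, ?_, Or.inl ⟨a2, b1⟩, trivial⟩
      · rw [← hzt, ← b3]; exact al_face.2
      · rw [← a3]; exact nm_face (Or.inl rfl) k0
    · obtain ⟨g1, -, -, -, g2, -⟩ := mem_lrs.1 h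
      obtain ⟨k, a1, a2, a3⟩ := mem_faces.1 g1
      obtain ⟨l, b1, b2, b3⟩ := mem_faces.1 g2
      refine ⟨k, l, by rw [← a3]; exact al_face.1, ?_, ?_, Or.inr ⟨b2, a1⟩, trivial⟩
      · rw [← hzt, ← b3]; exact al_face.2
      · rw [← a3]; exact nm_face (Or.inl rfl) k0
  by_cases h6 : D < nm (hdv ((nx ω)^[m] e) - hdv e)
  · exact ⟨_, hz, e, self_mem_strand hr, quarter hD h6⟩
  · obtain ⟨x, hx, h7⟩ := hx
    refine ⟨x, hx, e, self_mem_strand hr, quarter hD ?_⟩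
    have h8 := not_bx hb h7
    have h9 := nm_tri (hdv x) (hdv e) (r.sq k0)
    have h10 := al_nm (r := r) (hdv ((nx ω)^[m] e)) (hdv e)
    rw [h1, h2] at h10
    have h11 : |(k : ℤ) - k0| ≤ D := by
      rw [abs_le] at h10 ⊢
      omega
    have h12 : max |(k : ℤ) - k0| 1 ≤ D := max_le h11 (by omega)
    omega

/-! ### products -/

theorem alt_anti {w w' M : ℝ} (hw : 0 < w) (hw' : 0 < w') (hww : w * w' ≤ 1) (hM : w ≤ M)
    (hM' : w' ≤ M) (hM1 : 1 ≤ M) {a b a' b' : ℕ} (ha : a ≤ a') (hb : b ≤ b')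
    (h : |(a : ℤ) - b| ≤ 3) (h' : |(a' : ℤ) - b'| ≤ 3) :
    w ^ a' * w' ^ b' ≤ M ^ 6 * (w ^ a * w' ^ b) := by
  obtain ⟨i, rfl⟩ := Nat.exists_eq_add_of_le ha
  obtain ⟨j, rfl⟩ := Nat.exists_eq_add_of_le hb
  rw [abs_le] at h h'
  push_cast at h'
  have key : w ^ i * w' ^ j ≤ M ^ 6 := by
    rcases le_total i j with hij | hij
    · obtain ⟨l, rfl⟩ := Nat.exists_eq_add_of_le hij
      calc w ^ i * w' ^ (i + l) = (w * w') ^ i * w' ^ l := by rw [pow_add, mul_pow]; ring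
        _ ≤ 1 * M ^ l := mul_le_mul (pow_le_one₀ (by positivity) hww)
            (pow_le_pow_left₀ hw'.le hM' l) (by positivity) zero_le_one
        _ ≤ M ^ 6 := by
            rw [one_mul]
            exact pow_le_pow_right₀ hM1 (by push_cast at h'; omega)
    · obtain ⟨l, rfl⟩ := Nat.exists_eq_add_of_le hij
      calc w ^ (j + l) * w' ^ j = (w * w') ^ j * w ^ l := by rw [pow_add, mul_pow]; ring
        _ ≤ 1 * M ^ l := mul_le_mul (pow_le_one₀ (by positivity) hww)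
            (pow_le_pow_left₀ hw.le hM l) (by positivity) zero_le_one
        _ ≤ M ^ 6 := by
            rw [one_mul]
            exact pow_le_pow_right₀ hM1 (by push_cast at h'; omega)
  calc w ^ (a + i) * w' ^ (b + j) = (w ^ i * w' ^ j) * (w ^ a * w' ^ b) := by
        rw [pow_add, pow_add]; ring
    _ ≤ _ := mul_le_mul_of_nonneg_right key (by positivity)

theorem comp_low {w w' c : ℝ} (hc : 0 < c) (hc1 : c ≤ 1) (hw : c ≤ w) (hw' : c ≤ w')
    {a b a' b' N : ℕ} (ha : a ≤ a') (hb : b ≤ b') (h : a' + b' ≤ a + b + N) :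
    c ^ N * (w ^ a * w' ^ b) ≤ w ^ a' * w' ^ b' := by
  obtain ⟨i, rfl⟩ := Nat.exists_eq_add_of_le ha
  obtain ⟨j, rfl⟩ := Nat.exists_eq_add_of_le hb
  have h0 : 0 < w := hc.trans_le hw
  have h0' : 0 < w' := hc.trans_le hw'
  calc c ^ N * (w ^ a * w' ^ b) ≤ c ^ (i + j) * (w ^ a * w' ^ b) :=
        mul_le_mul_of_nonneg_right (pow_le_pow_of_le_one hc.le hc1 (by omega)) (by positivity)
    _ = (c ^ i * c ^ j) * (w ^ a * w' ^ b) := by rw [pow_add]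
    _ ≤ (w ^ i * w' ^ j) * (w ^ a * w' ^ b) := by gcongr
    _ = _ := by rw [pow_add, pow_add]; ring

theorem comp_up {w l : ℝ} (hw : 1 ≤ w) (hl : w ≤ l) {a b a' b' N : ℕ}
    (h : a' + b' ≤ a + b + N) : w ^ a' * w ^ b' ≤ l ^ N * (w ^ a * w ^ b) := by
  have h1 : w ^ N ≤ l ^ N := pow_le_pow_left₀ (by linarith) hl N
  calc w ^ a' * w ^ b' = w ^ (a' + b') := by rw [pow_add]
    _ ≤ w ^ (N + (a + b)) := pow_le_pow_right₀ hw (by omega)
    _ = w ^ N * (w ^ a * w ^ b) := by rw [pow_add, pow_add]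
    _ ≤ _ := mul_le_mul_of_nonneg_right h1 (by positivity)

end Vale.Agent.P167.H506.Q
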