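import Vale.Agent.P167.H506.Q.Sp2

/-!
# P167, general `q`, block Q-NORM: radial families of the factors of the ends and of the growing
junctions
-/

namespace Vale.Agent.P167.H506.Q

open Finset MeasureTheory Vale.Agent.P167.FK Vale.Agent.P167.FKA
open Vale.Agent.P167.XDL (bS mem_bS)
open Vale.Agent.P167.H166 (bxx mem_bxx)
open Vale.Agent.P167.H562.QM (MajA OneC Nr)
open Vale.Agent.P167.H825.Q (Row)
open Vale.Agent.P167.H945.Q (face faces lrs)
open Vale.Agent.P167.H871.Q (Rays Stays rays_row w0 w1 sqm alt_tip alt_jn)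

variable {r : Row} {b : Bool} {ω : Cfg} {c : ℤ × ℤ} {bx : ℤ → Finset (ℤ × ℤ)} {R R' : ℤ}
  {I : Finset (ℤ × ℤ)} {A A' : Finset Ed} {w w' : ℝ} {κ : Cfg}

/-- The factor for a family of boxes. -/
noncomputable def TB (I : Finset (ℤ × ℤ)) (A A' : Finset Ed) (w w' : ℝ)
    (bx : ℤ → Finset (ℤ × ℤ)) (R : ℤ) (ω : Cfg) : ℝ :=
  w ^ (lrs I A A' (bx R) ω).card * w' ^ (lrs I A' A (bx R) ω).card

theorem TB_loc (hb : BF c bx) : Loc (Bq c (R + 1)) (TB I A A' w w' bx R) := by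
  intro ω ω' h
  have h1 : ∀ v ∈ bx R, ω v = ω' v := fun v hv => h v (hb.sup R hv)
  unfold TB
  rw [H871.Q.lrs_congr h1, H871.Q.lrs_congr h1]

theorem TB_loc' (hb : BF c bx) : Loc (Bq c (R + 2) ∪ I) (TB I A A' w w' bx R) := by
  intro ω ω' h
  refine TB_loc hb ω ω' fun v hv => h v (mem_union_left _ ?_)
  rw [mem_bq] at hv ⊢
  omega

theorem bx_sub (hb : BF c bx) (hR : 1 ≤ R) : bx R ⊆ Bq c (2 * R) := by
  intro v hv
  have := hb.sup R hv
  rw [mem_bq] at this ⊢
  omega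

theorem face_ne {k l : ℕ} : face r b k ≠ face r (!b) l := by
  intro h
  have h1 : k = l := by
    have h2 := (al_face (r := r) (b := b) (k := k)).1
    rw [h, al_face.1] at h2
    exact_mod_cast h2.symm
  subst h1
  revert h
  unfold face Row.sq
  cases ho : r.o <;> cases b <;> simp <;> omega

theorem faces_disj {lo hi lo' hi' : ℕ} : Disjoint (faces r b lo hi) (faces r (!b) lo' hi') := by
  refine disjoint_left.2 fun e h1 h2 => ?_
  obtain ⟨k, -, -, h3⟩ := mem_faces.1 h1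
  obtain ⟨l, -, -, h4⟩ := mem_faces.1 h2
  exact face_ne (h3.trans h4.symm)

theorem faces_disj' {lo m hi : ℕ} : Disjoint (faces r b lo m) (faces r b m hi) := by
  refine disjoint_left.2 fun e h1 h2 => ?_
  obtain ⟨k, -, g1, h3⟩ := mem_faces.1 h1
  obtain ⟨l, g2, -, h4⟩ := mem_faces.1 h2
  have h5 := (al_face (r := r) (b := b) (k := k)).1
  rw [h3, ← h4, al_face.1] at h5
  omega

theorem sq_mem' {k : ℕ} (h : k < r.L) : r.sq k ∈ r.I := mem_image_of_mem _ (mem_range.2 h)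

theorem tc_mem (hL : 1 ≤ r.L) : tc r b ∈ r.I := by
  unfold tc
  split_ifs
  · exact sq_mem' (by omega)
  · exact sq_mem' (by omega)

theorem rays_bf (hb : BF c bx) (hc : c ∈ r.I) (hR : 2 ≤ R) :
    Rays r.I (bx R : Set (ℤ × ℤ)) := by
  obtain ⟨a1, b1, a2, b2, h⟩ := hb.ico R
  have h1 : c ∈ bx R := hb.sub R (by rw [mem_bq]; omega)
  rw [h, mem_product, mem_Ico, mem_Ico] at h1
  rw [h]
  apply rays_row
  have h2 := line_row hc
  split_ifs at h2 ⊢ <;> omega

/-- **The factor of an end, decreasing type.** -/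
theorem tip_dec {c0 M : ℝ} (hc : 0 < c0) (hc1 : c0 ≤ 1) (hw : c0 ≤ w) (hw' : c0 ≤ w')
    (hww : w * w' ≤ 1) (hM : w ≤ M) (hM' : w' ≤ M) (hM1 : 1 ≤ M) (hb : BF (tc r b) bx)
    (hR : 8 * R ≤ r.L) :
    RadDec (tc r b) r.I κ c0 (M ^ 6) R
      (TB r.I (faces r b 0 r.L) (faces r (!b) 0 r.L) w w' bx) := by
  have h0 : 0 < w := hc.trans_le hw
  have h0' : 0 < w' := hc.trans_le hw'
  refine ⟨fun s h1 h2 => TB_loc' hb, fun s h1 h2 ω => ?_, fun s h1 h2 ω h3 h4 => ?_,
    fun s s' h1 h2 h3 ω h4 h5 => ?_, fun s s' h1 h2 h3 ω h4 h5 N hN => ?_⟩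
  · unfold TB; positivity
  · unfold TB; positivity
  · have hL : 1 ≤ r.L := by omega
    have hw0 : ∀ t : ℤ, t ≤ R → w0 r b ∉ bx t := by
      intro t ht h
      have h6 := nm_bx hb h
      rw [nm_w0 hL] at h6
      omega
    refine alt_anti h0 h0' hww hM hM' hM1 (card_le_card (lrs_mono (hb.mono _ _ h2)))
      (card_le_card (lrs_mono (hb.mono _ _ h2))) ?_ ?_
    · exact alt_tip hL h4 (rays_bf hb (tc_mem hL) (by omega)) (hw0 s (by omega)) le_rfl
        (fun _ _ h => h)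
    · exact alt_tip hL h4 (rays_bf hb (tc_mem hL) (by omega)) (hw0 s' (by omega)) le_rfl
        (fun _ _ h => h)
  · have hL : 1 ≤ r.L := by omega
    refine comp_low hc hc1 hw hw' (card_le_card (lrs_mono (hb.mono _ _ h2)))
      (card_le_card (lrs_mono (hb.mono _ _ h2))) ?_
    rw [← ov_card faces_disj, ← ov_card faces_disj]
    exact ov_new (bx_sub hb (by omega)) hN fun e he hx =>
      tip_diam hL hb h1 h2 (by omega) he hx

/-- **The factor of a junction, growing type.** -/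
theorem jn_grow {l : ℝ} (hl : 1 ≤ l) {k0 : ℕ} (hb : BF (r.sq k0) bx) :
    RadGrow (r.sq k0) r.I κ l R (TB r.I (faces r b 0 k0) (faces r b k0 r.L) l l bx) := by
  have h0 : 0 < l := by linarith
  have hone : ∀ (s : ℤ) (ω : Cfg),
      1 ≤ TB r.I (faces r b 0 k0) (faces r b k0 r.L) l l bx s ω := fun s ω =>
    one_le_mul_of_one_le_of_one_le (one_le_pow₀ hl) (one_le_pow₀ hl)
  refine ⟨fun s h1 h2 => TB_loc' hb, fun s h1 h2 ω => zero_le_one.trans (hone s ω),
    fun s h1 h2 ω h3 h4 => hone s ω, fun s h1 h2 ω h3 h4 => ?_,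
    fun s s' h1 h2 h3 ω h4 h5 => ?_, fun s s' h1 h2 h3 ω h4 h5 N hN => ?_⟩
  · unfold TB
    rw [← pow_add, ← ov_card faces_disj']
    exact pow_le_pow_right₀ hl (ov_small (bx_sub hb (by omega)))
  · unfold TB
    exact mul_le_mul (pow_le_pow_right₀ hl (card_le_card (lrs_mono (hb.mono _ _ h2))))
      (pow_le_pow_right₀ hl (card_le_card (lrs_mono (hb.mono _ _ h2)))) (by positivity)
      (by positivity)
  · refine comp_up hl le_rfl ?_
    rw [← ov_card faces_disj', ← ov_card faces_disj']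
    exact ov_new (bx_sub hb (by omega)) hN fun e he hx => jn_diam hb h1 he hx

/-- **Bounded type**: the factor of a junction with the weights `w`, `1 / w`. -/
theorem jn_bdd {M : ℝ} (h0 : 0 < w) (hww : w * w' = 1) (hM : w ≤ M) (hM' : w' ≤ M)
    {k0 : ℕ} (hb : BF (r.sq k0) bx) (hR : 2 ≤ R) (hk : R + 2 ≤ k0) (hk' : k0 + R + 2 ≤ r.L)
    (hg : Good ω) : TB r.I (faces r b 0 k0) (faces r b k0 r.L) w w' bx R ω ≤ M ^ 3 ∧
      1 ≤ M ^ 3 * TB r.I (faces r b 0 k0) (faces r b k0 r.L) w w' bx R ω := by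
  have h0' : 0 < w' := by
    by_contra hn
    push Not at hn
    nlinarith
  have hM1 : 1 ≤ M := by
    by_contra hn
    push Not at hn
    have : w * w' < 1 * 1 := mul_lt_mul'' (by linarith) (by linarith) h0.le h0'.le
    linarith
  have hw : ∀ v : ℤ × ℤ, R + 2 ≤ nm (v - r.sq k0) → v ∉ bx R := by
    intro v hv h
    have := nm_bx hb h
    omega
  have hal : ∀ t : ℤ, al r (sqm r t) = t := by
    intro t
    unfold al sqm
    split_ifs <;> simp
  have halw : ∀ t : ℤ, (t = -1 ∨ t = r.L) → R + 2 ≤ nm (sqm r t - r.sq k0) := by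
    intro t ht
    have h1 := al_nm (r := r) (sqm r t) (r.sq k0)
    rw [hal, al_sq] at h1
    rw [abs_le] at h1
    omega
  have halt := alt_jn (r := r) (b := b) (ω := ω) (B := bx R) (I := r.I) (m := k0) (by omega) hg
    (rays_bf hb (sq_mem' (by omega)) hR)
    (hw _ (halw _ (by split_ifs <;> simp)))
    (hw _ (halw _ (by split_ifs <;> simp))) (by omega) le_rfl (fun _ _ h => h)
  unfold TB
  generalize (lrs r.I (faces r b 0 k0) (faces r b k0 r.L) (bx R) ω).card = i at halt ⊢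
  generalize (lrs r.I (faces r b k0 r.L) (faces r b 0 k0) (bx R) ω).card = j at halt ⊢
  rw [abs_le] at halt
  have key : ∀ {u u' : ℝ} {i j : ℕ}, 0 < u → 0 < u' → u * u' = 1 → u ≤ M → u' ≤ M → i ≤ j →
      j ≤ i + 3 → u ^ i * u' ^ j ≤ M ^ 3 ∧ 1 ≤ M ^ 3 * (u ^ i * u' ^ j) := by
    intro u u' i j hu hu' huu h1 h2 h3 h4
    obtain ⟨k, rfl⟩ := Nat.exists_eq_add_of_le h3
    have e1 : u ^ i * u' ^ (i + k) = u' ^ k := by
      rw [pow_add, ← mul_assoc, ← mul_pow, huu, one_pow, one_mul]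
    rw [e1]
    have hk : k ≤ 3 := by omega
    refine ⟨(pow_le_pow_left₀ hu'.le h2 k).trans (pow_le_pow_right₀ hM1 hk), ?_⟩
    calc (1 : ℝ) = (u * u') ^ k := by rw [huu, one_pow]
      _ = u ^ k * u' ^ k := mul_pow _ _ _
      _ ≤ M ^ 3 * u' ^ k := mul_le_mul_of_nonneg_right
          ((pow_le_pow_left₀ hu.le h1 k).trans (pow_le_pow_right₀ hM1 hk)) (by positivity)
  rcases le_total i j with h1 | h1
  · exact key h0 h0' hww hM hM' h1 (by omega)
  · have := key (i := j) (j := i) h0' h0 (by rw [mul_comm]; exact hww) hM' hM h1 (by omega)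
    rw [mul_comm (w ^ i)]
    exact this

end Vale.Agent.P167.H506.Q
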