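import Vale.Agent.P167.H506.Q.Sp3
import Vale.Agent.P167.H506.Q.OneR

/-!
# P167, general `q`, block Q-NORM: the relative weights of the special points
-/

namespace Vale.Agent.P167.H506.Q

open Real
open Vale.Agent.P167.H825.Q (Row)
open Vale.Agent.P167.H945.Q (relw natw tj jn tipL tipR Plain)

variable {θ : ℝ} {r : Row} {b : Bool}

/-! ### trigonometry -/

theorem sin2_pos (h0 : 0 < θ) (h1 : θ ≤ π / 3) : 0 < sin (2 * θ) :=
  sin_pos_of_pos_of_lt_pi (by linarith) (by linarith)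

theorem sin1_pos (h0 : 0 < θ) (h1 : θ ≤ π / 3) : 0 < sin θ :=
  sin_pos_of_pos_of_lt_pi h0 (by linarith)

theorem sinh_pos' (h0 : 0 < θ) (h1 : θ ≤ π / 3) : 0 < sin (θ / 2) :=
  sin_pos_of_pos_of_lt_pi (by linarith) (by linarith)

theorem sin52_pos (h0 : 0 < θ) (h1 : θ ≤ π / 3) : 0 < sin (5 * θ / 2) :=
  sin_pos_of_pos_of_lt_pi (by linarith) (by linarith)

theorem one_le_two_cos (h0 : 0 < θ) (h1 : θ ≤ π / 3) : 1 ≤ 2 * cos θ := by
  have h2 := cos_le_cos_of_nonneg_of_le_pi h0.le (by linarith [pi_pos]) h1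
  rw [cos_pi_div_three] at h2
  linarith

/-- The two weights at the ends. -/
noncomputable def wP (θ : ℝ) : ℝ := sin (5 * θ / 2) / sin (2 * θ)

noncomputable def wD (θ : ℝ) : ℝ := sin (θ / 2) / sin θ

theorem wP_pos (h0 : 0 < θ) (h1 : θ ≤ π / 3) : 0 < wP θ := div_pos (sin52_pos h0 h1) (sin2_pos h0 h1)

theorem wD_pos (h0 : 0 < θ) (h1 : θ ≤ π / 3) : 0 < wD θ := div_pos (sinh_pos' h0 h1) (sin1_pos h0 h1)

theorem wP_wD (h0 : 0 < θ) (h1 : θ ≤ π / 3) : wP θ * wD θ ≤ 1 := by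
  unfold wP wD
  rw [div_mul_div_comm, div_le_one (mul_pos (sin2_pos h0 h1) (sin1_pos h0 h1))]
  have e1 : sin (5 * θ / 2) * sin (θ / 2) = (cos (2 * θ) - cos (3 * θ)) / 2 := by
    have a1 : cos (2 * θ) = cos (5 * θ / 2 - θ / 2) := by congr 1; ring
    have a2 : cos (3 * θ) = cos (5 * θ / 2 + θ / 2) := by congr 1; ring
    rw [a1, a2, cos_sub, cos_add]
    ring
  have e2 : sin (2 * θ) * sin θ = (cos θ - cos (3 * θ)) / 2 := by
    have a1 : cos θ = cos (2 * θ) * cos θ + sin (2 * θ) * sin θ := by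
      rw [← cos_sub]; congr 1; ring
    have a2 : cos (3 * θ) = cos (2 * θ) * cos θ - sin (2 * θ) * sin θ := by
      rw [← cos_add]; congr 1; ring
    linarith
  rw [e1, e2]
  have h2 := cos_le_cos_of_nonneg_of_le_pi h0.le (by linarith [pi_pos]) (show θ ≤ 2 * θ by linarith)
  linarith

theorem relw_tip (h0 : 0 < θ) (h1 : θ ≤ π / 3) {τ : ℝ} (hτ : τ = 1 ∨ τ = -1) :
    (relw θ 4 0 τ τ = wP θ ∧ relw θ (-4) 0 τ τ = wD θ) ∨
      (relw θ 4 0 τ τ = wD θ ∧ relw θ (-4) 0 τ τ = wP θ) := by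
  have s1 := sinh_pos' h0 h1
  have s2 := sin52_pos h0 h1
  unfold relw natw wP wD
  rcases hτ with rfl | rfl
  · left
    have e1 : θ / 4 * 4 + 0 + (1 + 1) * ((3 * θ - π) / 4) = 5 * θ / 2 - π / 2 := by ring
    have e2 : θ / 4 * (-4) + 0 + (1 + 1) * ((3 * θ - π) / 4) = θ / 2 - π / 2 := by ring
    rw [e1, e2, cos_sub_pi_div_two, cos_sub_pi_div_two, abs_of_pos s1, abs_of_pos s2]
    norm_num
  · right
    have e1 : θ / 4 * 4 + 0 + (-1 + -1) * ((3 * θ - π) / 4) = -(θ / 2 - π / 2) := by ring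
    have e2 : θ / 4 * (-4) + 0 + (-1 + -1) * ((3 * θ - π) / 4) = -(5 * θ / 2 - π / 2) := by ring
    rw [e1, e2, cos_neg, cos_neg, cos_sub_pi_div_two, cos_sub_pi_div_two, abs_of_pos s1,
      abs_of_pos s2]
    norm_num

/-! ### junctions -/

theorem tj_cases (r : Row) (b : Bool) : (tj r b = 2 ∧ tj r (!b) = -2) ∨
    (tj r b = -2 ∧ tj r (!b) = 2) := by
  unfold tj
  cases ho : r.o <;> cases b <;> simp

theorem relw_mix {t d s : ℝ} (hs : s = 1 ∨ s = -1) :
    relw θ t d s (s * (-1)) = |cos (θ / 4 * t + d)| / sin θ := by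
  unfold relw natw
  have h1 : ¬ (s = s * (-1) ∧ 0 < s * t) := by
    rintro ⟨h, -⟩
    rcases hs with rfl | rfl <;> norm_num at h
  rw [if_neg h1]
  congr 3
  ring

/-- K1. -/
theorem jn_K1 (h0 : 0 < θ) (h1 : θ ≤ π / 3) (hs : r.s = 1 ∨ r.s = -1)
    (hj : |r.j| = (π - θ) / 2) (hη : r.η = -1) :
    (0 < tj r b * r.j ∧ (jn θ r b).w = 1 ∧ (jn θ r b).w' = 1) ∨
      (tj r b * r.j < 0 ∧ (jn θ r b).w = 0 ∧ (jn θ r b).w' = 0) := by
  have s1 := sin1_pos h0 h1
  have hp := pi_pos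
  have hjp : 0 < |r.j| := by rw [hj]; linarith
  have hw : (jn θ r b).w = |cos (θ / 4 * tj r b + -r.j)| / sin θ := by
    show relw θ (tj r b) (-r.j) r.s (r.s * r.η) = _
    rw [hη, relw_mix hs]
  have hw' : (jn θ r b).w' = |cos (θ / 4 * -tj r b + r.j)| / sin θ := by
    show relw θ (-tj r b) r.j r.s (r.s * r.η) = _
    rw [hη, relw_mix hs]
  have e0 : θ / 4 * -tj r b + r.j = -(θ / 4 * tj r b + -r.j) := by ring
  rw [hw, hw', e0, cos_neg]
  rcases abs_choice r.j with h | h <;> rw [hj] at h <;>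
    rcases tj_cases r b with ⟨h2, -⟩ | ⟨h2, -⟩ <;> rw [h2]
  · left
    rw [← h]
    have : θ / 4 * 2 + -((π - θ) / 2) = θ - π / 2 := by ring
    rw [this, cos_sub_pi_div_two, abs_of_pos s1, div_self s1.ne']
    exact ⟨by linarith, rfl, rfl⟩
  · right
    rw [← h]
    have : θ / 4 * (-2) + -((π - θ) / 2) = -(π / 2) := by ring
    rw [this, cos_neg, cos_pi_div_two, abs_zero, zero_div]
    exact ⟨by linarith, rfl, rfl⟩
  · right
    have h' : r.j = -((π - θ) / 2) := by linarith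
    rw [h']
    have : θ / 4 * 2 + -(-((π - θ) / 2)) = π / 2 := by ring
    rw [this, cos_pi_div_two, abs_zero, zero_div]
    exact ⟨by linarith, rfl, rfl⟩
  · left
    have h' : r.j = -((π - θ) / 2) := by linarith
    rw [h']
    have : θ / 4 * (-2) + -(-((π - θ) / 2)) = -(θ - π / 2) := by ring
    rw [this, cos_neg, cos_sub_pi_div_two, abs_of_pos s1, div_self s1.ne']
    exact ⟨by linarith, rfl, rfl⟩

/-- K2. -/
theorem jn_K2 (h0 : 0 < θ) (h1 : θ ≤ π / 3) (hs : r.s = 1 ∨ r.s = -1)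
    (hj : |r.j| = (π - 3 * θ) / 2) (hη : r.η = -1) :
    ((jn θ r b).w = 2 * cos θ ∧ (jn θ r b).w' = 2 * cos θ ∧
        (jn θ r (!b)).w = 1 ∧ (jn θ r (!b)).w' = 1) ∨
      ((jn θ r b).w = 1 ∧ (jn θ r b).w' = 1 ∧
        (jn θ r (!b)).w = 2 * cos θ ∧ (jn θ r (!b)).w' = 2 * cos θ) := by
  have s1 := sin1_pos h0 h1
  have s2 := sin2_pos h0 h1
  have hw : ∀ b, (jn θ r b).w = |cos (θ / 4 * tj r b + -r.j)| / sin θ := by
    intro b
    show relw θ (tj r b) (-r.j) r.s (r.s * r.η) = _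
    rw [hη, relw_mix hs]
  have hw' : ∀ b, (jn θ r b).w' = |cos (θ / 4 * tj r b + -r.j)| / sin θ := by
    intro b
    show relw θ (-tj r b) r.j r.s (r.s * r.η) = _
    rw [hη, relw_mix hs]
    have e0 : θ / 4 * -tj r b + r.j = -(θ / 4 * tj r b + -r.j) := by ring
    rw [e0, cos_neg]
  have v1 : |sin (2 * θ)| / sin θ = 2 * cos θ := by
    rw [abs_of_pos s2, sin_two_mul, mul_right_comm, mul_div_assoc, div_self s1.ne', mul_one]
  have v2 : |sin θ| / sin θ = 1 := by rw [abs_of_pos s1, div_self s1.ne']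
  rw [hw, hw', hw, hw']
  rcases abs_choice r.j with h | h <;> rw [hj] at h <;>
    rcases tj_cases r b with ⟨h2, h3⟩ | ⟨h2, h3⟩ <;> rw [h2, h3]
  · left
    rw [← h]
    have a1 : θ / 4 * 2 + -((π - 3 * θ) / 2) = 2 * θ - π / 2 := by ring
    have a2 : θ / 4 * (-2) + -((π - 3 * θ) / 2) = -(π / 2 - θ) := by ring
    rw [a1, a2, cos_neg, cos_sub_pi_div_two, cos_pi_div_two_sub, v1, v2]
    exact ⟨rfl, rfl, rfl, rfl⟩
  · right
    rw [← h]
    have a1 : θ / 4 * 2 + -((π - 3 * θ) / 2) = 2 * θ - π / 2 := by ring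
    have a2 : θ / 4 * (-2) + -((π - 3 * θ) / 2) = -(π / 2 - θ) := by ring
    rw [a1, a2, cos_neg, cos_sub_pi_div_two, cos_pi_div_two_sub, v1, v2]
    exact ⟨rfl, rfl, rfl, rfl⟩
  · right
    have h' : r.j = -((π - 3 * θ) / 2) := by linarith
    rw [h']
    have a1 : θ / 4 * 2 + -(-((π - 3 * θ) / 2)) = π / 2 - θ := by ring
    have a2 : θ / 4 * (-2) + -(-((π - 3 * θ) / 2)) = -(2 * θ - π / 2) := by ring
    rw [a1, a2, cos_neg, cos_sub_pi_div_two, cos_pi_div_two_sub, v1, v2]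
    exact ⟨rfl, rfl, rfl, rfl⟩
  · left
    have h' : r.j = -((π - 3 * θ) / 2) := by linarith
    rw [h']
    have a1 : θ / 4 * 2 + -(-((π - 3 * θ) / 2)) = π / 2 - θ := by ring
    have a2 : θ / 4 * (-2) + -(-((π - 3 * θ) / 2)) = -(2 * θ - π / 2) := by ring
    rw [a1, a2, cos_neg, cos_sub_pi_div_two, cos_pi_div_two_sub, v1, v2]
    exact ⟨rfl, rfl, rfl, rfl⟩

/-- K3: one face is bounded, the other is of zero type. -/
theorem jn_K3 (h0 : 0 < θ) (h1 : θ ≤ π / 3) (hs : r.s = 1 ∨ r.s = -1)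
    (hj : |r.j| = θ) (hη : r.η = 1) :
    (0 < tj r b * r.j ∧ (((jn θ r b).w = 2 * cos θ ∧ (jn θ r b).w' = (2 * cos θ)⁻¹) ∨
        ((jn θ r b).w = (2 * cos θ)⁻¹ ∧ (jn θ r b).w' = 2 * cos θ))) ∨
      (tj r b * r.j < 0 ∧ (((jn θ r b).w = 0 ∧ (jn θ r b).w' = sin (3 * θ) / sin (2 * θ)) ∨
        ((jn θ r b).w = sin (3 * θ) / sin (2 * θ) ∧ (jn θ r b).w' = 0))) := by
  have s1 := sin1_pos h0 h1
  have s2 := sin2_pos h0 h1
  have s3 : 0 ≤ sin (3 * θ) := sin_nonneg_of_nonneg_of_le_pi (by linarith) (by linarith)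
  have hc := one_le_two_cos h0 h1
  have v1 : |sin (2 * θ)| / sin θ = 2 * cos θ := by
    rw [abs_of_pos s2, sin_two_mul, mul_right_comm, mul_div_assoc, div_self s1.ne', mul_one]
  have v2 : |sin θ| / sin (2 * θ) = (2 * cos θ)⁻¹ := by
    have g1 : cos θ ≠ 0 := fun h => by rw [h] at hc; linarith
    have g2 := s1.ne'
    rw [abs_of_pos s1, sin_two_mul]
    field_simp
  have v3 : |sin (3 * θ)| / sin (2 * θ) = sin (3 * θ) / sin (2 * θ) := by rw [abs_of_nonneg s3]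
  have hw : (jn θ r b).w = relw θ (tj r b) (-r.j) r.s (r.s * r.η) := rfl
  have hw' : (jn θ r b).w' = relw θ (-tj r b) r.j r.s (r.s * r.η) := rfl
  rw [hw, hw', hη, mul_one]
  unfold relw natw
  have f1 : ∀ x : ℝ, cos (x + (1 + 1) * ((3 * θ - π) / 4)) = sin (x + 3 * θ / 2) := by
    intro x
    rw [← cos_sub_pi_div_two]
    congr 1
    ring
  have f2 : ∀ x : ℝ, cos (x + (-1 + -1) * ((3 * θ - π) / 4)) = sin (3 * θ / 2 - x) := by
    intro x
    rw [← cos_sub_pi_div_two, ← cos_neg]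
    congr 1
    ring
  rcases hs with hs | hs <;> rw [hs] <;>
    rcases abs_choice r.j with h | h <;> rw [hj] at h
  · rw [← h]
    rcases tj_cases r b with ⟨h2, -⟩ | ⟨h2, -⟩ <;> rw [h2, f1, f1]
    · left
      refine ⟨by linarith, Or.inr ⟨?_, ?_⟩⟩
      · rw [if_pos (by norm_num), ← v2]
        congr 3
        ring
      · rw [if_neg (by norm_num), ← v1]
        congr 3
        ring
    · right
      refine ⟨by linarith, Or.inl ⟨?_, ?_⟩⟩
      · rw [show θ / 4 * -2 + -θ + 3 * θ / 2 = 0 by ring, sin_zero, abs_zero, zero_div]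
      · rw [if_pos (by norm_num), ← v3]
        congr 3
        ring
  · have h' : r.j = -θ := by linarith
    rw [h']
    rcases tj_cases r b with ⟨h2, -⟩ | ⟨h2, -⟩ <;> rw [h2, f1, f1]
    · right
      refine ⟨by linarith, Or.inr ⟨?_, ?_⟩⟩
      · rw [if_pos (by norm_num), ← v3]
        congr 3
        ring
      · rw [show θ / 4 * -2 + -θ + 3 * θ / 2 = 0 by ring, sin_zero, abs_zero, zero_div]
    · left
      refine ⟨by linarith, Or.inl ⟨?_, ?_⟩⟩
      · rw [if_neg (by norm_num), ← v1]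
        congr 3
        ring
      · rw [if_pos (by norm_num), ← v2]
        congr 3
        ring
  · rw [← h]
    rcases tj_cases r b with ⟨h2, -⟩ | ⟨h2, -⟩ <;> rw [h2, f2, f2]
    · left
      refine ⟨by linarith, Or.inl ⟨?_, ?_⟩⟩
      · rw [if_neg (by norm_num), ← v1]
        congr 3
        ring
      · rw [if_pos (by norm_num), ← v2]
        congr 3
        ring
    · right
      refine ⟨by linarith, Or.inr ⟨?_, ?_⟩⟩
      · rw [if_pos (by norm_num), ← v3]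
        congr 3
        ring
      · rw [show 3 * θ / 2 - (θ / 4 * - -2 + θ) = 0 by ring, sin_zero, abs_zero, zero_div]
  · have h' : r.j = -θ := by linarith
    rw [h']
    rcases tj_cases r b with ⟨h2, -⟩ | ⟨h2, -⟩ <;> rw [h2, f2, f2]
    · right
      refine ⟨by linarith, Or.inl ⟨?_, ?_⟩⟩
      · rw [show 3 * θ / 2 - (θ / 4 * 2 + - -θ) = 0 by ring, sin_zero, abs_zero, zero_div]
      · rw [if_pos (by norm_num), ← v3]
        congr 3
        ring
    · left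
      refine ⟨by linarith, Or.inr ⟨?_, ?_⟩⟩
      · rw [if_pos (by norm_num), ← v2]
        congr 3
        ring
      · rw [if_neg (by norm_num), ← v1]
        congr 3
        ring

end Vale.Agent.P167.H506.Q
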