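import Vale.Agent.P167.H945.Q.HosR
import Vale.Agent.P167.H506.Q.Sp6

/-!
# P167, general `q`, block Q-START: change of the radii of the factors of the special points

`FT θ r s`: product of the factors, radius `s (i, k)` at the centre `k` of the row `i`. `FT_all`:
comparison of two families of radii, given all frozen squares.
-/

namespace Vale.Agent.P167.H506.Q

open Finset MeasureTheory
open Vale.Agent.P167.FK Vale.Agent.P167.FKA
open Vale.Agent.P167.H519 (IsLim)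
open Vale.Agent.P167.H825.Q (Row)
open Vale.Agent.P167.H680.T (uI mem_uI)
open Vale.Agent.P167.H945.Q (Tc ctr Plain Sp Tc_plain Tc_row Tc_loc EF_lift ind_prod Frz TT_eq)

variable {θ : ℝ} {ι : Type} [Fintype ι] [DecidableEq ι] {r : ι → Row} {σ : Cfg} {P : Measure Cfg}

/-- The product of the factors with given radii. -/
noncomputable def FT {ι : Type} [Fintype ι] (θ : ℝ) (r : ι → Row) (s : ι × Fin 3 → ℤ) (ω : Cfg) :
    ℝ := ∏ q, Tc θ (uI r) (r q.1) q.2 (s q) ω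

omit [DecidableEq ι] in
theorem FT_nonneg (h0 : 0 < θ) (h1 : θ ≤ Real.pi / 3) (s : ι × Fin 3 → ℤ) (ω : Cfg) :
    0 ≤ FT θ r s ω := prod_nonneg fun _ _ => H945.Q.Tc_nonneg h0 h1 _ _ _ _ _

omit [DecidableEq ι] in
theorem FT_LF (s : ι × Fin 3 → ℤ) : LF (FT θ r s) :=
  H945.Q.LF.prod _ fun _ _ => ⟨_, Tc_loc _ _ _ _⟩

/-- Geometry of the boxes: `W q` = radius of the zone of the centre `q`. -/
structure Zn (r : ι → Row) (W S : ι × Fin 3 → ℤ) : Prop where
  own : ∀ q, Sp (r q.1) q.2 → ∀ v ∈ Bq (ctr (r q.1) q.2) (W q), v ∈ uI r → v ∈ (r q.1).I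
  ed : ∀ i, ∀ e : Ed, hdv e ∈ (r i).I → tlv e ∈ uI r → tlv e ∈ (r i).I
  k0 : ∀ i, ¬ Plain (r i) → (r i).k0 ≤ (r i).L
  sep : ∀ q q', q ≠ q' → Sp (r q.1) q.2 → Sp (r q'.1) q'.2 →
    ∀ v ∈ Bq (ctr (r q.1) q.2) (W q), v ∉ Bq (ctr (r q'.1) q'.2) (S q')

omit [DecidableEq ι] in
theorem Zn.row {W S : ι × Fin 3 → ℤ} (h : Zn r W S) {q : ι × Fin 3} (hq : Sp (r q.1) q.2) {R : ℤ}
    (hR : R ≤ W q) (ω : Cfg) :
    Tc θ (uI r) (r q.1) q.2 R ω = Tc θ (r q.1).I (r q.1) q.2 R ω := by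
  refine Tc_row (fun v hv => mem_uI.2 ⟨_, hv⟩) (fun v hv => h.own q hq v ?_) (h.ed q.1) (h.k0 q.1)
  rw [mem_bq] at hv ⊢
  omega

/-- **One centre.** -/
theorem FT_step (h0 : 0 < θ) (h1 : θ ≤ Real.pi / 3) (hP : IsLim (2 * Real.cos θ) P)
    (hg : ∀ᵐ ω ∂P, Good ω) (hσ : Frz r σ) {W S s : ι × Fin 3 → ℤ} (hZ : Zn r W S)
    (hs : ∀ q, s q ≤ S q) {C : ℝ} (hC : 1 ≤ C) {q : ι × Fin 3} {ρ : ℤ} (hq : s q ≤ W q)
    (hρ : ρ ≤ W q)
    (cmp : Sp (r q.1) q.2 → ∀ η : Cfg, Good η → (∀ v ∈ (r q.1).I, η v = (r q.1).fr v) →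
      Ex (2 * Real.cos θ) (Bq (ctr (r q.1) q.2) (W q) \ (r q.1).I) η
          (Tc θ (r q.1).I (r q.1) q.2 (s q)) ≤
        C * Ex (2 * Real.cos θ) (Bq (ctr (r q.1) q.2) (W q) \ (r q.1).I) η
          (Tc θ (r q.1).I (r q.1) q.2 ρ)) :
    EF P (uI r) σ (FT θ r s) ≤ C * EF P (uI r) σ (FT θ r (Function.update s q ρ)) := by
  have hc := one_le_two_cos h0 h1
  by_cases hS : Sp (r q.1) q.2
  · have e1 : FT θ r s = fun ω => (∏ q' ∈ univ.erase q, Tc θ (uI r) (r q'.1) q'.2 (s q') ω) *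
        Tc θ (r q.1).I (r q.1) q.2 (s q) ω := by
      funext ω
      rw [← hZ.row hS hq ω]
      exact (Finset.prod_erase_mul univ _ (mem_univ q)).symm
    have e2 : FT θ r (Function.update s q ρ) = fun ω =>
        (∏ q' ∈ univ.erase q, Tc θ (uI r) (r q'.1) q'.2 (s q') ω) *
        Tc θ (r q.1).I (r q.1) q.2 ρ ω := by
      funext ω
      unfold FT
      rw [← Finset.prod_erase_mul univ _ (mem_univ q), Function.update_self, hZ.row hS hρ ω]
      congr 1
      refine prod_congr rfl fun q' hq' => ?_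
      rw [Function.update_of_ne (ne_of_mem_erase hq')]
    rw [e1, e2]
    refine EF_lift hc hP hg (D1 := Bq (ctr (r q.1) q.2) (W q) \ (r q.1).I) ?_
      (fun ω => prod_nonneg fun _ _ => H945.Q.Tc_nonneg h0 h1 _ _ _ _ _) ?_
      (H945.Q.LF.prod _ fun _ _ => ⟨_, Tc_loc _ _ _ _⟩) ⟨_, Tc_loc _ _ _ _⟩ ⟨_, Tc_loc _ _ _ _⟩
      fun ζ hζ hk' => cmp hS ζ hζ fun v hv => ?_
    · rw [Finset.disjoint_left]
      intro v hv hv'
      exact (mem_sdiff.1 hv).2 (hZ.own q hS v (mem_sdiff.1 hv).1 hv')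
    · refine ind_prod _ fun q' hq' => ?_
      by_cases hS' : Sp (r q'.1) q'.2
      · refine Loc.ind (Finset.disjoint_left.2 fun v hv hv' => ?_)
          (Tc_loc (uI r) (r q'.1) q'.2 (s q'))
        refine hZ.sep q q' (ne_of_mem_erase hq').symm hS hS' v (mem_sdiff.1 hv').1 ?_
        have := hs q'
        rw [mem_bq] at hv ⊢
        omega
      · intro ω ω' _
        rw [Tc_plain hS', Tc_plain hS']
    · rw [hk' v (mem_uI.2 ⟨_, hv⟩)]
      exact hσ q.1 v hv
  · have e : FT θ r (Function.update s q ρ) = FT θ r s := by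
      funext ω
      refine prod_congr rfl fun q' _ => ?_
      by_cases h : q' = q
      · subst h
        rw [Tc_plain hS, Tc_plain hS]
      · rw [Function.update_of_ne h]
    rw [e]
    exact le_mul_of_one_le_left (EF_nonneg fun ω => FT_nonneg h0 h1 _ _) hC

/-- **All centres.** -/
theorem FT_all (h0 : 0 < θ) (h1 : θ ≤ Real.pi / 3) (hP : IsLim (2 * Real.cos θ) P)
    (hg : ∀ᵐ ω ∂P, Good ω) (hσ : Frz r σ) {W S s s1 : ι × Fin 3 → ℤ} (hZ : Zn r W S)
    (hs : ∀ q, s q ≤ S q) (hs1 : ∀ q, s1 q ≤ S q) (hsW : ∀ q, s q ≤ W q)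
    (hs1W : ∀ q, s1 q ≤ W q) {C : ℝ} (hC : 1 ≤ C)
    (cmp : ∀ q, Sp (r q.1) q.2 → ∀ η : Cfg, Good η → (∀ v ∈ (r q.1).I, η v = (r q.1).fr v) →
      Ex (2 * Real.cos θ) (Bq (ctr (r q.1) q.2) (W q) \ (r q.1).I) η
          (Tc θ (r q.1).I (r q.1) q.2 (s q)) ≤
        C * Ex (2 * Real.cos θ) (Bq (ctr (r q.1) q.2) (W q) \ (r q.1).I) η
          (Tc θ (r q.1).I (r q.1) q.2 (s1 q))) :
    EF P (uI r) σ (FT θ r s) ≤
      C ^ Fintype.card (ι × Fin 3) * EF P (uI r) σ (FT θ r s1) := by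
  have hC0 : 0 ≤ C := by linarith
  have key : ∀ J : Finset (ι × Fin 3), EF P (uI r) σ (FT θ r s) ≤
      C ^ J.card * EF P (uI r) σ (FT θ r fun q => if q ∈ J then s1 q else s q) := by
    intro J
    induction J using Finset.induction_on with
    | empty =>
      simp
    | insert q J hqJ ih =>
      have h2 := FT_step h0 h1 hP hg hσ (s := fun q => if q ∈ J then s1 q else s q) (q := q)
        (ρ := s1 q) hZ (fun q' => by split_ifs; exacts [hs1 q', hs q']) hC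
        (by rw [if_neg hqJ]; exact hsW q) (hs1W q) (by
          rw [if_neg hqJ]
          exact cmp q)
      have e : Function.update (fun q => if q ∈ J then s1 q else s q) q (s1 q) =
          fun q' => if q' ∈ insert q J then s1 q' else s q' := by
        funext q'
        by_cases h : q' = q
        · subst h
          rw [Function.update_self, if_pos (mem_insert_self _ _)]
        · rw [Function.update_of_ne h]
          simp [mem_insert, h]
      rw [e] at h2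
      rw [card_insert_of_notMem hqJ, pow_succ]
      calc _ ≤ C ^ J.card * _ := ih
        _ ≤ C ^ J.card * (C * _) := mul_le_mul_of_nonneg_left h2 (pow_nonneg hC0 _)
        _ = _ := by ring
  have h2 := key univ
  simpa using h2

/-! ### one row -/

theorem uI_unit (r₀ : Row) : uI (fun _ : Unit => r₀) = r₀.I := by
  ext v
  rw [mem_uI]
  simp

end Vale.Agent.P167.H506.Q
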